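import Crest.Agent.R072.KEDefs

/-! R072: weighted count of near scales. -/

set_option autoImplicit false

namespace Crest.Agent.R072.Kernel

open Finset Filter Topology Crest.Agent.R072

theorem near_scale {m : ℕ} {l : ℤ} {r : ℕ} (h : near m l r) :
    m ≤ Nat.log 2 (r / 10) ∧ (2 : ℤ) ^ (Nat.log 2 (r / 10) - m) ≤ |l| := by
  have h1 := near_pow_le h
  have h2 : 2 ^ m ≤ r / 10 := by
    rw [Nat.le_div_iff_mul_le (by norm_num)]
    linarith
  have hm : m ≤ Nat.log 2 (r / 10) := Nat.le_log_of_pow_le (by norm_num) h2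
  refine ⟨hm, ?_⟩
  have h3 : r / 10 ≠ 0 := by
    have : 0 < 2 ^ m := by positivity
    omega
  have h4 : 2 ^ (Nat.log 2 (r / 10)) ≤ r / 10 := Nat.pow_log_le_self 2 h3
  have h5 : 10 * 2 ^ (Nat.log 2 (r / 10)) ≤ r := by
    have := Nat.div_mul_le_self r 10
    omega
  have h6 : 2 ^ (Nat.log 2 (r / 10)) = 2 ^ (Nat.log 2 (r / 10) - m) * 2 ^ m := by
    rw [← pow_add, Nat.sub_add_cancel hm]
  have h7 : (10 : ℤ) * (2 ^ (Nat.log 2 (r / 10) - m) * 2 ^ m) ≤ r := by
    rw [h6] at h5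
    exact_mod_cast h5
  obtain ⟨g1, g2⟩ := h
  have g3 := (abs_le.mp g2).2
  have hp : (0 : ℤ) < 2 ^ m := by positivity
  have h8 : (10 * 2 ^ (Nat.log 2 (r / 10) - m)) * (2 : ℤ) ^ m ≤ (|l| + 10) * 2 ^ m := by
    linarith
  have h9 := le_of_mul_le_mul_right h8 hp
  have h10 : (0 : ℤ) < 2 ^ (Nat.log 2 (r / 10) - m) := by positivity
  linarith

theorem near_window {m : ℕ} {l : ℤ} {r : ℕ} (h : near m l r) :
    l ∈ Icc (((r / 2 ^ m : ℕ) : ℤ) - 10) (((r / 2 ^ m : ℕ) : ℤ) + 10) ∪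
      Icc (-(((r / 2 ^ m : ℕ) : ℤ) + 10)) (-(((r / 2 ^ m : ℕ) : ℤ) - 10)) := by
  obtain ⟨_, g2⟩ := h
  have hp : (0 : ℤ) < 2 ^ m := by positivity
  have g3 := (abs_le.mp g2).2
  have g4 := (abs_le.mp g2).1
  have d1 : ((r / 2 ^ m : ℕ) : ℤ) * 2 ^ m ≤ r := by
    exact_mod_cast Nat.div_mul_le_self r (2 ^ m)
  have d2 : (r : ℤ) < (((r / 2 ^ m : ℕ) : ℤ) + 1) * 2 ^ m := by
    have h3 : r < (r / 2 ^ m + 1) * 2 ^ m := by
      have := Nat.lt_div_mul_add (a := r) (b := 2 ^ m) (by positivity)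
      linarith
    exact_mod_cast h3
  have u : |l| ≤ ((r / 2 ^ m : ℕ) : ℤ) + 10 := by
    have : |l| * 2 ^ m < (((r / 2 ^ m : ℕ) : ℤ) + 11) * 2 ^ m := by linarith
    have := lt_of_mul_lt_mul_right this hp.le
    omega
  have v : ((r / 2 ^ m : ℕ) : ℤ) - 10 ≤ |l| := by
    have : (((r / 2 ^ m : ℕ) : ℤ) - 10) * 2 ^ m ≤ |l| * 2 ^ m := by linarith
    exact le_of_mul_le_mul_right this hp
  rw [mem_union, mem_Icc, mem_Icc]
  rcases abs_cases l with ⟨h1, _⟩ | ⟨h1, _⟩
  · left; constructor <;> linarith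
  · right; constructor <;> linarith

theorem card_window (c : ℤ) :
    (Icc (c - 10) (c + 10) ∪ Icc (-(c + 10)) (-(c - 10))).card ≤ 42 := by
  refine le_trans (card_union_le _ _) ?_
  rw [Int.card_Icc, Int.card_Icc]
  omega

theorem nu_sum' : ∃ C : ℝ, 0 ≤ C ∧ ∀ (r : ℕ) (Λ : ℕ),
    ∑ l ∈ Icc (-(Λ : ℤ)) Λ, (1 + |(l : ℝ)|) ^ (-(1 / 4) : ℝ) * nu r l ≤ C := by
  set q : ℝ := (2 : ℝ) ^ (-(1 / 4) : ℝ) with hq
  have hq0 : 0 < q := Real.rpow_pos_of_pos (by norm_num) _
  have hq1 : q < 1 := Real.rpow_lt_one_of_one_lt_of_neg (by norm_num) (by norm_num)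
  refine ⟨42 * (1 - q)⁻¹, by have : 0 < 1 - q := by linarith
                             positivity, ?_⟩
  intro r Λ
  set K := Nat.log 2 (r / 10) with hK
  have step : ∀ (l : ℤ) (m : ℕ), (1 + |(l : ℝ)|) ^ (-(1 / 4) : ℝ) *
      (if near m l r then (1 : ℝ) else 0) ≤ (if m ≤ K then q ^ (K - m) else 0) *
      (if l ∈ Icc (((r / 2 ^ m : ℕ) : ℤ) - 10) (((r / 2 ^ m : ℕ) : ℤ) + 10) ∪
      Icc (-(((r / 2 ^ m : ℕ) : ℤ) + 10)) (-(((r / 2 ^ m : ℕ) : ℤ) - 10)) then 1 else 0) := by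
    intro l m
    by_cases h : near m l r
    · obtain ⟨h1, h2⟩ := near_scale h
      rw [if_pos h, if_pos h1, if_pos (near_window h), mul_one, mul_one]
      have h3 : ((2 : ℝ) ^ (K - m)) ≤ 1 + |(l : ℝ)| := by
        have : ((2 ^ (K - m) : ℤ) : ℝ) ≤ ((|l| : ℤ) : ℝ) := by exact_mod_cast h2
        push_cast at this
        linarith
      rw [hq, Real.rpow_pow_comm (by norm_num)]
      exact Real.rpow_le_rpow_of_nonpos (by positivity) h3 (by norm_num)
    · rw [if_neg h, mul_zero]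
      apply mul_nonneg
      · split_ifs
        · positivity
        · exact le_refl _
      · split_ifs <;> norm_num
  have e : ∀ l : ℤ, (1 + |(l : ℝ)|) ^ (-(1 / 4) : ℝ) * nu r l =
      ∑ m ∈ range (r + 1), (1 + |(l : ℝ)|) ^ (-(1 / 4) : ℝ) *
        (if near m l r then (1 : ℝ) else 0) := by
    intro l
    rw [← mul_sum, ← sum_filter, sum_const, nsmul_eq_mul, mul_one]
    rfl
  rw [sum_congr rfl fun l _ => e l, sum_comm]
  calc _ ≤ ∑ m ∈ range (r + 1), 42 * (if m ≤ K then q ^ (K - m) else 0) := by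
        refine sum_le_sum fun m _ => ?_
        refine le_trans (sum_le_sum fun l _ => step l m) ?_
        rw [← mul_sum, mul_comm]
        apply mul_le_mul_of_nonneg_right
        · rw [← sum_filter, sum_const, nsmul_eq_mul, mul_one]
          have h1 : ((Icc (-(Λ : ℤ)) Λ).filter (fun l => l ∈
              Icc (((r / 2 ^ m : ℕ) : ℤ) - 10) (((r / 2 ^ m : ℕ) : ℤ) + 10) ∪
              Icc (-(((r / 2 ^ m : ℕ) : ℤ) + 10)) (-(((r / 2 ^ m : ℕ) : ℤ) - 10)))).card ≤ 42 := by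
            refine le_trans (card_le_card ?_) (card_window ((r / 2 ^ m : ℕ) : ℤ))
            intro x hx
            exact (mem_filter.mp hx).2
          exact_mod_cast h1
        · split_ifs
          · positivity
          · exact le_refl _
    _ = 42 * ∑ m ∈ (range (r + 1)).filter (fun m => m ≤ K), q ^ (K - m) := by
        rw [← mul_sum, sum_filter]
    _ ≤ 42 * ∑ m ∈ range (K + 1), q ^ (K - m) := by
        apply mul_le_mul_of_nonneg_left _ (by norm_num)
        apply sum_le_sum_of_subset_of_nonneg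
        · intro m hm
          rw [mem_filter] at hm
          exact mem_range.mpr (by omega)
        · intro m _ _
          positivity
    _ = 42 * ∑ m ∈ range (K + 1), q ^ m := by
        congr 1
        rw [← sum_range_reflect (fun m => q ^ m) (K + 1)]
        refine sum_congr rfl fun m _ => ?_
        congr 1
    _ ≤ 42 * (1 - q)⁻¹ := by
        apply mul_le_mul_of_nonneg_left _ (by norm_num)
        rw [← tsum_geometric_of_lt_one hq0.le hq1]
        exact (summable_geometric_of_lt_one hq0.le hq1).sum_le_tsum _ (fun i _ => by positivity)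

end Crest.Agent.R072.Kernel
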