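import Crest.Agent.R072.KEBasic

/-! R072: variation in the scale of the step coefficient. -/

set_option autoImplicit false

namespace Crest.Agent.R072.Kernel

open Finset Filter Topology Crest.Agent.R072

theorem stepK_abs_le (r : ℕ) (s : ℤ) : |stepK r s| ≤ 1 / |(s : ℝ)| := by
  unfold stepK
  split_ifs
  · rw [abs_div, abs_one]
  · rw [abs_zero]; positivity

/-- the step has passed the window -/
def inn (m : ℕ) (l : ℤ) (r : ℕ) : Prop := |l| * 2 ^ m + 10 * 2 ^ m < (r : ℤ)

instance (m : ℕ) (l : ℤ) (r : ℕ) : Decidable (inn m l r) := by unfold inn; infer_instance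

theorem inn_anti {m : ℕ} {l : ℤ} {r : ℕ} (h : inn (m + 1) l r) : inn m l r := by
  unfold inn at *
  have hp : (0 : ℤ) < 2 ^ m := by positivity
  have h2 : (2 : ℤ) ^ (m + 1) = 2 * 2 ^ m := by rw [pow_succ]; ring
  rw [h2] at h
  have : 0 ≤ |l| * 2 ^ m := by positivity
  nlinarith

theorem sum_near_le (r : ℕ) (l : ℤ) (M : ℕ) :
    ∑ m ∈ range M, (if near m l r then (1 : ℝ) else 0) ≤ nu r l := by
  rw [← sum_filter, sum_const, nsmul_eq_mul, mul_one]
  unfold nu
  have : ((range M).filter (fun m => near m l r)) ⊆ ((range (r + 1)).filter (fun m => near m l r)) := by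
    intro m hm
    rw [mem_filter] at hm ⊢
    exact ⟨mem_range.mpr (near_le hm.2), hm.2⟩
  exact_mod_cast card_le_card this

theorem sum_near_succ_le (r : ℕ) (l : ℤ) (M : ℕ) :
    ∑ m ∈ range M, (if near (m + 1) l r then (1 : ℝ) else 0) ≤ nu r l := by
  have h := sum_near_le r l (M + 1)
  rw [sum_range_succ'] at h
  have : (0 : ℝ) ≤ if near 0 l r then (1 : ℝ) else 0 := by split_ifs <;> norm_num
  linarith

theorem sum_inn_le (r : ℕ) (l : ℤ) (M : ℕ) :
    ∑ m ∈ range M, ((if inn m l r then (1 : ℝ) else 0) - (if inn (m + 1) l r then 1 else 0)) ≤ 1 := by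
  rw [sum_range_sub' (fun m => if inn m l r then (1 : ℝ) else 0)]
  have h1 : (if inn 0 l r then (1 : ℝ) else 0) ≤ 1 := by split_ifs <;> norm_num
  have h2 : (0 : ℝ) ≤ (if inn M l r then (1 : ℝ) else 0) := by split_ifs <;> norm_num
  linarith

theorem var_far_aux {m : ℕ} {l : ℤ} {r : ℕ} (h20 : 20 ≤ |l|) :
    |ee (stepK r) (m + 1) l - ee (stepK r) m l| ≤ 46 / (1 + |(l : ℝ)|) ^ 2 * (1 / 2) ^ m +
      20 / (1 + |(l : ℝ)|) ^ 2 *
        ((if inn m l r then (1 : ℝ) else 0) - (if inn (m + 1) l r then 1 else 0)) +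
      4 / (1 + |(l : ℝ)|) * ((if near m l r then (1 : ℝ) else 0) +
        (if near (m + 1) l r then (1 : ℝ) else 0)) := by
  have hp : 0 < 1 + |(l : ℝ)| := by positivity
  have n1 : 0 ≤ 46 / (1 + |(l : ℝ)|) ^ 2 * (1 / 2) ^ m := by positivity
  have n2 : 0 ≤ 20 / (1 + |(l : ℝ)|) ^ 2 *
        ((if inn m l r then (1 : ℝ) else 0) - (if inn (m + 1) l r then 1 else 0)) := by
    apply mul_nonneg (by positivity)
    by_cases h : inn (m + 1) l r
    · rw [if_pos h, if_pos (inn_anti h)]; norm_num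
    · rw [if_neg h]; split_ifs <;> norm_num
  have n3 : 0 ≤ 4 / (1 + |(l : ℝ)|) := by positivity
  by_cases hnear : near m l r ∨ near (m + 1) l r
  · have h1 : (1 : ℝ) ≤ (if near m l r then (1 : ℝ) else 0) +
        (if near (m + 1) l r then (1 : ℝ) else 0) := by
      rcases hnear with h | h
      · rw [if_pos h]; split_ifs <;> norm_num
      · rw [if_pos h]; split_ifs <;> norm_num
    have h2 : |ee (stepK r) (m + 1) l - ee (stepK r) m l| ≤ 4 / (1 + |(l : ℝ)|) := by
      refine le_trans (abs_sub _ _) ?_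
      have a1 := ee_crude_far (stepK_abs_le r) (m := m + 1) h20
      have a2 := ee_crude_far (stepK_abs_le r) (m := m) h20
      have : 4 / (1 + |(l : ℝ)|) = 2 / (1 + |(l : ℝ)|) + 2 / (1 + |(l : ℝ)|) := by ring
      rw [this]
      exact add_le_add a1 a2
    have h3 : 4 / (1 + |(l : ℝ)|) * 1 ≤ 4 / (1 + |(l : ℝ)|) *
        ((if near m l r then (1 : ℝ) else 0) + (if near (m + 1) l r then (1 : ℝ) else 0)) :=
      mul_le_mul_of_nonneg_left h1 n3
    linarith
  · push Not at hnear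
    have n4 : 0 ≤ 4 / (1 + |(l : ℝ)|) * ((if near m l r then (1 : ℝ) else 0) +
        (if near (m + 1) l r then (1 : ℝ) else 0)) := by
      rw [if_neg hnear.1, if_neg hnear.2]; simp
    have cls : ∀ k, ¬ near k l r → inn k l r ∨ (r : ℤ) < |l| * 2 ^ k - 10 * 2 ^ k := by
      intro k hk
      have h1 : ¬ |(r : ℤ) - |l| * 2 ^ k| ≤ 10 * 2 ^ k := fun h => hk ⟨h20, h⟩
      rw [abs_le, not_and_or, not_le, not_le] at h1
      unfold inn
      rcases h1 with h1 | h1
      · right; linarith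
      · left; linarith
    rcases cls m hnear.1 with hm | hm
    · rcases cls (m + 1) hnear.2 with hm1 | hm1
      · have := ee_inf_scale_far (m := m) h20
        rw [ee_step_eq_inf hm, ee_step_eq_inf hm1]
        linarith
      · have hn : ¬ inn (m + 1) l r := by
          intro h
          unfold inn at h
          have hp : (0 : ℤ) < 2 ^ (m + 1) := by positivity
          linarith
        rw [ee_step_eq_inf hm, ee_step_zero h20 hm1, if_pos hm, if_neg hn, zero_sub, abs_neg] 
        have := ee_inf_far (m := m) h20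
        rw [sub_zero, mul_one]
        linarith
    · have hm1 : (r : ℤ) < |l| * 2 ^ (m + 1) - 10 * 2 ^ (m + 1) := by
        have hp : (0 : ℤ) < 2 ^ m := by positivity
        have h2 : (2 : ℤ) ^ (m + 1) = 2 * 2 ^ m := by rw [pow_succ]; ring
        rw [h2]
        nlinarith
      rw [ee_step_zero h20 hm, ee_step_zero h20 hm1, sub_zero, abs_zero]
      linarith

theorem var_far {r : ℕ} {l : ℤ} (h20 : 20 ≤ |l|) (M : ℕ) :
    ∑ m ∈ range M, |ee (stepK r) (m + 1) l - ee (stepK r) m l| ≤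
      112 / (1 + |(l : ℝ)|) * (1 / (1 + |(l : ℝ)|) + nu r l) := by
  refine le_trans (sum_le_sum fun m _ => var_far_aux h20) ?_
  rw [sum_add_distrib, sum_add_distrib, ← mul_sum, ← mul_sum, ← mul_sum, sum_add_distrib]
  have hp : 0 < 1 + |(l : ℝ)| := by positivity
  have a1 : 46 / (1 + |(l : ℝ)|) ^ 2 * ∑ m ∈ range M, (1 / 2 : ℝ) ^ m ≤
      46 / (1 + |(l : ℝ)|) ^ 2 * 2 := mul_le_mul_of_nonneg_left (geom12 M) (by positivity)
  have a2 := mul_le_mul_of_nonneg_left (sum_inn_le r l M)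
    (by positivity : 0 ≤ 20 / (1 + |(l : ℝ)|) ^ 2)
  have a3 := mul_le_mul_of_nonneg_left (add_le_add (sum_near_le r l M) (sum_near_succ_le r l M))
    (by positivity : 0 ≤ 4 / (1 + |(l : ℝ)|))
  refine le_trans (add_le_add (add_le_add a1 a2) a3) ?_
  have hn : (0 : ℝ) ≤ nu r l := Nat.cast_nonneg _
  have e : 112 / (1 + |(l : ℝ)|) * (1 / (1 + |(l : ℝ)|) + nu r l) -
      (46 / (1 + |(l : ℝ)|) ^ 2 * 2 + 20 / (1 + |(l : ℝ)|) ^ 2 * 1 +
        4 / (1 + |(l : ℝ)|) * ((nu r l : ℝ) + nu r l)) = 104 / (1 + |(l : ℝ)|) * nu r l := by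
    field_simp
    ring
  have : 0 ≤ 104 / (1 + |(l : ℝ)|) * nu r l := by positivity
  linarith

/-- variation in `m` of the step coefficient -/
theorem ee_step_var' : ∃ C : ℝ, 0 ≤ C ∧ ∀ (r : ℕ) (l : ℤ) (M : ℕ),
    ∑ m ∈ range M, |ee (stepK r) (m + 1) l - ee (stepK r) m l| ≤
      C / (1 + |(l : ℝ)|) * (1 / (1 + |(l : ℝ)|) + nu r l) := by
  refine ⟨403200, by norm_num, ?_⟩
  intro r l M
  have hp : 0 < 1 + |(l : ℝ)| := by positivity
  have hn : (0 : ℝ) ≤ nu r l := Nat.cast_nonneg _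
  by_cases hl : |l| < 20
  · refine le_trans (step_var_near r M hl) ?_
    have h1 := abs_l_lt hl
    calc (1008 : ℝ) ≤ 403200 / (1 + |(l : ℝ)|) * (1 / (1 + |(l : ℝ)|)) := by
          rw [div_mul_div_comm, mul_one, le_div_iff₀ (by positivity)]
          nlinarith
      _ ≤ _ := by
          apply mul_le_mul_of_nonneg_left _ (by positivity)
          linarith
  · refine le_trans (var_far (by omega) M) ?_
    apply mul_le_mul_of_nonneg_right _ (by positivity)
    apply div_le_div_of_nonneg_right _ hp.le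
    norm_num

end Crest.Agent.R072.Kernel
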