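import Crest.Agent.R072.KEMain
import Crest.Agent.R072.KEVar
import Crest.Agent.R072.KENu

/-! R072: kernel coefficient estimates (blueprint part 2, "Kernel").
Definitions of `near`, `nu`, `near_le`: `KEDefs`; `ee_step_zero`, `ee_step_const`, `ee_step_inf`,
`ee_crude`: `KEBasic`; reduction of the kernel theorem: `KEMain`. -/

set_option autoImplicit false

namespace Crest.Agent.R072.Kernel

open Finset Filter Topology Crest.Agent.R072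

/-- variation in `m` of the step coefficient -/
theorem ee_step_var : ∃ C : ℝ, 0 ≤ C ∧ ∀ (r : ℕ) (l : ℤ) (M : ℕ),
    ∑ m ∈ range M, |ee (stepK r) (m + 1) l - ee (stepK r) m l| ≤
      C / (1 + |(l : ℝ)|) * (1 / (1 + |(l : ℝ)|) + nu r l) :=
  ee_step_var'

theorem nu_sum : ∃ C : ℝ, 0 ≤ C ∧ ∀ (r : ℕ) (Λ : ℕ),
    ∑ l ∈ Icc (-(Λ : ℤ)) Λ, (1 + |(l : ℝ)|) ^ (-(1 / 4) : ℝ) * nu r l ≤ C :=
  nu_sum'

/-- **Kernel theorem.** -/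
theorem kernel_main : ∃ C : ℝ, 0 ≤ C ∧ ∀ (n : ℕ) (σ : Fin n → ℝ) (A B : Fin n → ℕ), 1 ≤ n →
    (∀ j, |σ j| ≤ 1) → (∀ j, A j ≤ B j) → (∀ i j, i ≠ j → B i ≤ A j ∨ B j ≤ A i) →
    ∀ Λ : ℕ, (∀ j, B j + 10 ≤ Λ) →
    ∃ (e : ℕ → ℤ → ℝ) (ν : ℤ → ℝ), (∀ l, 0 ≤ ν l) ∧
      (∀ m l, |e m l| ≤ C / (1 + |(l : ℝ)|) * (1 / (1 + |(l : ℝ)|) + min 1 (ν l))) ∧
      (∀ M l, ∑ m ∈ range M, |e (m + 1) l - e m l| ≤
        C / (1 + |(l : ℝ)|) * (n / (1 + |(l : ℝ)|) + ν l)) ∧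
      (∑ l ∈ Icc (-(Λ : ℤ)) Λ, (1 + |(l : ℝ)|) ^ (-(1 / 4) : ℝ) * ν l ≤ C * n) ∧
      (∀ T : ℤ → ℝ, (∃ B', ∀ s, |T s| ≤ B') →
        Tendsto (fun M : ℕ => ∑ m ∈ range M, ∑ l ∈ Icc (-(Λ : ℤ)) Λ, e m l * psiT (2 ^ m) T l)
          atTop (𝓝 (∑ j, σ j * ∑ s ∈ Ioc (A j) (B j), (T s - T (-(s : ℤ))) / (s : ℝ)))) :=
  kernel_main_of ee_step_var nu_sum

end Crest.Agent.R072.Kernel
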