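import Crest.Agent.R072.Jump
import Crest.Agent.R072.KernelEst

/-! R072: assembly, part A: pairing of boxes with the kernel function. -/

set_option autoImplicit false

namespace Crest.Agent.R072.Assembly

open Finset Filter Topology Crest.Agent.R072 Crest.Agent.R072.Lattice Crest.Agent.R072.Jump
  Crest.Agent.R072.Kernel

lemma swap3 {α β γ : Type*} [Fintype α] [Fintype β] [Fintype γ] (f : α → β → γ → ℝ) :
    ∑ a, ∑ b, ∑ c, f a b c = ∑ c, ∑ a, ∑ b, f a b c := by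
  rw [show (∑ a, ∑ b, ∑ c, f a b c) = ∑ a, ∑ c, ∑ b, f a b c from
    Finset.sum_congr rfl fun a _ => Finset.sum_comm]
  exact Finset.sum_comm

lemma swap5 {α β γ δ ε : Type*} [Fintype α] [Fintype β] [Fintype γ] [Fintype δ] [Fintype ε]
    (f : α → β → γ → δ → ε → ℝ) :
    ∑ a, ∑ b, ∑ c, ∑ d, ∑ e, f a b c d e = ∑ c, ∑ d, ∑ e, ∑ a, ∑ b, f a b c d e := by
  rw [swap3 (fun a b c => ∑ d, ∑ e, f a b c d e)]
  refine Finset.sum_congr rfl fun c _ => ?_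
  rw [swap3 (fun a b d => ∑ e, f a b c d e)]
  refine Finset.sum_congr rfl fun d _ => ?_
  exact swap3 _

/-- pairing of all boxes with the kernel function `psiT` -/
theorem sum_Lbox {Q : ℕ} [NeZero Q] (F0 F1 F2 : ZMod Q → ZMod Q → ℝ) {N : ℕ} (hN : 0 < N) (l : ℤ) :
    ∑ p0 : ZMod Q, ∑ p1 : ZMod Q, Lbox F0 F1 F2 N p0 p1 ((l : ZMod Q) * (N : ZMod Q) - p0 - p1) =
      (1 / 8) * ∑ x0 : ZMod Q, ∑ x1 : ZMod Q, F0 x0 x1 *
        psiT N (fun s : ℤ => F1 x1 ((s : ZMod Q) - x0 - x1) * F2 ((s : ZMod Q) - x0 - x1) x0) l := by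
  have hN' : (N : ℝ) ≠ 0 := by positivity
  set G : ZMod Q → ZMod Q → ZMod Q → ℝ := fun a b c => ∑ x0 : ZMod Q, ∑ x1 : ZMod Q, F0 x0 x1 *
     (F1 x1 ((l : ZMod Q) * N + a + b + c - x0 - x1) *
      F2 ((l : ZMod Q) * N + a + b + c - x0 - x1) x0) with hG
  have key : ∀ a b c : ZMod Q, ∑ p0 : ZMod Q, ∑ p1 : ZMod Q,
      (F0 (p0 + a) (p1 + b) * F1 (p1 + b) ((l : ZMod Q) * (N : ZMod Q) - p0 - p1 + c) *
        F2 ((l : ZMod Q) * (N : ZMod Q) - p0 - p1 + c) (p0 + a)) = G a b c := by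
    intro a b c
    simp only [hG]
    symm
    rw [← Equiv.sum_comp (Equiv.addRight a)]
    refine Finset.sum_congr rfl fun p0 _ => ?_
    rw [← Equiv.sum_comp (Equiv.addRight b)]
    refine Finset.sum_congr rfl fun p1 _ => ?_
    simp only [Equiv.coe_addRight]
    have e : (l : ZMod Q) * N + a + b + c - (p0 + a) - (p1 + b)
      = (l : ZMod Q) * (N : ZMod Q) - p0 - p1 + c := by ring
    rw [e]; ring
  have hL : ∑ p0 : ZMod Q, ∑ p1 : ZMod Q,
      Lbox F0 F1 F2 N p0 p1 ((l : ZMod Q) * (N : ZMod Q) - p0 - p1) =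
      (1 / ((N : ℝ) + N) ^ 3) * ∑ i0 : Fin (N + N), ∑ i1 : Fin (N + N), ∑ i2 : Fin (N + N),
        hsgn N i0 * hsgn N i1 * hsgn N i2 * G ((i0 : ℕ) : ZMod Q) ((i1 : ℕ) : ZMod Q)
          ((i2 : ℕ) : ZMod Q) := by
    simp only [Lbox]
    simp_rw [← Finset.mul_sum]
    rw [swap5]
    congr 1
    refine Finset.sum_congr rfl fun i0 _ => Finset.sum_congr rfl fun i1 _ =>
      Finset.sum_congr rfl fun i2 _ => ?_
    rw [← key]
    simp_rw [Finset.mul_sum]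
  have hR : (1 / 8) * ∑ x0 : ZMod Q, ∑ x1 : ZMod Q, F0 x0 x1 *
        psiT N (fun s : ℤ => F1 x1 ((s : ZMod Q) - x0 - x1) * F2 ((s : ZMod Q) - x0 - x1) x0) l
      = (1 / 8) * ((1 / (N : ℝ) ^ 3) * ∑ i0 : Fin (N + N), ∑ i1 : Fin (N + N), ∑ i2 : Fin (N + N),
        hsgn N i0 * hsgn N i1 * hsgn N i2 * G ((i0 : ℕ) : ZMod Q) ((i1 : ℕ) : ZMod Q)
          ((i2 : ℕ) : ZMod Q)) := by
    congr 1
    simp only [psiT, hG, Finset.mul_sum]
    rw [swap5]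
    refine Finset.sum_congr rfl fun i0 _ => Finset.sum_congr rfl fun i1 _ =>
      Finset.sum_congr rfl fun i2 _ => Finset.sum_congr rfl fun x0 _ =>
      Finset.sum_congr rfl fun x1 _ => ?_
    push_cast
    ring
  rw [hL, hR]
  field_simp
  ring

end Crest.Agent.R072.Assembly
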