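import Crest.Agent.R072.AsmA

/-! R072: assembly, part B: summation by parts `NJ`. -/

set_option autoImplicit false

namespace Crest.Agent.R072.Assembly

open Finset Filter Topology Crest.Agent.R072 Crest.Agent.R072.Lattice Crest.Agent.R072.Jump
  Crest.Agent.R072.Kernel

lemma tele1 (f : ℕ → ℕ → ℝ) (J : ℕ → ℝ) (κ M : ℕ) (h : ∀ m k, f (m + 1) k ≤ f m k + J m) :
    ∑ m ∈ range M, (f m (m + κ) - f m (m + κ + 1)) ≤
      f 0 κ - f M (M + κ) + ∑ m ∈ range M, J m := by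
  induction M with
  | zero => simp
  | succ M ih =>
    rw [Finset.sum_range_succ, Finset.sum_range_succ]
    have h1 := h M (M + κ + 1)
    have e : M + 1 + κ = M + κ + 1 := by ring
    rw [e]
    linarith

lemma tele2 (f : ℕ → ℕ → ℝ) (J : ℕ → ℝ) (κ M : ℕ) (h : ∀ m k, f (m + 1) k ≤ f m k + J m)
    (h0 : ∀ m k, 0 ≤ f m k) (hd : ∀ m k, f m (k + 1) ≤ f m k) :
    ∑ m ∈ range M, (f m m - f m (m + κ)) ≤ κ * (f 0 0 + ∑ m ∈ range M, J m) := by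
  have hdec : ∀ k, f 0 k ≤ f 0 0 := by
    intro k
    induction k with
    | zero => exact le_rfl
    | succ k ih => exact (hd 0 k).trans ih
  induction κ with
  | zero => simp
  | succ κ ih =>
    have e : ∑ m ∈ range M, (f m m - f m (m + (κ + 1))) =
        ∑ m ∈ range M, (f m m - f m (m + κ)) +
          ∑ m ∈ range M, (f m (m + κ) - f m (m + κ + 1)) := by
      rw [← Finset.sum_add_distrib]
      refine Finset.sum_congr rfl fun m _ => ?_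
      rw [← add_assoc]; ring
    rw [e]
    have h1 := tele1 f J κ M h
    have h2 := h0 M (M + κ)
    have h3 := hdec κ
    push_cast
    linarith

lemma EW_pow_succ {Q : ℕ} [NeZero Q] (X : ZMod Q → ZMod Q → ℝ) (k : ℕ) :
    EW X (2 ^ (k + 1)) (2 ^ (k + 1)) ≤ EW X (2 ^ k) (2 ^ k) := by
  have h : (2 : ℕ) ^ (k + 1) = 2 ^ k + 2 ^ k := by ring
  have hp : 0 < (2 : ℕ) ^ k := by positivity
  rw [h]
  exact (EW_double_a X hp (by omega)).trans (EW_double_r X hp hp)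

lemma EW_pow_zero {Q : ℕ} [NeZero Q] (X : ZMod Q → ZMod Q → ℝ) :
    EW X (2 ^ 0) (2 ^ 0) = ∑ x : ZMod Q, ∑ y : ZMod Q, |X x y| ^ 3 := by
  rw [pow_zero, EW_one]

lemma Vref_zero_le {Q : ℕ} [NeZero Q] (X Z : ZMod Q → ZMod Q → ℝ) :
    Vref X Z (2 ^ 0) ≤ Real.sqrt 2 * (∑ x : ZMod Q, ∑ y : ZMod Q, |X x y| ^ 3 +
      ∑ x : ZMod Q, ∑ y : ZMod Q, |Z x y| ^ 3) := by
  unfold Vref
  have h1 := W_le X Z (2 ^ 0) (2 ^ 0) (-(2 * (((2 : ℕ) ^ 0 : ℕ) : ZMod Q)))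
  have h2 := W_le X Z (2 ^ 0) (2 ^ 0) (-((((2 : ℕ) ^ 0 : ℕ) : ZMod Q)))
  rw [EW_pow_zero, EW_pow_zero] at h1 h2
  refine (mul_le_mul_of_nonneg_left (add_le_add h1 h2) (by norm_num : (0 : ℝ) ≤ 1 / 2)).trans
    (le_of_eq (by ring))

lemma Vref_nonneg {Q : ℕ} [NeZero Q] (X Z : ZMod Q → ZMod Q → ℝ) (N : ℕ) : 0 ≤ Vref X Z N := by
  unfold Vref
  have h1 := W_nonneg X Z N N (-(2 * (N : ZMod Q)))
  have h2 := W_nonneg X Z N N (-(N : ZMod Q))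
  linarith

lemma sum_transpose {Q : ℕ} [NeZero Q] (F : ZMod Q → ZMod Q → ℝ) :
    ∑ x : ZMod Q, ∑ y : ZMod Q, |F y x| ^ 3 = ∑ x : ZMod Q, ∑ y : ZMod Q, |F x y| ^ 3 :=
  Finset.sum_comm

/-- summed potential estimate for one vertex, both functions may change with `m` -/
lemma vertex_sum {Q : ℕ} [NeZero Q] (X Z : ℕ → ZMod Q → ZMod Q → ℝ) (J : ℕ → ℝ) (a b : ℝ)
    (hJ : ∀ m, 0 ≤ J m)
    (hV : ∀ m N : ℕ, 0 < N → Vref (X (m + 1)) (Z (m + 1)) N - Vref (X m) (Z m) N ≤ J m)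
    (hE : ∀ m N : ℕ, 0 < N → EE (X (m + 1)) (Z (m + 1)) N - EE (X m) (Z m) N ≤ J m)
    (ha : ∑ x : ZMod Q, ∑ y : ZMod Q, |X 0 x y| ^ 3 = a)
    (hb : ∑ x : ZMod Q, ∑ y : ZMod Q, |Z 0 x y| ^ 3 = b)
    (l : ℤ) (κ : ℕ) (hκ : 2 * |l| + 10 ≤ 2 ^ κ) (M : ℕ) :
    ∑ m ∈ range M, (1 / 2) * GW (X m) (Z m) (2 ^ m + 2 ^ m) (2 ^ m)
        ((l : ZMod Q) * ((2 ^ m : ℕ) : ZMod Q)) ≤
      (3 + 32 * κ) * (a + b + ∑ m ∈ range M, J m) := by
  have h1 : ∀ m ∈ range M, (1 / 2) * GW (X m) (Z m) (2 ^ m + 2 ^ m) (2 ^ m)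
        ((l : ZMod Q) * ((2 ^ m : ℕ) : ZMod Q)) ≤
      2 * (Vref (X m) (Z m) (2 ^ m) - Vref (X m) (Z m) (2 ^ (m + 1))) +
        32 * (EE (X m) (Z m) (2 ^ m) - EE (X m) (Z m) (2 ^ (m + κ))) :=
    fun m _ => gap_pot (X m) (Z m) m κ l hκ
  refine (Finset.sum_le_sum h1).trans ?_
  rw [Finset.sum_add_distrib, ← Finset.mul_sum, ← Finset.mul_sum]
  have hpow : ∀ k : ℕ, 0 < (2 : ℕ) ^ k := fun k => by positivity
  have t1 := tele1 (fun m k => Vref (X m) (Z m) (2 ^ k)) J 0 M (fun m k => by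
    have := hV m (2 ^ k) (hpow k); linarith)
  simp only [add_zero] at t1
  have t2 := tele2 (fun m k => EE (X m) (Z m) (2 ^ k)) J κ M (fun m k => by
    have := hE m (2 ^ k) (hpow k); linarith) (fun m k => by
      unfold EE
      have := EW_nonneg (X m) (2 ^ k) (2 ^ k)
      have := EW_nonneg (Z m) (2 ^ k) (2 ^ k)
      linarith) (fun m k => by
      unfold EE
      have := EW_pow_succ (X m) k
      have := EW_pow_succ (Z m) k
      linarith)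
  have v0 := Vref_nonneg (X M) (Z M) (2 ^ M)
  have v1 := Vref_zero_le (X 0) (Z 0)
  rw [ha, hb] at v1
  have e0 : EE (X 0) (Z 0) (2 ^ 0) = a + b := by
    unfold EE
    rw [EW_pow_zero, EW_pow_zero, ha, hb]
  simp only [e0] at t2
  have ha0 : 0 ≤ a := by rw [← ha]; positivity
  have hb0 : 0 ≤ b := by rw [← hb]; positivity
  have hs : 0 ≤ ∑ m ∈ range M, J m := Finset.sum_nonneg fun m _ => hJ m
  have hsq : Real.sqrt 2 ≤ 3 / 2 := by
    rw [Real.sqrt_le_left (by norm_num)]; norm_num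
  have v2 : Real.sqrt 2 * (a + b) ≤ 3 / 2 * (a + b) :=
    mul_le_mul_of_nonneg_right hsq (by linarith)
  nlinarith

/-- (NJ) summation by parts: scale-dependent first function. `cst` is the cost factor and `D` the
cost density as produced by `Jump.exists_D`. -/
theorem NJ {Q : ℕ} [NeZero Q] (X : ℕ → ZMod Q → ZMod Q → ℝ) (F1 F2 D : ZMod Q → ZMod Q → ℝ)
    (cst : ℝ) (hcst : 0 ≤ cst) (hD : ∀ x y, 0 ≤ D x y)
    (h1 : ∀ m N : ℕ, 0 < N → Vref (X (m + 1)) (fun x y => F1 y x) N -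
      Vref (X m) (fun x y => F1 y x) N ≤
        cst * ∑ x : ZMod Q, ∑ y : ZMod Q, |X (m + 1) x y - X m x y| * D x y)
    (h2 : ∀ m N : ℕ, 0 < N → Vref F2 (fun x y => X (m + 1) y x) N -
      Vref F2 (fun x y => X m y x) N ≤
        cst * ∑ x : ZMod Q, ∑ y : ZMod Q, |X (m + 1) x y - X m x y| * D x y)
    (h3 : ∀ m N : ℕ, 0 < N → EW (X (m + 1)) N N - EW (X m) N N ≤
        cst * ∑ x : ZMod Q, ∑ y : ZMod Q, |X (m + 1) x y - X m x y| * D x y)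
    (h4 : ∀ m N : ℕ, 0 < N → EW (fun x y => X (m + 1) y x) N N - EW (fun x y => X m y x) N N ≤
        cst * ∑ x : ZMod Q, ∑ y : ZMod Q, |X (m + 1) x y - X m x y| * D x y)
    (l : ℤ) (κ : ℕ) (hκ : 2 * |l| + 10 ≤ 2 ^ κ) (M : ℕ) :
    ∑ m ∈ range M, ∑ p0 : ZMod Q, ∑ p1 : ZMod Q,
      |Lbox (X m) F1 F2 (2 ^ m) p0 p1 ((l : ZMod Q) * ((2 ^ m : ℕ) : ZMod Q) - p0 - p1)| ≤
      300 * (1 + κ) * (∑ x : ZMod Q, ∑ y : ZMod Q, |X 0 x y| ^ 3 +
        ∑ x : ZMod Q, ∑ y : ZMod Q, |F1 x y| ^ 3 + ∑ x : ZMod Q, ∑ y : ZMod Q, |F2 x y| ^ 3 +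
        cst * ∑ m ∈ range M, ∑ x : ZMod Q, ∑ y : ZMod Q, |X (m + 1) x y - X m x y| * D x y) := by
  set J : ℕ → ℝ := fun m => cst * ∑ x : ZMod Q, ∑ y : ZMod Q, |X (m + 1) x y - X m x y| * D x y
    with hJdef
  have hJ : ∀ m, 0 ≤ J m := fun m => mul_nonneg hcst
    (Finset.sum_nonneg fun x _ => Finset.sum_nonneg fun y _ => mul_nonneg (abs_nonneg _) (hD x y))
  set a := ∑ x : ZMod Q, ∑ y : ZMod Q, |X 0 x y| ^ 3 with ha
  set b := ∑ x : ZMod Q, ∑ y : ZMod Q, |F1 x y| ^ 3 with hb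
  set c := ∑ x : ZMod Q, ∑ y : ZMod Q, |F2 x y| ^ 3 with hc
  rw [Finset.mul_sum]
  change _ ≤ 300 * (1 + (κ : ℝ)) * (a + b + c + ∑ m ∈ range M, J m)
  have v1 := vertex_sum X (fun _ x y => F1 y x) J a b hJ h1 (fun m N hN => by
    have := h3 m N hN; unfold EE; linarith) rfl (sum_transpose F1) l κ hκ M
  have v2 := vertex_sum (fun _ => F1) (fun _ x y => F2 y x) (fun _ => 0) b c (fun _ => le_rfl)
    (fun m N hN => by simp) (fun m N hN => by simp) rfl (sum_transpose F2) l κ hκ M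
  have v3 := vertex_sum (fun _ => F2) (fun m x y => X m y x) J c a hJ h2 (fun m N hN => by
    have := h4 m N hN; unfold EE; linarith) rfl (sum_transpose (X 0)) l κ hκ M
  simp only [Finset.sum_const_zero, add_zero] at v2
  have hle : ∀ m ∈ range M, ∑ p0 : ZMod Q, ∑ p1 : ZMod Q,
      |Lbox (X m) F1 F2 (2 ^ m) p0 p1 ((l : ZMod Q) * ((2 ^ m : ℕ) : ZMod Q) - p0 - p1)| ≤
      Real.pi *
        ((1 / 2) * GW (X m) (fun x y => F1 y x) (2 ^ m + 2 ^ m) (2 ^ m)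
            ((l : ZMod Q) * ((2 ^ m : ℕ) : ZMod Q)) +
          (1 / 2) * GW F1 (fun x y => F2 y x) (2 ^ m + 2 ^ m) (2 ^ m)
            ((l : ZMod Q) * ((2 ^ m : ℕ) : ZMod Q)) +
          (1 / 2) * GW F2 (fun x y => X m y x) (2 ^ m + 2 ^ m) (2 ^ m)
            ((l : ZMod Q) * ((2 ^ m : ℕ) : ZMod Q))) := by
    intro m _
    have hp : 0 < (2 : ℕ) ^ m := by positivity
    have hLb := Lbox_le (X m) F1 F2 hp ((l : ZMod Q) * ((2 ^ m : ℕ) : ZMod Q))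
    refine hLb.trans (le_of_eq ?_)
    ring
  refine (Finset.sum_le_sum hle).trans ?_
  rw [← Finset.mul_sum, Finset.sum_add_distrib, Finset.sum_add_distrib]
  have ha0 : 0 ≤ a := by rw [ha]; positivity
  have hb0 : 0 ≤ b := by rw [hb]; positivity
  have hc0 : 0 ≤ c := by rw [hc]; positivity
  have hs : 0 ≤ ∑ m ∈ range M, J m := Finset.sum_nonneg fun m _ => hJ m
  set SJ := ∑ m ∈ range M, J m
  have hκ0 : (0 : ℝ) ≤ κ := Nat.cast_nonneg κ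
  have hpi : Real.pi ≤ 3.2 := by
    have := Real.pi_lt_d2; linarith
  have hpi0 : 0 ≤ Real.pi := Real.pi_pos.le
  have tot : ∑ m ∈ range M, (1 / 2) * GW (X m) (fun x y => F1 y x) (2 ^ m + 2 ^ m) (2 ^ m)
            ((l : ZMod Q) * ((2 ^ m : ℕ) : ZMod Q)) +
      ∑ m ∈ range M, (1 / 2) * GW F1 (fun x y => F2 y x) (2 ^ m + 2 ^ m) (2 ^ m)
            ((l : ZMod Q) * ((2 ^ m : ℕ) : ZMod Q)) +
      ∑ m ∈ range M, (1 / 2) * GW F2 (fun x y => X m y x) (2 ^ m + 2 ^ m) (2 ^ m)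
            ((l : ZMod Q) * ((2 ^ m : ℕ) : ZMod Q)) ≤ 2 * (3 + 32 * κ) * (a + b + c + SJ) := by
    nlinarith
  have hT : 0 ≤ 2 * (3 + 32 * (κ : ℝ)) * (a + b + c + SJ) := by positivity
  calc _ ≤ Real.pi * (2 * (3 + 32 * κ) * (a + b + c + SJ)) :=
        mul_le_mul_of_nonneg_left tot hpi0
    _ ≤ 3.2 * (2 * (3 + 32 * κ) * (a + b + c + SJ)) := mul_le_mul_of_nonneg_right hpi hT
    _ ≤ 300 * (1 + κ) * (a + b + c + SJ) := by
        have hS : 0 ≤ a + b + c + SJ := by positivity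
        have : 3.2 * (2 * (3 + 32 * (κ : ℝ))) ≤ 300 * (1 + κ) := by nlinarith
        calc _ = (3.2 * (2 * (3 + 32 * (κ : ℝ)))) * (a + b + c + SJ) := by ring
          _ ≤ _ := mul_le_mul_of_nonneg_right this hS

end Crest.Agent.R072.Assembly
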