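import Crest.Agent.R072.AsmB

/-! R072: assembly, part C: bound for one position `l`, real-number bookkeeping. -/

set_option autoImplicit false

namespace Crest.Agent.R072.Assembly

open Finset Filter Topology Crest.Agent.R072 Crest.Agent.R072.Lattice Crest.Agent.R072.Jump
  Crest.Agent.R072.Kernel

/-- the function paired with the kernel -/
def TT {Q : ℕ} (F1 F2 : ZMod Q → ZMod Q → ℝ) (x0 x1 : ZMod Q) (s : ℤ) : ℝ :=
  F1 x1 ((s : ZMod Q) - x0 - x1) * F2 ((s : ZMod Q) - x0 - x1) x0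

lemma cube_aux {w t ν : ℝ} (hw : 0 ≤ w) (hν : 0 ≤ ν) (h0 : 0 ≤ t) (ht : t ≤ (w + min 1 ν) / 2) :
    t ^ 3 ≤ w ^ 3 + ν := by
  have hm0 : 0 ≤ min 1 ν := le_min zero_le_one hν
  have hm1 : min 1 ν ≤ 1 := min_le_left _ _
  have hmν : min 1 ν ≤ ν := min_le_right _ _
  set r := min 1 ν
  have h1 : t ^ 3 ≤ ((w + r) / 2) ^ 3 := pow_le_pow_left₀ h0 ht 3
  have h2 : ((w + r) / 2) ^ 3 ≤ (w ^ 3 + r ^ 3) / 2 := by
    nlinarith [mul_nonneg (add_nonneg hw hm0) (sq_nonneg (w - r))]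
  have h3 : r ^ 3 ≤ r := by
    have : r ^ 2 ≤ 1 := by nlinarith
    calc r ^ 3 = r * r ^ 2 := by ring
      _ ≤ r * 1 := mul_le_mul_of_nonneg_left this hm0
      _ = r := mul_one r
  have h4 : 0 ≤ w ^ 3 := by positivity
  linarith

lemma level_bound {Q : ℕ} [NeZero Q] (H F1 F2 D : ZMod Q → ZMod Q → ℝ)
    (hH : ∑ x : ZMod Q, ∑ y : ZMod Q, |H x y| ^ 3 ≤ 1)
    (hF1 : ∑ x : ZMod Q, ∑ y : ZMod Q, |F1 x y| ^ 3 ≤ 1)
    (hF2 : ∑ x : ZMod Q, ∑ y : ZMod Q, |F2 x y| ^ 3 ≤ 1)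
    (hD0 : ∀ x y, 0 ≤ D x y)
    (hcost : ∀ (τ : ℝ), 0 ≤ τ → ∀ (X X' : ZMod Q → ZMod Q → ℝ),
        (∀ x y, |X x y| ≤ τ * |H x y|) → (∀ x y, |X' x y| ≤ τ * |H x y|) → ∀ N : ℕ, 0 < N →
          (Vref X (fun x y => F1 y x) N - Vref X' (fun x y => F1 y x) N ≤
            τ * (1 + τ) * ∑ x : ZMod Q, ∑ y : ZMod Q, |X x y - X' x y| * D x y) ∧
          (Vref F2 (fun x y => X y x) N - Vref F2 (fun x y => X' y x) N ≤
            τ * (1 + τ) * ∑ x : ZMod Q, ∑ y : ZMod Q, |X x y - X' x y| * D x y) ∧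
          (EW X N N - EW X' N N ≤
            τ * (1 + τ) * ∑ x : ZMod Q, ∑ y : ZMod Q, |X x y - X' x y| * D x y) ∧
          (EW (fun x y => X y x) N N - EW (fun x y => X' y x) N N ≤
            τ * (1 + τ) * ∑ x : ZMod Q, ∑ y : ZMod Q, |X x y - X' x y| * D x y))
    (g : ZMod Q → ZMod Q → ℕ → ℝ) (ν : ZMod Q → ZMod Q → ℝ) (w nn : ℝ) (hw : 0 ≤ w) (hw1 : w ≤ 1)
    (hν : ∀ x y, 0 ≤ ν x y)
    (hg : ∀ x y m, |g x y m| ≤ (w + min 1 (ν x y)) / 2)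
    (hvar : ∀ x y M, ∑ m ∈ range M, |g x y (m + 1) - g x y m| ≤ nn * w + ν x y)
    (τ : ℝ) (hτ : 0 < τ) (l : ℤ) (κ : ℕ) (hκ : 2 * |l| + 10 ≤ 2 ^ κ) (M : ℕ) :
    |∑ m ∈ range M, ∑ x0 : ZMod Q, ∑ x1 : ZMod Q,
      H x0 x1 * (g x0 x1 m * psiT (2 ^ m) (TT F1 F2 x0 x1) l)| ≤
      2400 * (1 + κ) / τ * (τ ^ 3 * (w ^ 3 + ∑ x : ZMod Q, ∑ y : ZMod Q, ν x y * |H x y| ^ 3) + 2 +
        τ ^ 2 * (1 + τ) * (nn * w * ∑ x : ZMod Q, ∑ y : ZMod Q, |H x y| * D x y +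
          ∑ x : ZMod Q, ∑ y : ZMod Q, ν x y * (|H x y| * D x y))) := by
  set X : ℕ → ZMod Q → ZMod Q → ℝ := fun m x y => τ * g x y m * H x y with hX
  have hg1 : ∀ x y m, |g x y m| ≤ 1 := by
    intro x y m
    have h1 := hg x y m
    have h2 : min 1 (ν x y) ≤ 1 := min_le_left _ _
    linarith
  have hXle : ∀ m x y, |X m x y| ≤ τ * |H x y| := by
    intro m x y
    simp only [hX]
    rw [abs_mul, abs_mul, abs_of_pos hτ]
    have h1 := hg1 x y m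
    have h2 : τ * |g x y m| ≤ τ * 1 := mul_le_mul_of_nonneg_left h1 hτ.le
    rw [mul_one] at h2
    exact mul_le_mul_of_nonneg_right h2 (abs_nonneg _)
  have hc := fun m N hN => hcost τ hτ.le (X (m + 1)) (X m) (hXle (m + 1)) (hXle m) N hN
  have hcst : 0 ≤ τ * (1 + τ) := by positivity
  have hNJ := NJ X F1 F2 D (τ * (1 + τ)) hcst hD0 (fun m N hN => (hc m N hN).1)
    (fun m N hN => (hc m N hN).2.1) (fun m N hN => (hc m N hN).2.2.1)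
    (fun m N hN => (hc m N hN).2.2.2) l κ hκ M
  -- the pairing
  have hpair : ∑ m ∈ range M, ∑ x0 : ZMod Q, ∑ x1 : ZMod Q,
      H x0 x1 * (g x0 x1 m * psiT (2 ^ m) (TT F1 F2 x0 x1) l) =
      (8 / τ) * ∑ m ∈ range M, ∑ p0 : ZMod Q, ∑ p1 : ZMod Q,
        Lbox (X m) F1 F2 (2 ^ m) p0 p1 ((l : ZMod Q) * ((2 ^ m : ℕ) : ZMod Q) - p0 - p1) := by
    rw [Finset.mul_sum]
    refine Finset.sum_congr rfl fun m _ => ?_
    rw [sum_Lbox (X m) F1 F2 (by positivity : 0 < (2 : ℕ) ^ m) l]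
    rw [← mul_assoc, Finset.mul_sum]
    refine Finset.sum_congr rfl fun x0 _ => ?_
    rw [Finset.mul_sum]
    refine Finset.sum_congr rfl fun x1 _ => ?_
    have e : (TT F1 F2 x0 x1) = (fun s : ℤ => F1 x1 ((s : ZMod Q) - x0 - x1) *
      F2 ((s : ZMod Q) - x0 - x1) x0) := rfl
    rw [e]
    simp only [hX]
    field_simp
  have habs : |∑ m ∈ range M, ∑ x0 : ZMod Q, ∑ x1 : ZMod Q,
      H x0 x1 * (g x0 x1 m * psiT (2 ^ m) (TT F1 F2 x0 x1) l)| ≤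
      (8 / τ) * ∑ m ∈ range M, ∑ p0 : ZMod Q, ∑ p1 : ZMod Q,
        |Lbox (X m) F1 F2 (2 ^ m) p0 p1 ((l : ZMod Q) * ((2 ^ m : ℕ) : ZMod Q) - p0 - p1)| := by
    rw [hpair, abs_mul, abs_of_pos (by positivity : 0 < 8 / τ)]
    refine mul_le_mul_of_nonneg_left ?_ (by positivity)
    refine (Finset.abs_sum_le_sum_abs _ _).trans (Finset.sum_le_sum fun m _ => ?_)
    refine (Finset.abs_sum_le_sum_abs _ _).trans (Finset.sum_le_sum fun p0 _ => ?_)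
    exact Finset.abs_sum_le_sum_abs _ _
  -- cube of X 0
  have hX0 : ∑ x : ZMod Q, ∑ y : ZMod Q, |X 0 x y| ^ 3 ≤
      τ ^ 3 * (w ^ 3 + ∑ x : ZMod Q, ∑ y : ZMod Q, ν x y * |H x y| ^ 3) := by
    have h1 : ∀ x y, |X 0 x y| ^ 3 ≤ τ ^ 3 * (w ^ 3 * |H x y| ^ 3 + ν x y * |H x y| ^ 3) := by
      intro x y
      simp only [hX]
      rw [abs_mul, abs_mul, abs_of_pos hτ, mul_pow, mul_pow]
      have h2 := cube_aux hw (hν x y) (abs_nonneg _) (hg x y 0)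
      have h3 : 0 ≤ |H x y| ^ 3 := by positivity
      calc τ ^ 3 * |g x y 0| ^ 3 * |H x y| ^ 3 = τ ^ 3 * (|g x y 0| ^ 3 * |H x y| ^ 3) := by ring
        _ ≤ τ ^ 3 * ((w ^ 3 + ν x y) * |H x y| ^ 3) := by
            refine mul_le_mul_of_nonneg_left (mul_le_mul_of_nonneg_right h2 h3) (by positivity)
        _ = _ := by ring
    calc _ ≤ ∑ x : ZMod Q, ∑ y : ZMod Q,
          τ ^ 3 * (w ^ 3 * |H x y| ^ 3 + ν x y * |H x y| ^ 3) :=
          Finset.sum_le_sum fun x _ => Finset.sum_le_sum fun y _ => h1 x y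
      _ = τ ^ 3 * (w ^ 3 * ∑ x : ZMod Q, ∑ y : ZMod Q, |H x y| ^ 3 +
          ∑ x : ZMod Q, ∑ y : ZMod Q, ν x y * |H x y| ^ 3) := by
          simp only [Finset.mul_sum, ← Finset.sum_add_distrib]
      _ ≤ _ := by
          refine mul_le_mul_of_nonneg_left ?_ (by positivity)
          have : w ^ 3 * ∑ x : ZMod Q, ∑ y : ZMod Q, |H x y| ^ 3 ≤ w ^ 3 * 1 :=
            mul_le_mul_of_nonneg_left hH (by positivity)
          linarith
  -- variation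
  have hV : ∑ m ∈ range M, ∑ x : ZMod Q, ∑ y : ZMod Q, |X (m + 1) x y - X m x y| * D x y ≤
      τ * (nn * w * ∑ x : ZMod Q, ∑ y : ZMod Q, |H x y| * D x y +
          ∑ x : ZMod Q, ∑ y : ZMod Q, ν x y * (|H x y| * D x y)) := by
    have e1 : ∀ m x y, |X (m + 1) x y - X m x y| * D x y =
        τ * (|H x y| * D x y) * |g x y (m + 1) - g x y m| := by
      intro m x y
      simp only [hX]
      have : τ * g x y (m + 1) * H x y - τ * g x y m * H x y =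
        τ * ((g x y (m + 1) - g x y m) * H x y) := by ring
      rw [this, abs_mul, abs_mul, abs_of_pos hτ]; ring
    have e2 : ∑ m ∈ range M, ∑ x : ZMod Q, ∑ y : ZMod Q, |X (m + 1) x y - X m x y| * D x y =
        ∑ x : ZMod Q, ∑ y : ZMod Q, τ * (|H x y| * D x y) *
          ∑ m ∈ range M, |g x y (m + 1) - g x y m| := by
      rw [Finset.sum_comm]
      refine Finset.sum_congr rfl fun x _ => ?_
      rw [Finset.sum_comm]
      refine Finset.sum_congr rfl fun y _ => ?_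
      rw [Finset.mul_sum]
      exact Finset.sum_congr rfl fun m _ => e1 m x y
    rw [e2]
    calc _ ≤ ∑ x : ZMod Q, ∑ y : ZMod Q, τ * (|H x y| * D x y) * (nn * w + ν x y) := by
          refine Finset.sum_le_sum fun x _ => Finset.sum_le_sum fun y _ => ?_
          exact mul_le_mul_of_nonneg_left (hvar x y M)
            (mul_nonneg hτ.le (mul_nonneg (abs_nonneg _) (hD0 x y)))
      _ = _ := by
          simp only [Finset.mul_sum, ← Finset.sum_add_distrib]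
          refine Finset.sum_congr rfl fun x _ => Finset.sum_congr rfl fun y _ => ?_
          ring
  refine habs.trans ?_
  have hbr : (∑ x : ZMod Q, ∑ y : ZMod Q, |X 0 x y| ^ 3 +
        ∑ x : ZMod Q, ∑ y : ZMod Q, |F1 x y| ^ 3 + ∑ x : ZMod Q, ∑ y : ZMod Q, |F2 x y| ^ 3 +
        τ * (1 + τ) * ∑ m ∈ range M, ∑ x : ZMod Q, ∑ y : ZMod Q,
          |X (m + 1) x y - X m x y| * D x y) ≤
      τ ^ 3 * (w ^ 3 + ∑ x : ZMod Q, ∑ y : ZMod Q, ν x y * |H x y| ^ 3) + 2 +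
        τ ^ 2 * (1 + τ) * (nn * w * ∑ x : ZMod Q, ∑ y : ZMod Q, |H x y| * D x y +
          ∑ x : ZMod Q, ∑ y : ZMod Q, ν x y * (|H x y| * D x y)) := by
    have h5 := mul_le_mul_of_nonneg_left hV hcst
    have h6 : τ * (1 + τ) * (τ * (nn * w * ∑ x : ZMod Q, ∑ y : ZMod Q, |H x y| * D x y +
          ∑ x : ZMod Q, ∑ y : ZMod Q, ν x y * (|H x y| * D x y))) =
        τ ^ 2 * (1 + τ) * (nn * w * ∑ x : ZMod Q, ∑ y : ZMod Q, |H x y| * D x y +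
          ∑ x : ZMod Q, ∑ y : ZMod Q, ν x y * (|H x y| * D x y)) := by ring
    rw [h6] at h5
    linarith
  have hk0 : (0 : ℝ) ≤ 300 * (1 + κ) := by positivity
  calc _ ≤ (8 / τ) * (300 * (1 + κ) * (∑ x : ZMod Q, ∑ y : ZMod Q, |X 0 x y| ^ 3 +
        ∑ x : ZMod Q, ∑ y : ZMod Q, |F1 x y| ^ 3 + ∑ x : ZMod Q, ∑ y : ZMod Q, |F2 x y| ^ 3 +
        τ * (1 + τ) * ∑ m ∈ range M, ∑ x : ZMod Q, ∑ y : ZMod Q,
          |X (m + 1) x y - X m x y| * D x y)) :=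
        mul_le_mul_of_nonneg_left hNJ (by positivity)
    _ ≤ (8 / τ) * (300 * (1 + κ) * (τ ^ 3 * (w ^ 3 + ∑ x : ZMod Q, ∑ y : ZMod Q,
          ν x y * |H x y| ^ 3) + 2 +
        τ ^ 2 * (1 + τ) * (nn * w * ∑ x : ZMod Q, ∑ y : ZMod Q, |H x y| * D x y +
          ∑ x : ZMod Q, ∑ y : ZMod Q, ν x y * (|H x y| * D x y)))) :=
        mul_le_mul_of_nonneg_left (mul_le_mul_of_nonneg_left hbr hk0) (by positivity)
    _ = _ := by ring

/-- bookkeeping with `lam = u^8`, `τ = u²/s`, `s = √n` -/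
lemma final_real {u s S N1 N2 k K : ℝ} (hu : 1 ≤ u) (hs : 1 ≤ s) (hS : 0 ≤ S) (hN1 : 0 ≤ N1)
    (hN2 : 0 ≤ N2) (hk0 : 0 ≤ K) (hk : k ≤ K * u) :
    (1 / u ^ 8) * (2400 * k / (u ^ 2 / s) * ((u ^ 2 / s) ^ 3 * ((1 / u ^ 8) ^ 3 + N1) + 2 +
      (u ^ 2 / s) ^ 2 * (1 + u ^ 2 / s) * (s ^ 2 * (1 / u ^ 8) * S + N2))) ≤
      2400 * K * ((3 + 2 * S) * s * (1 / u) ^ 9 + (1 / u) ^ 2 * N1 / s ^ 2 +
        2 * (1 / u) ^ 2 * N2 / s) := by
  have hu0 : 0 < u := by linarith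
  have hs0 : 0 < s := by linarith
  set p := 1 / u with hp
  set q := 1 / s with hq
  have hp0 : 0 < p := by positivity
  have hq0 : 0 < q := by positivity
  have hp1 : p ≤ 1 := by rw [hp, div_le_one hu0]; exact hu
  have hq1 : q ≤ 1 := by rw [hq, div_le_one hs0]; exact hs
  have hup : u * p = 1 := by rw [hp]; field_simp
  have hsq : s * q = 1 := by rw [hq]; field_simp
  have e1 : (1 / u ^ 8) * (2400 * k / (u ^ 2 / s) * ((u ^ 2 / s) ^ 3 * ((1 / u ^ 8) ^ 3 + N1) + 2 +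
      (u ^ 2 / s) ^ 2 * (1 + u ^ 2 / s) * (s ^ 2 * (1 / u ^ 8) * S + N2))) =
      2400 * (k * p) * (q ^ 2 * p ^ 27 + q ^ 2 * p ^ 3 * N1 + 2 * s * p ^ 9 + s * p ^ 13 * S +
        p ^ 11 * S + q * p ^ 5 * N2 + q ^ 2 * p ^ 3 * N2) := by
    rw [hp, hq]
    field_simp
    ring
  rw [e1]
  have hkp : k * p ≤ K := by
    calc k * p ≤ K * u * p := mul_le_mul_of_nonneg_right hk hp0.le
      _ = K := by rw [mul_assoc, hup, mul_one]
  have hbr0 : 0 ≤ (q ^ 2 * p ^ 27 + q ^ 2 * p ^ 3 * N1 + 2 * s * p ^ 9 + s * p ^ 13 * S +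
        p ^ 11 * S + q * p ^ 5 * N2 + q ^ 2 * p ^ 3 * N2) := by positivity
  have hpow : ∀ a b : ℕ, a ≤ b → p ^ b ≤ p ^ a := fun a b h => pow_le_pow_of_le_one hp0.le hp1 h
  have t1 : q ^ 2 * p ^ 27 ≤ s * p ^ 9 := by
    have h1 : q ^ 2 ≤ s := by nlinarith
    exact mul_le_mul h1 (hpow 9 27 (by norm_num)) (by positivity) hs0.le
  have t2 : q ^ 2 * p ^ 3 * N1 ≤ q ^ 2 * p ^ 2 * N1 :=
    mul_le_mul_of_nonneg_right (mul_le_mul_of_nonneg_left (hpow 2 3 (by norm_num))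
      (by positivity)) hN1
  have t3 : s * p ^ 13 * S ≤ s * p ^ 9 * S :=
    mul_le_mul_of_nonneg_right (mul_le_mul_of_nonneg_left (hpow 9 13 (by norm_num)) hs0.le) hS
  have t4 : p ^ 11 * S ≤ s * p ^ 9 * S := by
    refine mul_le_mul_of_nonneg_right ?_ hS
    calc p ^ 11 ≤ p ^ 9 := hpow 9 11 (by norm_num)
      _ = 1 * p ^ 9 := (one_mul _).symm
      _ ≤ s * p ^ 9 := mul_le_mul_of_nonneg_right hs (by positivity)
  have t5 : q * p ^ 5 * N2 ≤ q * p ^ 2 * N2 :=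
    mul_le_mul_of_nonneg_right (mul_le_mul_of_nonneg_left (hpow 2 5 (by norm_num)) hq0.le) hN2
  have t6 : q ^ 2 * p ^ 3 * N2 ≤ q * p ^ 2 * N2 := by
    refine mul_le_mul_of_nonneg_right ?_ hN2
    have h1 : q ^ 2 ≤ q := by nlinarith
    exact mul_le_mul h1 (hpow 2 3 (by norm_num)) (by positivity) hq0.le
  have hfin : (q ^ 2 * p ^ 27 + q ^ 2 * p ^ 3 * N1 + 2 * s * p ^ 9 + s * p ^ 13 * S +
        p ^ 11 * S + q * p ^ 5 * N2 + q ^ 2 * p ^ 3 * N2) ≤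
      (3 + 2 * S) * s * p ^ 9 + q ^ 2 * p ^ 2 * N1 + 2 * (q * p ^ 2 * N2) := by
    nlinarith
  have hRHS : 2400 * K * ((3 + 2 * S) * s * p ^ 9 + p ^ 2 * N1 / s ^ 2 + 2 * p ^ 2 * N2 / s) =
      2400 * K * ((3 + 2 * S) * s * p ^ 9 + q ^ 2 * p ^ 2 * N1 + 2 * (q * p ^ 2 * N2)) := by
    rw [hq]; field_simp
  rw [hRHS]
  calc _ ≤ 2400 * K * (q ^ 2 * p ^ 27 + q ^ 2 * p ^ 3 * N1 + 2 * s * p ^ 9 + s * p ^ 13 * S +
        p ^ 11 * S + q * p ^ 5 * N2 + q ^ 2 * p ^ 3 * N2) :=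
          mul_le_mul_of_nonneg_right (by linarith) hbr0
      _ ≤ _ := mul_le_mul_of_nonneg_left hfin (by positivity)

end Crest.Agent.R072.Assembly
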