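import Crest.Agent.R072.AsmC

/-! R072: assembly, part D: lattice theorem on `ZMod Q`. -/

set_option autoImplicit false

namespace Crest.Agent.R072.Assembly

open Finset Filter Topology Crest.Agent.R072 Crest.Agent.R072.Lattice Crest.Agent.R072.Jump
  Crest.Agent.R072.Kernel

/-- `κ` with `2|l|+10 ≤ 2^κ` and `1 + κ ≤ 40 (1+|l|)^{1/8}` -/
lemma exists_kappa (l : ℤ) : ∃ κ : ℕ, 2 * |l| + 10 ≤ 2 ^ κ ∧
    (1 : ℝ) + κ ≤ 40 * (1 + |(l : ℝ)|) ^ (1 / 8 : ℝ) := by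
  set a : ℕ := 2 * l.natAbs + 10 with ha
  set j : ℕ := Nat.log 2 a with hj
  refine ⟨j + 1, ?_, ?_⟩
  · have h1 : a < 2 ^ (j + 1) := Nat.lt_pow_succ_log_self (by norm_num) a
    have h2 : (2 * |l| + 10 : ℤ) = (a : ℤ) := by
      rw [ha]; push_cast; simp
    rw [h2]
    exact_mod_cast h1.le
  · have h1 : 2 ^ j ≤ a := Nat.pow_log_le_self 2 (by omega)
    have hl1 : (1 : ℝ) ≤ 1 + |(l : ℝ)| := by have := abs_nonneg (l : ℝ); linarith
    have h2 : ((2 : ℝ) ^ j) ≤ 10 * (1 + |(l : ℝ)|) := by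
      have h3 : ((2 : ℝ) ^ j) ≤ (a : ℝ) := by exact_mod_cast h1
      have h4 : (a : ℝ) = 2 * |(l : ℝ)| + 10 := by
        rw [ha]; push_cast; simp
      rw [h4] at h3
      have := abs_nonneg (l : ℝ)
      linarith
    have h5 : (j : ℝ) * Real.log 2 ≤ Real.log (10 * (1 + |(l : ℝ)|)) := by
      rw [← Real.log_pow]
      exact Real.log_le_log (by positivity) h2
    have h6 : Real.log (10 * (1 + |(l : ℝ)|)) ≤
        (10 * (1 + |(l : ℝ)|)) ^ (1 / 8 : ℝ) / (1 / 8) :=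
      Real.log_le_rpow_div (by positivity) (by norm_num)
    have h7 : (10 * (1 + |(l : ℝ)|)) ^ (1 / 8 : ℝ) ≤ 2 * (1 + |(l : ℝ)|) ^ (1 / 8 : ℝ) := by
      rw [Real.mul_rpow (by norm_num) (by positivity)]
      refine mul_le_mul_of_nonneg_right ?_ (by positivity)
      have h8 : ((10 : ℝ)) ^ (1 / 8 : ℝ) ≤ ((2 : ℝ) ^ (8 : ℝ)) ^ (1 / 8 : ℝ) := by
        refine Real.rpow_le_rpow (by norm_num) ?_ (by norm_num)
        norm_num
      refine h8.trans ?_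
      rw [← Real.rpow_mul (by norm_num)]
      norm_num
    have h9 : (1 : ℝ) ≤ (1 + |(l : ℝ)|) ^ (1 / 8 : ℝ) := Real.one_le_rpow hl1 (by norm_num)
    have hlog : (1 / 2 : ℝ) ≤ Real.log 2 := by
      have := Real.log_two_gt_d9; linarith
    have hj0 : (0 : ℝ) ≤ j := Nat.cast_nonneg j
    push_cast
    nlinarith

lemma exists_CZ : ∃ C : ℝ, 0 ≤ C ∧ ∀ Λ : ℕ,
    ∑ l ∈ Icc (-(Λ : ℤ)) Λ, (1 / (1 + |(l : ℝ)|) ^ (1 / 8 : ℝ)) ^ 9 ≤ C := by
  have hnat : Summable (fun n : ℕ => ((1 + (n : ℝ)) ^ (-(9 / 8) : ℝ))) := by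
    have h1 : Summable (fun n : ℕ => ((n : ℝ)) ^ (-(9 / 8) : ℝ)) :=
      Real.summable_nat_rpow.mpr (by norm_num)
    have h2 := (summable_nat_add_iff 1).mpr h1
    refine h2.congr fun n => ?_
    push_cast
    rw [add_comm]
  have hint : Summable (fun l : ℤ => ((1 + |(l : ℝ)|) ^ (-(9 / 8) : ℝ))) := by
    refine Summable.of_nat_of_neg ?_ ?_
    · refine hnat.congr fun n => ?_
      simp
    · refine hnat.congr fun n => ?_
      simp
  refine ⟨∑' l : ℤ, ((1 + |(l : ℝ)|) ^ (-(9 / 8) : ℝ)), tsum_nonneg fun l => by positivity,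
    fun Λ => ?_⟩
  have hnn : ∀ l ∉ Icc (-(Λ : ℤ)) Λ, 0 ≤ ((1 + |(l : ℝ)|) ^ (-(9 / 8) : ℝ)) :=
    fun l _ => by positivity
  refine le_trans (le_of_eq ?_) (hint.sum_le_tsum _ hnn)
  refine Finset.sum_congr rfl fun l _ => ?_
  have hl : (0 : ℝ) < 1 + |(l : ℝ)| := by positivity
  rw [one_div, inv_pow, ← Real.rpow_natCast, ← Real.rpow_mul hl.le, ← Real.rpow_neg hl.le]
  norm_num

lemma swap4 {α β γ δ : Type*} [Fintype α] [Fintype β] (s : Finset γ) (t : Finset δ)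
    (f : α → β → γ → δ → ℝ) :
    ∑ a, ∑ b, ∑ m ∈ s, ∑ l ∈ t, f a b m l = ∑ l ∈ t, ∑ m ∈ s, ∑ a, ∑ b, f a b m l := by
  calc ∑ a, ∑ b, ∑ m ∈ s, ∑ l ∈ t, f a b m l = ∑ a, ∑ b, ∑ l ∈ t, ∑ m ∈ s, f a b m l :=
        Finset.sum_congr rfl fun a _ => Finset.sum_congr rfl fun b _ => Finset.sum_comm
    _ = ∑ a, ∑ l ∈ t, ∑ b, ∑ m ∈ s, f a b m l :=
        Finset.sum_congr rfl fun a _ => Finset.sum_comm
    _ = ∑ l ∈ t, ∑ a, ∑ b, ∑ m ∈ s, f a b m l := Finset.sum_comm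
    _ = ∑ l ∈ t, ∑ a, ∑ m ∈ s, ∑ b, f a b m l :=
        Finset.sum_congr rfl fun l _ => Finset.sum_congr rfl fun a _ => Finset.sum_comm
    _ = ∑ l ∈ t, ∑ m ∈ s, ∑ a, ∑ b, f a b m l :=
        Finset.sum_congr rfl fun l _ => Finset.sum_comm

lemma TT_bdd {Q : ℕ} [NeZero Q] (F1 F2 : ZMod Q → ZMod Q → ℝ) (x0 x1 : ZMod Q) :
    ∃ B' : ℝ, ∀ s, |TT F1 F2 x0 x1 s| ≤ B' := by
  refine ⟨(∑ x : ZMod Q, ∑ y : ZMod Q, |F1 x y|) * (∑ x : ZMod Q, ∑ y : ZMod Q, |F2 x y|),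
    fun s => ?_⟩
  have h : ∀ (F : ZMod Q → ZMod Q → ℝ) (a b : ZMod Q), |F a b| ≤
      ∑ x : ZMod Q, ∑ y : ZMod Q, |F x y| := by
    intro F a b
    refine (Finset.single_le_sum (f := fun y => |F a y|) (fun y _ => abs_nonneg _)
      (Finset.mem_univ b)).trans ?_
    exact Finset.single_le_sum (f := fun x => ∑ y, |F x y|)
      (fun x _ => Finset.sum_nonneg fun y _ => abs_nonneg _) (Finset.mem_univ a)
  unfold TT
  rw [abs_mul]
  exact mul_le_mul (h _ _ _) (h _ _ _) (abs_nonneg _)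
    (Finset.sum_nonneg fun x _ => Finset.sum_nonneg fun y _ => abs_nonneg _)

/-- normalised lattice theorem -/
theorem zmod_norm : ∃ C : ℝ, 0 ≤ C ∧ ∀ (Q : ℕ) [NeZero Q] (n : ℕ), 1 ≤ n →
    ∀ (H F1 F2 : ZMod Q → ZMod Q → ℝ) (σ : ZMod Q → ZMod Q → Fin n → ℝ)
      (A B : ZMod Q → ZMod Q → Fin n → ℕ),
      (∀ x y j, |σ x y j| ≤ 1) → (∀ x y j, A x y j ≤ B x y j) →
      (∀ x y i j, i ≠ j → B x y i ≤ A x y j ∨ B x y j ≤ A x y i) →
      ∑ x : ZMod Q, ∑ y : ZMod Q, |H x y| ^ 3 ≤ 1 →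
      ∑ x : ZMod Q, ∑ y : ZMod Q, |F1 x y| ^ 3 ≤ 1 →
      ∑ x : ZMod Q, ∑ y : ZMod Q, |F2 x y| ^ 3 ≤ 1 →
      |∑ x0 : ZMod Q, ∑ x1 : ZMod Q, H x0 x1 * ∑ j, σ x0 x1 j *
        ∑ s ∈ Ioc (A x0 x1 j) (B x0 x1 j),
          (TT F1 F2 x0 x1 s - TT F1 F2 x0 x1 (-(s : ℤ))) / (s : ℝ)| ≤ C * Real.sqrt n := by
  obtain ⟨CK, hCK0, hK⟩ := kernel_main
  obtain ⟨CD, hCD0, hDex⟩ := exists_D
  obtain ⟨CZ, hCZ0, hCZ⟩ := exists_CZ
  set c : ℝ := 1 / (2 * (CK + 1)) with hc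
  have hc0 : 0 < c := by positivity
  set S0 : ℝ := 1 + CD with hS0
  have hS00 : 0 ≤ S0 := by positivity
  refine ⟨(1 / c) * (2400 * 40 * ((3 + 2 * S0) * CZ + CK + 2 * CK * S0)), by positivity, ?_⟩
  intro Q _ n hn H F1 F2 σ A B hσ hAB hdisj hH hF1 hF2
  obtain ⟨D, hD0, hDsum, hcost⟩ := hDex Q H F1 F2 hH hF1 hF2
  set Λ : ℕ := (∑ x : ZMod Q, ∑ y : ZMod Q, ∑ j, B x y j) + 10 with hΛ
  have hΛB : ∀ x y j, B x y j + 10 ≤ Λ := by
    intro x y j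
    have h1 : B x y j ≤ ∑ j, B x y j :=
      Finset.single_le_sum (f := fun j => B x y j) (fun j _ => Nat.zero_le _) (Finset.mem_univ j)
    have h2 : ∑ j, B x y j ≤ ∑ y : ZMod Q, ∑ j, B x y j :=
      Finset.single_le_sum (f := fun y => ∑ j, B x y j) (fun j _ => Nat.zero_le _)
        (Finset.mem_univ y)
    have h3 : ∑ y : ZMod Q, ∑ j, B x y j ≤ ∑ x : ZMod Q, ∑ y : ZMod Q, ∑ j, B x y j :=
      Finset.single_le_sum (f := fun x => ∑ y : ZMod Q, ∑ j, B x y j) (fun j _ => Nat.zero_le _)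
        (Finset.mem_univ x)
    omega
  choose e ν hν0 he hvar hsum hlim using fun x y => hK n (σ x y) (A x y) (B x y) hn (hσ x y)
    (hAB x y) (hdisj x y) Λ (hΛB x y)
  set s : ℝ := Real.sqrt n with hs
  have hn1 : (1 : ℝ) ≤ n := by exact_mod_cast hn
  have hs1 : 1 ≤ s := by
    rw [hs]; exact Real.one_le_sqrt.mpr hn1
  have hs2 : s ^ 2 = n := by rw [hs]; exact Real.sq_sqrt (by positivity)
  have hs0 : 0 < s := by linarith
  -- S
  set S : ℝ := ∑ x : ZMod Q, ∑ y : ZMod Q, |H x y| * D x y with hSdef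
  have hS0' : 0 ≤ S := Finset.sum_nonneg fun x _ => Finset.sum_nonneg fun y _ =>
    mul_nonneg (abs_nonneg _) (hD0 x y)
  have hSle : S ≤ S0 := by
    have h1 : ∀ x y, |H x y| * D x y ≤ |H x y| ^ 3 + D x y ^ (3 / 2 : ℝ) := by
      intro x y
      have h2 := Real.young_inequality_of_nonneg (abs_nonneg (H x y)) (hD0 x y)
        (show (3 : ℝ).HolderConjugate (3 / 2) from by
          rw [Real.holderConjugate_iff]; norm_num)
      have h3 : |H x y| ^ (3 : ℝ) = |H x y| ^ 3 := by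
        rw [← Real.rpow_natCast]; norm_num
      rw [h3] at h2
      have h4 : 0 ≤ |H x y| ^ 3 := by positivity
      have h5 : 0 ≤ D x y ^ (3 / 2 : ℝ) := Real.rpow_nonneg (hD0 x y) _
      linarith
    calc S ≤ ∑ x : ZMod Q, ∑ y : ZMod Q, (|H x y| ^ 3 + D x y ^ (3 / 2 : ℝ)) :=
          Finset.sum_le_sum fun x _ => Finset.sum_le_sum fun y _ => h1 x y
      _ = ∑ x : ZMod Q, ∑ y : ZMod Q, |H x y| ^ 3 +
          ∑ x : ZMod Q, ∑ y : ZMod Q, D x y ^ (3 / 2 : ℝ) := by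
          simp only [Finset.sum_add_distrib]
      _ ≤ S0 := by rw [hS0]; linarith
  -- bound for one position
  have hlevel : ∀ (l : ℤ) (M : ℕ), |∑ m ∈ range M, ∑ x0 : ZMod Q, ∑ x1 : ZMod Q,
      H x0 x1 * (e x0 x1 m l * psiT (2 ^ m) (TT F1 F2 x0 x1) l)| ≤
      (1 / c) * (2400 * 40 * ((3 + 2 * S) * s * (1 / (1 + |(l : ℝ)|) ^ (1 / 8 : ℝ)) ^ 9 +
        (1 / (1 + |(l : ℝ)|) ^ (1 / 8 : ℝ)) ^ 2 *
          (∑ x : ZMod Q, ∑ y : ZMod Q, ν x y l * |H x y| ^ 3) / s ^ 2 +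
        2 * (1 / (1 + |(l : ℝ)|) ^ (1 / 8 : ℝ)) ^ 2 *
          (∑ x : ZMod Q, ∑ y : ZMod Q, ν x y l * (|H x y| * D x y)) / s)) := by
    intro l M
    obtain ⟨κ, hκ1, hκ2⟩ := exists_kappa l
    set lam : ℝ := 1 + |(l : ℝ)| with hlam
    have hlam1 : 1 ≤ lam := by have := abs_nonneg (l : ℝ); linarith
    have hlam0 : 0 < lam := by linarith
    set u : ℝ := lam ^ (1 / 8 : ℝ) with hu
    have hu1 : 1 ≤ u := Real.one_le_rpow hlam1 (by norm_num)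
    have hu0 : 0 < u := by linarith
    have hu8 : u ^ 8 = lam := by
      rw [hu, ← Real.rpow_natCast, ← Real.rpow_mul hlam0.le]; norm_num
    set g : ZMod Q → ZMod Q → ℕ → ℝ := fun x y m => c * lam * e x y m l with hg
    have hcl : 0 < c * lam := by positivity
    have hgle : ∀ x y m, |g x y m| ≤ (1 / lam + min 1 (ν x y l)) / 2 := by
      intro x y m
      simp only [hg]
      rw [abs_mul, abs_of_pos hcl]
      have h1 := he x y m l
      have hm0 : 0 ≤ 1 / lam + min 1 (ν x y l) := add_nonneg (by positivity)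
        (le_min zero_le_one (hν0 x y l))
      calc c * lam * |e x y m l| ≤ c * lam * (CK / lam * (1 / lam + min 1 (ν x y l))) :=
            mul_le_mul_of_nonneg_left h1 hcl.le
        _ = (c * CK) * (1 / lam + min 1 (ν x y l)) := by field_simp
        _ ≤ (1 / 2) * (1 / lam + min 1 (ν x y l)) := by
            refine mul_le_mul_of_nonneg_right ?_ hm0
            rw [hc, div_mul_eq_mul_div, div_le_div_iff₀ (by positivity) (by norm_num)]
            linarith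
        _ = _ := by ring
    have hgvar : ∀ x y M, ∑ m ∈ range M, |g x y (m + 1) - g x y m| ≤
        (n : ℝ) * (1 / lam) + ν x y l := by
      intro x y M
      have h1 := hvar x y M l
      have hm0 : 0 ≤ (n : ℝ) / lam + ν x y l := add_nonneg (by positivity) (hν0 x y l)
      have h2 : ∑ m ∈ range M, |g x y (m + 1) - g x y m| =
          c * lam * ∑ m ∈ range M, |e x y (m + 1) l - e x y m l| := by
        rw [Finset.mul_sum]
        refine Finset.sum_congr rfl fun m _ => ?_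
        simp only [hg]
        rw [← mul_sub, abs_mul, abs_of_pos hcl]
      rw [h2]
      calc _ ≤ c * lam * (CK / lam * (n / lam + ν x y l)) :=
            mul_le_mul_of_nonneg_left h1 hcl.le
        _ = (c * CK) * ((n : ℝ) / lam + ν x y l) := by field_simp
        _ ≤ 1 * ((n : ℝ) / lam + ν x y l) := by
            refine mul_le_mul_of_nonneg_right ?_ hm0
            rw [hc, div_mul_eq_mul_div, div_le_one (by positivity)]
            linarith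
        _ = _ := by ring
    have hw0 : 0 ≤ 1 / lam := by positivity
    have hw1 : 1 / lam ≤ 1 := by rw [div_le_one hlam0]; exact hlam1
    have hτ : 0 < u ^ 2 / s := by positivity
    have hLB := level_bound H F1 F2 D hH hF1 hF2 hD0 hcost g (fun x y => ν x y l) (1 / lam) n
      hw0 hw1 (fun x y => hν0 x y l) hgle hgvar (u ^ 2 / s) hτ l κ hκ1 M
    have hN1 : 0 ≤ ∑ x : ZMod Q, ∑ y : ZMod Q, ν x y l * |H x y| ^ 3 :=
      Finset.sum_nonneg fun x _ => Finset.sum_nonneg fun y _ => mul_nonneg (hν0 x y l)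
        (by positivity)
    have hN2 : 0 ≤ ∑ x : ZMod Q, ∑ y : ZMod Q, ν x y l * (|H x y| * D x y) :=
      Finset.sum_nonneg fun x _ => Finset.sum_nonneg fun y _ => mul_nonneg (hν0 x y l)
        (mul_nonneg (abs_nonneg _) (hD0 x y))
    have hfr := final_real (k := 1 + (κ : ℝ)) (K := 40) hu1 hs1 hS0' hN1 hN2 (by norm_num) hκ2
    have hconv : ∑ m ∈ range M, ∑ x0 : ZMod Q, ∑ x1 : ZMod Q,
        H x0 x1 * (e x0 x1 m l * psiT (2 ^ m) (TT F1 F2 x0 x1) l) =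
        (1 / c) * ((1 / u ^ 8) * ∑ m ∈ range M, ∑ x0 : ZMod Q, ∑ x1 : ZMod Q,
          H x0 x1 * (g x0 x1 m * psiT (2 ^ m) (TT F1 F2 x0 x1) l)) := by
      simp only [Finset.mul_sum]
      refine Finset.sum_congr rfl fun m _ => Finset.sum_congr rfl fun x0 _ =>
        Finset.sum_congr rfl fun x1 _ => ?_
      simp only [hg]
      rw [hu8]
      field_simp
    rw [hconv, abs_mul, abs_of_pos (by positivity : 0 < 1 / c), abs_mul,
      abs_of_pos (by positivity : 0 < 1 / u ^ 8)]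
    refine mul_le_mul_of_nonneg_left ?_ (by positivity)
    refine (mul_le_mul_of_nonneg_left hLB (by positivity)).trans ?_
    rw [← hu8, ← hs2]
    exact hfr
  -- the limit
  have hlimit : Tendsto (fun M : ℕ => ∑ x0 : ZMod Q, ∑ x1 : ZMod Q, H x0 x1 *
      ∑ m ∈ range M, ∑ l ∈ Icc (-(Λ : ℤ)) Λ, e x0 x1 m l * psiT (2 ^ m) (TT F1 F2 x0 x1) l) atTop
      (𝓝 (∑ x0 : ZMod Q, ∑ x1 : ZMod Q, H x0 x1 * ∑ j, σ x0 x1 j *
        ∑ s ∈ Ioc (A x0 x1 j) (B x0 x1 j),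
          (TT F1 F2 x0 x1 s - TT F1 F2 x0 x1 (-(s : ℤ))) / (s : ℝ))) := by
    refine tendsto_finsetSum _ fun x0 _ => tendsto_finsetSum _ fun x1 _ => ?_
    exact (hlim x0 x1 (TT F1 F2 x0 x1) (TT_bdd F1 F2 x0 x1)).const_mul _
  refine le_of_tendsto hlimit.abs (Filter.Eventually.of_forall fun M => ?_)
  have hre : ∑ x0 : ZMod Q, ∑ x1 : ZMod Q, H x0 x1 *
      ∑ m ∈ range M, ∑ l ∈ Icc (-(Λ : ℤ)) Λ, e x0 x1 m l * psiT (2 ^ m) (TT F1 F2 x0 x1) l =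
      ∑ l ∈ Icc (-(Λ : ℤ)) Λ, ∑ m ∈ range M, ∑ x0 : ZMod Q, ∑ x1 : ZMod Q,
        H x0 x1 * (e x0 x1 m l * psiT (2 ^ m) (TT F1 F2 x0 x1) l) := by
    rw [← swap4]
    simp only [Finset.mul_sum]
  rw [hre]
  refine (Finset.abs_sum_le_sum_abs _ _).trans ?_
  refine (Finset.sum_le_sum fun l _ => hlevel l M).trans ?_
  rw [← Finset.mul_sum, ← Finset.mul_sum, Finset.sum_add_distrib, Finset.sum_add_distrib]
  -- sums over l
  have hq : ∀ l : ℤ, (1 / (1 + |(l : ℝ)|) ^ (1 / 8 : ℝ)) ^ 2 =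
      (1 + |(l : ℝ)|) ^ (-(1 / 4) : ℝ) := by
    intro l
    have hl : (0 : ℝ) < 1 + |(l : ℝ)| := by positivity
    rw [one_div, inv_pow, ← Real.rpow_natCast, ← Real.rpow_mul hl.le, ← Real.rpow_neg hl.le]
    norm_num
  have hA : ∑ l ∈ Icc (-(Λ : ℤ)) Λ, (3 + 2 * S) * s *
      (1 / (1 + |(l : ℝ)|) ^ (1 / 8 : ℝ)) ^ 9 ≤ (3 + 2 * S) * s * CZ := by
    rw [← Finset.mul_sum]
    exact mul_le_mul_of_nonneg_left (hCZ Λ) (by positivity)
  -- generic weight sum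
  have hW : ∀ (Wt : ZMod Q → ZMod Q → ℝ), (∀ x y, 0 ≤ Wt x y) →
      ∑ l ∈ Icc (-(Λ : ℤ)) Λ, (1 / (1 + |(l : ℝ)|) ^ (1 / 8 : ℝ)) ^ 2 *
          (∑ x : ZMod Q, ∑ y : ZMod Q, ν x y l * Wt x y) ≤
        CK * s ^ 2 * ∑ x : ZMod Q, ∑ y : ZMod Q, Wt x y := by
    intro Wt hWt
    have h1 : ∑ l ∈ Icc (-(Λ : ℤ)) Λ, (1 / (1 + |(l : ℝ)|) ^ (1 / 8 : ℝ)) ^ 2 *
          (∑ x : ZMod Q, ∑ y : ZMod Q, ν x y l * Wt x y) =
        ∑ x : ZMod Q, ∑ y : ZMod Q, Wt x y *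
          ∑ l ∈ Icc (-(Λ : ℤ)) Λ, (1 + |(l : ℝ)|) ^ (-(1 / 4) : ℝ) * ν x y l := by
      simp only [Finset.mul_sum]
      rw [Finset.sum_comm]
      refine Finset.sum_congr rfl fun x _ => ?_
      rw [Finset.sum_comm]
      refine Finset.sum_congr rfl fun y _ => Finset.sum_congr rfl fun l _ => ?_
      rw [hq l]; ring
    rw [h1]
    calc _ ≤ ∑ x : ZMod Q, ∑ y : ZMod Q, Wt x y * (CK * n) :=
          Finset.sum_le_sum fun x _ => Finset.sum_le_sum fun y _ =>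
            mul_le_mul_of_nonneg_left (hsum x y) (hWt x y)
      _ = _ := by
          rw [hs2]
          simp only [Finset.mul_sum]
          refine Finset.sum_congr rfl fun x _ => Finset.sum_congr rfl fun y _ => ?_
          ring
  have hB : ∑ l ∈ Icc (-(Λ : ℤ)) Λ, (1 / (1 + |(l : ℝ)|) ^ (1 / 8 : ℝ)) ^ 2 *
          (∑ x : ZMod Q, ∑ y : ZMod Q, ν x y l * |H x y| ^ 3) / s ^ 2 ≤ CK * s := by
    rw [← Finset.sum_div, div_le_iff₀ (by positivity)]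
    refine (hW (fun x y => |H x y| ^ 3) (fun x y => by positivity)).trans ?_
    calc CK * s ^ 2 * ∑ x : ZMod Q, ∑ y : ZMod Q, |H x y| ^ 3 ≤ CK * s ^ 2 * 1 :=
          mul_le_mul_of_nonneg_left hH (by positivity)
      _ ≤ CK * s * s ^ 2 := by
          have h1 : CK * s ^ 2 * 1 ≤ CK * s ^ 2 * s := mul_le_mul_of_nonneg_left hs1 (by positivity)
          linarith [h1, (by ring : CK * s * s ^ 2 = CK * s ^ 2 * s)]
  have hC : ∑ l ∈ Icc (-(Λ : ℤ)) Λ, 2 * (1 / (1 + |(l : ℝ)|) ^ (1 / 8 : ℝ)) ^ 2 *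
          (∑ x : ZMod Q, ∑ y : ZMod Q, ν x y l * (|H x y| * D x y)) / s ≤ 2 * CK * S * s := by
    rw [← Finset.sum_div, div_le_iff₀ (by positivity)]
    have h1 : ∑ l ∈ Icc (-(Λ : ℤ)) Λ, 2 * (1 / (1 + |(l : ℝ)|) ^ (1 / 8 : ℝ)) ^ 2 *
          (∑ x : ZMod Q, ∑ y : ZMod Q, ν x y l * (|H x y| * D x y)) =
        2 * ∑ l ∈ Icc (-(Λ : ℤ)) Λ, (1 / (1 + |(l : ℝ)|) ^ (1 / 8 : ℝ)) ^ 2 *
          (∑ x : ZMod Q, ∑ y : ZMod Q, ν x y l * (|H x y| * D x y)) := by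
      rw [Finset.mul_sum]
      exact Finset.sum_congr rfl fun l _ => by ring
    rw [h1]
    have h2 := hW (fun x y => |H x y| * D x y) (fun x y => mul_nonneg (abs_nonneg _) (hD0 x y))
    rw [← hSdef] at h2
    calc _ ≤ 2 * (CK * s ^ 2 * S) := mul_le_mul_of_nonneg_left h2 (by norm_num)
      _ = _ := by ring
  have htot := add_le_add (add_le_add hA hB) hC
  rw [mul_assoc (1 / c)]
  refine mul_le_mul_of_nonneg_left ?_ (by positivity)
  rw [mul_assoc (2400 * 40)]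
  refine mul_le_mul_of_nonneg_left ?_ (by norm_num)
  refine htot.trans ?_
  have h9 : (3 + 2 * S) * s * CZ ≤ (3 + 2 * S0) * s * CZ := by gcongr
  have h10 : 2 * CK * S * s ≤ 2 * CK * S0 * s := by gcongr
  nlinarith

end Crest.Agent.R072.Assembly
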