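import Crest.Agent.R072.AsmD

/-! R072: assembly, part E: homogeneity. -/

set_option autoImplicit false

namespace Crest.Agent.R072.Assembly

open Finset Filter Topology Crest.Agent.R072 Crest.Agent.R072.Lattice Crest.Agent.R072.Jump
  Crest.Agent.R072.Kernel

lemma zero_of_cube {Q : ℕ} [NeZero Q] (F : ZMod Q → ZMod Q → ℝ)
    (h : (∑ x : ZMod Q, ∑ y : ZMod Q, |F x y| ^ 3) ^ (1 / 3 : ℝ) = 0) : ∀ x y, F x y = 0 := by
  have h0 : 0 ≤ ∑ x : ZMod Q, ∑ y : ZMod Q, |F x y| ^ 3 := by positivity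
  have h1 : ∑ x : ZMod Q, ∑ y : ZMod Q, |F x y| ^ 3 = 0 := by
    rw [Real.rpow_eq_zero h0 (by norm_num)] at h
    exact h
  intro x y
  have h2 := (Finset.sum_eq_zero_iff_of_nonneg (fun x _ => by positivity)).mp h1 x
    (Finset.mem_univ x)
  have h3 := (Finset.sum_eq_zero_iff_of_nonneg (fun x _ => by positivity)).mp h2 y
    (Finset.mem_univ y)
  simpa using h3

lemma cube_scale {Q : ℕ} [NeZero Q] (F : ZMod Q → ZMod Q → ℝ) {a : ℝ} (ha : 0 < a)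
    (h : (∑ x : ZMod Q, ∑ y : ZMod Q, |F x y| ^ 3) ^ (1 / 3 : ℝ) = a) :
    ∑ x : ZMod Q, ∑ y : ZMod Q, |a⁻¹ * F x y| ^ 3 ≤ 1 := by
  have h0 : 0 ≤ ∑ x : ZMod Q, ∑ y : ZMod Q, |F x y| ^ 3 := by positivity
  have h1 : ∑ x : ZMod Q, ∑ y : ZMod Q, |F x y| ^ 3 = a ^ 3 := by
    rw [← h, ← Real.rpow_natCast, ← Real.rpow_mul h0]
    norm_num
  have h2 : ∑ x : ZMod Q, ∑ y : ZMod Q, |a⁻¹ * F x y| ^ 3 =
      a⁻¹ ^ 3 * ∑ x : ZMod Q, ∑ y : ZMod Q, |F x y| ^ 3 := by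
    simp only [Finset.mul_sum]
    refine Finset.sum_congr rfl fun x _ => Finset.sum_congr rfl fun y _ => ?_
    rw [abs_mul, mul_pow, abs_of_pos (inv_pos.mpr ha)]
  rw [h2, h1, ← mul_pow, inv_mul_cancel₀ ha.ne', one_pow]

/-- **Lattice theorem on `ZMod Q`** -/
theorem lattice_zmod : ∃ C : ℝ, 0 ≤ C ∧ ∀ (Q : ℕ) [NeZero Q] (n : ℕ), 1 ≤ n →
    ∀ (H F1 F2 : ZMod Q → ZMod Q → ℝ) (σ : ZMod Q → ZMod Q → Fin n → ℝ)
      (A B : ZMod Q → ZMod Q → Fin n → ℕ),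
      (∀ x y j, |σ x y j| ≤ 1) → (∀ x y j, A x y j ≤ B x y j) →
      (∀ x y i j, i ≠ j → B x y i ≤ A x y j ∨ B x y j ≤ A x y i) →
      |∑ x0 : ZMod Q, ∑ x1 : ZMod Q, H x0 x1 * ∑ j, σ x0 x1 j *
        ∑ s ∈ Ioc (A x0 x1 j) (B x0 x1 j),
          (F1 x1 ((s : ZMod Q) - x0 - x1) * F2 ((s : ZMod Q) - x0 - x1) x0 -
            F1 x1 (-(s : ZMod Q) - x0 - x1) * F2 (-(s : ZMod Q) - x0 - x1) x0) / (s : ℝ)| ≤
        C * Real.sqrt n * (∑ x : ZMod Q, ∑ y : ZMod Q, |H x y| ^ 3) ^ (1 / 3 : ℝ) *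
          (∑ x : ZMod Q, ∑ y : ZMod Q, |F1 x y| ^ 3) ^ (1 / 3 : ℝ) *
          (∑ x : ZMod Q, ∑ y : ZMod Q, |F2 x y| ^ 3) ^ (1 / 3 : ℝ) := by
  obtain ⟨C, hC0, hC⟩ := zmod_norm
  refine ⟨C, hC0, ?_⟩
  intro Q _ n hn H F1 F2 σ A B h1 h2 h3
  generalize ha : (∑ x : ZMod Q, ∑ y : ZMod Q, |H x y| ^ 3) ^ (1 / 3 : ℝ) = a
  generalize hb : (∑ x : ZMod Q, ∑ y : ZMod Q, |F1 x y| ^ 3) ^ (1 / 3 : ℝ) = b
  generalize hc : (∑ x : ZMod Q, ∑ y : ZMod Q, |F2 x y| ^ 3) ^ (1 / 3 : ℝ) = c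
  have ha0 : 0 ≤ a := by rw [← ha]; positivity
  have hb0 : 0 ≤ b := by rw [← hb]; positivity
  have hc0 : 0 ≤ c := by rw [← hc]; positivity
  rcases ha0.eq_or_lt with h | ha1
  · have hz := zero_of_cube H (by rw [ha]; exact h.symm)
    simp only [hz, zero_mul, Finset.sum_const_zero, abs_zero]
    positivity
  rcases hb0.eq_or_lt with h | hb1
  · have hz := zero_of_cube F1 (by rw [hb]; exact h.symm)
    simp only [hz, zero_mul, sub_self, zero_div, mul_zero, Finset.sum_const_zero, abs_zero]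
    positivity
  rcases hc0.eq_or_lt with h | hc1
  · have hz := zero_of_cube F2 (by rw [hc]; exact h.symm)
    simp only [hz, sub_self, zero_div, mul_zero, Finset.sum_const_zero, abs_zero]
    positivity
  have key := hC Q n hn (fun x y => a⁻¹ * H x y) (fun x y => b⁻¹ * F1 x y)
    (fun x y => c⁻¹ * F2 x y) σ A B h1 h2 h3 (cube_scale H ha1 ha) (cube_scale F1 hb1 hb)
    (cube_scale F2 hc1 hc)
  have e : ∑ x0 : ZMod Q, ∑ x1 : ZMod Q, H x0 x1 * ∑ j, σ x0 x1 j *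
        ∑ s ∈ Ioc (A x0 x1 j) (B x0 x1 j),
          (F1 x1 ((s : ZMod Q) - x0 - x1) * F2 ((s : ZMod Q) - x0 - x1) x0 -
            F1 x1 (-(s : ZMod Q) - x0 - x1) * F2 (-(s : ZMod Q) - x0 - x1) x0) / (s : ℝ) =
      (a * b * c) * ∑ x0 : ZMod Q, ∑ x1 : ZMod Q, (a⁻¹ * H x0 x1) * ∑ j, σ x0 x1 j *
        ∑ s ∈ Ioc (A x0 x1 j) (B x0 x1 j),
          (TT (fun x y => b⁻¹ * F1 x y) (fun x y => c⁻¹ * F2 x y) x0 x1 s -
            TT (fun x y => b⁻¹ * F1 x y) (fun x y => c⁻¹ * F2 x y) x0 x1 (-(s : ℤ))) / (s : ℝ) := by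
    simp only [Finset.mul_sum, TT]
    refine Finset.sum_congr rfl fun x0 _ => Finset.sum_congr rfl fun x1 _ =>
      Finset.sum_congr rfl fun j _ => Finset.sum_congr rfl fun s _ => ?_
    push_cast
    field_simp
  rw [e, abs_mul, abs_of_pos (by positivity : 0 < a * b * c)]
  calc a * b * c * _ ≤ a * b * c * (C * Real.sqrt n) :=
        mul_le_mul_of_nonneg_left key (by positivity)
    _ = _ := by ring

end Crest.Agent.R072.Assembly
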