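import Crest.Agent.R072.AsmE

/-! R072: assembly of the lattice theorem (blueprint part 2).
The theorems `sum_Lbox` (AsmA), `NJ` (AsmB), `lattice_zmod` (AsmE) of the namespace
`Crest.Agent.R072.Assembly` are proved in `AsmA`–`AsmE`. -/
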