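import Mathlib

/-!
# R072 — definitions for the matrix-potential proof (rows S0095, S0096, S0097)

`phi M = tr (M^{3/2})` for positive semidefinite real matrices, Bregman divergence, gap, `Gam`.
-/

set_option autoImplicit false

namespace Crest.Agent.R072

open Matrix
open scoped MatrixOrder

section Mat

variable {n : Type*} [Fintype n] [DecidableEq n]

/-- `phi M = tr (M^{3/2})` (for `M` positive semidefinite). -/
noncomputable def phi (M : Matrix n n ℝ) : ℝ := (CFC.sqrt M * M).trace

/-- Bregman divergence of `phi`: `phi Y - phi X - (3/2) tr (√X (Y - X))`. -/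
noncomputable def breg (Y X : Matrix n n ℝ) : ℝ :=
  phi Y - phi X - (3 / 2) * (CFC.sqrt X * (Y - X)).trace

/-- midpoint convexity gap -/
noncomputable def gap (X Y : Matrix n n ℝ) : ℝ :=
  phi X + phi Y - 2 * phi ((1 / 2 : ℝ) • (X + Y))

/-- `Gam u M = phi (M + U M U) - 2 phi M`, `U = diagonal u`, `u = ±1`. -/
noncomputable def Gam (u : n → ℝ) (M : Matrix n n ℝ) : ℝ :=
  phi (M + diagonal u * M * diagonal u) - 2 * phi M

end Mat

end Crest.Agent.R072
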