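import Crest.Prelude.Def_TriangularHilbert

/-! R072: from continuous compactly supported functions to `L³` (density), any constant `K n`.
(No imports from the rest of R072.) -/

set_option autoImplicit false

namespace Crest.Agent.R072.Density

open MeasureTheory Crest.AnalysisR Filter
open scoped ENNReal Topology

/-! ### the two shears are quasi-measure-preserving -/

theorem qmp_left : Measure.QuasiMeasurePreserving
    (fun w : (ℝ × ℝ) × ℝ => ((w.1.1 + w.2, w.1.2) : ℝ × ℝ)) (volume.prod volume) volume := by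
  refine QuasiMeasurePreserving.prod_of_left (by fun_prop) ?_
  refine Eventually.of_forall fun t => ?_
  have : MeasurePreserving (fun z : ℝ × ℝ => z + (t, 0)) volume volume :=
    measurePreserving_add_right volume _
  have h2 : (fun z : ℝ × ℝ => z + (t, 0)) = fun z : ℝ × ℝ => ((z.1 + t, z.2) : ℝ × ℝ) := by
    ext z <;> simp
  rw [h2] at this
  exact this.quasiMeasurePreserving

theorem qmp_right : Measure.QuasiMeasurePreserving
    (fun w : (ℝ × ℝ) × ℝ => ((w.1.1, w.1.2 + w.2) : ℝ × ℝ)) (volume.prod volume) volume := by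
  refine QuasiMeasurePreserving.prod_of_left (by fun_prop) ?_
  refine Eventually.of_forall fun t => ?_
  have : MeasurePreserving (fun z : ℝ × ℝ => z + (0, t)) volume volume :=
    measurePreserving_add_right volume _
  have h2 : (fun z : ℝ × ℝ => z + (0, t)) = fun z : ℝ × ℝ => ((z.1, z.2 + t) : ℝ × ℝ) := by
    ext z <;> simp
  rw [h2] at this
  exact this.quasiMeasurePreserving

/-- the integrand -/
noncomputable def kern (F G : ℝ × ℝ → ℂ) (w : (ℝ × ℝ) × ℝ) : ℂ :=
  F (w.1.1 + w.2, w.1.2) * G (w.1.1, w.1.2 + w.2) / (w.2 : ℂ)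

theorem aesm_kern {F G : ℝ × ℝ → ℂ} (hF : AEStronglyMeasurable F volume)
    (hG : AEStronglyMeasurable G volume) :
    AEStronglyMeasurable (kern F G) (volume.prod volume) := by
  have h1 := hF.comp_quasiMeasurePreserving qmp_left
  have h2 := hG.comp_quasiMeasurePreserving qmp_right
  have h3 : AEStronglyMeasurable (fun w : (ℝ × ℝ) × ℝ => ((w.2 : ℂ))⁻¹) (volume.prod volume) := by
    have : Measurable (fun w : (ℝ × ℝ) × ℝ => ((w.2 : ℂ))⁻¹) := by fun_prop
    exact this.aestronglyMeasurable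
  have h4 := (h1.mul h2).mul h3
  refine h4.congr (Eventually.of_forall fun w => ?_)
  simp only [kern, Pi.mul_apply, Function.comp, div_eq_mul_inv]

/-- the annulus -/
def ann (ε R : ℝ) : Set ℝ := {t : ℝ | ε < |t| ∧ |t| < R}

theorem measurableSet_ann (ε R : ℝ) : MeasurableSet (ann ε R) := by
  apply MeasurableSet.inter
  · exact measurableSet_lt measurable_const continuous_abs.measurable
  · exact measurableSet_lt continuous_abs.measurable measurable_const

theorem ht_eq (F G : ℝ × ℝ → ℂ) (ε R : ℝ) (z : ℝ × ℝ) :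
    annularTriangularHT F G ε R z = ∫ t in ann ε R, kern F G (z, t) := rfl

theorem aesm_kern_ann {F G : ℝ × ℝ → ℂ} (hF : AEStronglyMeasurable F volume)
    (hG : AEStronglyMeasurable G volume) (ε R : ℝ) :
    AEStronglyMeasurable (kern F G)
      ((volume : Measure (ℝ × ℝ)).prod (volume.restrict (ann ε R))) := by
  have h := aesm_kern hF hG
  have : (volume : Measure (ℝ × ℝ)).prod ((volume : Measure ℝ).restrict (ann ε R)) =
      ((volume : Measure (ℝ × ℝ)).prod volume).restrict (Set.univ ×ˢ ann ε R) := by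
    rw [← Measure.prod_restrict, Measure.restrict_univ]
  rw [this]
  exact h.restrict

theorem aemeasurable_ht {F G : ℝ × ℝ → ℂ} (hF : MemLp F 3 volume) (hG : MemLp G 3 volume)
    (ε R : ℝ) : AEStronglyMeasurable (annularTriangularHT F G ε R) volume := by
  have h := (aesm_kern_ann hF.1 hG.1 ε R).integral_prod_right'
  exact h

/-- the size of the annulus -/
theorem vol_ann_le (ε R : ℝ) : volume (ann ε R) ≤ ENNReal.ofReal (2 * R) := by
  have : ann ε R ⊆ Set.Ioo (-R) R := by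
    intro t ht
    exact abs_lt.1 ht.2
  refine (measure_mono this).trans ?_
  rw [Real.volume_Ioo]
  apply ENNReal.ofReal_le_ofReal
  linarith

/-- the majorant -/
noncomputable def maj (F G : ℝ × ℝ → ℂ) (ε R : ℝ) (z : ℝ × ℝ) : ℝ≥0∞ :=
  ∫⁻ t in ann ε R, ‖kern F G (z, t)‖ₑ

theorem enorm_ht_le (F G : ℝ × ℝ → ℂ) (ε R : ℝ) (z : ℝ × ℝ) :
    ‖annularTriangularHT F G ε R z‖ₑ ≤ maj F G ε R z := by
  rw [ht_eq]
  exact enorm_integral_le_lintegral_enorm _

theorem eLpNorm_three {F : ℝ × ℝ → ℂ} : ∫⁻ z, ‖F z‖ₑ ^ (3 : ℝ) = eLpNorm F 3 volume ^ (3 : ℝ) := by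
  rw [eLpNorm_eq_lintegral_rpow_enorm_toReal (by norm_num) (by norm_num)]
  simp only [ENNReal.toReal_ofNat]
  rw [← ENNReal.rpow_mul]
  norm_num

theorem lint_shift_left (f : ℝ × ℝ → ℝ≥0∞) (t : ℝ) :
    ∫⁻ z : ℝ × ℝ, f (z.1 + t, z.2) = ∫⁻ z : ℝ × ℝ, f z := by
  have h := lintegral_add_right_eq_self (μ := (volume : Measure (ℝ × ℝ))) f ((t, 0) : ℝ × ℝ)
  rw [← h]
  apply lintegral_congr
  intro z
  congr 1
  ext <;> simp

theorem lint_shift_right (f : ℝ × ℝ → ℝ≥0∞) (t : ℝ) :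
    ∫⁻ z : ℝ × ℝ, f (z.1, z.2 + t) = ∫⁻ z : ℝ × ℝ, f z := by
  have h := lintegral_add_right_eq_self (μ := (volume : Measure (ℝ × ℝ))) f ((0, t) : ℝ × ℝ)
  rw [← h]
  apply lintegral_congr
  intro z
  congr 1
  ext <;> simp

/-- Jensen for `3/2` -/
theorem jensen_three_halves {α : Type*} [MeasurableSpace α] (μ : Measure α) (f : α → ℝ≥0∞)
    (hf : AEMeasurable f μ) :
    (∫⁻ a, f a ∂μ) ^ (3 / 2 : ℝ) ≤ (∫⁻ a, f a ^ (3 / 2 : ℝ) ∂μ) * μ Set.univ ^ (1 / 2 : ℝ) := by
  have hpq : (3 / 2 : ℝ).HolderConjugate 3 := by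
    rw [Real.holderConjugate_iff]; norm_num
  have h := ENNReal.lintegral_mul_le_Lp_mul_Lq μ hpq hf (aemeasurable_const (b := (1 : ℝ≥0∞)))
  simp only [Pi.mul_apply, mul_one, ENNReal.one_rpow, lintegral_const, one_mul] at h
  calc (∫⁻ a, f a ∂μ) ^ (3 / 2 : ℝ)
      ≤ ((∫⁻ a, f a ^ (3 / 2 : ℝ) ∂μ) ^ (1 / (3 / 2) : ℝ) * μ Set.univ ^ (1 / 3 : ℝ)) ^ (3 / 2 : ℝ) :=
        ENNReal.rpow_le_rpow h (by norm_num)
    _ = _ := by
        rw [ENNReal.mul_rpow_of_nonneg _ _ (by norm_num), ← ENNReal.rpow_mul, ← ENNReal.rpow_mul]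
        norm_num

theorem lint_maj_le {F G : ℝ × ℝ → ℂ} (hF : AEStronglyMeasurable F volume)
    (hG : AEStronglyMeasurable G volume) {ε R : ℝ} (hε : 0 < ε) (hR : ε < R) :
    (∫⁻ z, maj F G ε R z ^ (3 / 2 : ℝ)) ^ (2 / 3 : ℝ) ≤
      ENNReal.ofReal (2 * R / ε) * eLpNorm F 3 volume * eLpNorm G 3 volume := by
  set A := ann ε R with hA
  have hAm : MeasurableSet A := measurableSet_ann ε R
  have hk := aesm_kern_ann hF hG ε R
  -- pointwise in t
  have hin : ∀ t ∈ A, ∫⁻ z : ℝ × ℝ, ‖kern F G (z, t)‖ₑ ^ (3 / 2 : ℝ) ≤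
      ENNReal.ofReal (1 / ε) ^ (3 / 2 : ℝ) * (eLpNorm F 3 volume ^ (3 / 2 : ℝ) *
        eLpNorm G 3 volume ^ (3 / 2 : ℝ)) := by
    intro t ht
    have h1 : ∀ z : ℝ × ℝ, ‖kern F G (z, t)‖ₑ ^ (3 / 2 : ℝ) ≤
        ENNReal.ofReal (1 / ε) ^ (3 / 2 : ℝ) *
          ((‖F (z.1 + t, z.2)‖ₑ ^ (3 : ℝ)) ^ (1 / 2 : ℝ) *
            (‖G (z.1, z.2 + t)‖ₑ ^ (3 : ℝ)) ^ (1 / 2 : ℝ)) := by
      intro z
      have e1 : ‖kern F G (z, t)‖ₑ ≤ ENNReal.ofReal (1 / ε) *
          (‖F (z.1 + t, z.2)‖ₑ * ‖G (z.1, z.2 + t)‖ₑ) := by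
        have : kern F G (z, t) = ((t : ℂ))⁻¹ * (F (z.1 + t, z.2) * G (z.1, z.2 + t)) := by
          simp only [kern, div_eq_mul_inv]; ring
        rw [this, enorm_mul, enorm_mul]
        gcongr
        rw [← ofReal_norm, norm_inv, Complex.norm_real, Real.norm_eq_abs]
        apply ENNReal.ofReal_le_ofReal
        rw [one_div]
        exact inv_anti₀ hε ht.1.le
      calc ‖kern F G (z, t)‖ₑ ^ (3 / 2 : ℝ) ≤ (ENNReal.ofReal (1 / ε) *
          (‖F (z.1 + t, z.2)‖ₑ * ‖G (z.1, z.2 + t)‖ₑ)) ^ (3 / 2 : ℝ) :=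
            ENNReal.rpow_le_rpow e1 (by norm_num)
        _ = _ := by
            rw [ENNReal.mul_rpow_of_nonneg _ _ (by norm_num),
              ENNReal.mul_rpow_of_nonneg _ _ (by norm_num), ← ENNReal.rpow_mul, ← ENNReal.rpow_mul]
            norm_num
    have hFm : AEMeasurable (fun z : ℝ × ℝ => ‖F (z.1 + t, z.2)‖ₑ ^ (3 : ℝ)) volume := by
      have hmp : MeasurePreserving (fun z : ℝ × ℝ => ((z.1 + t, z.2) : ℝ × ℝ)) volume volume := by
        have : MeasurePreserving (fun z : ℝ × ℝ => z + (t, 0)) volume volume :=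
          measurePreserving_add_right volume _
        have h2 : (fun z : ℝ × ℝ => z + (t, 0)) = fun z : ℝ × ℝ => ((z.1 + t, z.2) : ℝ × ℝ) := by
          ext z <;> simp
        rwa [h2] at this
      exact ((hF.comp_quasiMeasurePreserving hmp.quasiMeasurePreserving).enorm).pow_const _
    have hGm : AEMeasurable (fun z : ℝ × ℝ => ‖G (z.1, z.2 + t)‖ₑ ^ (3 : ℝ)) volume := by
      have hmp : MeasurePreserving (fun z : ℝ × ℝ => ((z.1, z.2 + t) : ℝ × ℝ)) volume volume := by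
        have : MeasurePreserving (fun z : ℝ × ℝ => z + (0, t)) volume volume :=
          measurePreserving_add_right volume _
        have h2 : (fun z : ℝ × ℝ => z + (0, t)) = fun z : ℝ × ℝ => ((z.1, z.2 + t) : ℝ × ℝ) := by
          ext z <;> simp
        rwa [h2] at this
      exact ((hG.comp_quasiMeasurePreserving hmp.quasiMeasurePreserving).enorm).pow_const _
    calc ∫⁻ z : ℝ × ℝ, ‖kern F G (z, t)‖ₑ ^ (3 / 2 : ℝ)
        ≤ ∫⁻ z : ℝ × ℝ, ENNReal.ofReal (1 / ε) ^ (3 / 2 : ℝ) *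
          ((‖F (z.1 + t, z.2)‖ₑ ^ (3 : ℝ)) ^ (1 / 2 : ℝ) *
            (‖G (z.1, z.2 + t)‖ₑ ^ (3 : ℝ)) ^ (1 / 2 : ℝ)) := lintegral_mono h1
      _ = ENNReal.ofReal (1 / ε) ^ (3 / 2 : ℝ) *
          ∫⁻ z : ℝ × ℝ, ((‖F (z.1 + t, z.2)‖ₑ ^ (3 : ℝ)) ^ (1 / 2 : ℝ) *
            (‖G (z.1, z.2 + t)‖ₑ ^ (3 : ℝ)) ^ (1 / 2 : ℝ)) := by
          rw [lintegral_const_mul' _ _ (by
            exact ENNReal.rpow_ne_top_of_nonneg (by norm_num) ENNReal.ofReal_ne_top)]
      _ ≤ ENNReal.ofReal (1 / ε) ^ (3 / 2 : ℝ) *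
          ((∫⁻ z : ℝ × ℝ, ‖F (z.1 + t, z.2)‖ₑ ^ (3 : ℝ)) ^ (1 / 2 : ℝ) *
            (∫⁻ z : ℝ × ℝ, ‖G (z.1, z.2 + t)‖ₑ ^ (3 : ℝ)) ^ (1 / 2 : ℝ)) := by
          gcongr
          exact ENNReal.lintegral_mul_norm_pow_le hFm hGm (by norm_num) (by norm_num) (by norm_num)
      _ = _ := by
          rw [lint_shift_left (fun z => ‖F z‖ₑ ^ (3 : ℝ)) t,
            lint_shift_right (fun z => ‖G z‖ₑ ^ (3 : ℝ)) t, eLpNorm_three, eLpNorm_three,
            ← ENNReal.rpow_mul, ← ENNReal.rpow_mul]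
          norm_num
  have hvol : volume A ≤ ENNReal.ofReal (2 * R) := vol_ann_le ε R
  have hmain : ∫⁻ z, maj F G ε R z ^ (3 / 2 : ℝ) ≤
      (ENNReal.ofReal (2 * R / ε) * eLpNorm F 3 volume * eLpNorm G 3 volume) ^ (3 / 2 : ℝ) := by
    calc ∫⁻ z, maj F G ε R z ^ (3 / 2 : ℝ)
        ≤ ∫⁻ z : ℝ × ℝ, (∫⁻ t in A, ‖kern F G (z, t)‖ₑ ^ (3 / 2 : ℝ)) * volume A ^ (1 / 2 : ℝ) := by
          apply lintegral_mono_ae
          filter_upwards [hk.prodMk_left] with z hz
          have := jensen_three_halves (volume.restrict A) (fun t => ‖kern F G (z, t)‖ₑ) hz.enorm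
          rw [Measure.restrict_apply_univ] at this
          exact this
      _ = (∫⁻ z : ℝ × ℝ, ∫⁻ t in A, ‖kern F G (z, t)‖ₑ ^ (3 / 2 : ℝ)) *
            volume A ^ (1 / 2 : ℝ) := by
          rw [lintegral_mul_const']
          exact ENNReal.rpow_ne_top_of_nonneg (by norm_num)
            (ne_top_of_le_ne_top ENNReal.ofReal_ne_top hvol)
      _ = (∫⁻ t in A, ∫⁻ z : ℝ × ℝ, ‖kern F G (z, t)‖ₑ ^ (3 / 2 : ℝ)) *
            volume A ^ (1 / 2 : ℝ) := by
          rw [lintegral_lintegral_swap]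
          exact (hk.enorm.pow_const (3 / 2 : ℝ))
      _ ≤ (∫⁻ _t in A, ENNReal.ofReal (1 / ε) ^ (3 / 2 : ℝ) * (eLpNorm F 3 volume ^ (3 / 2 : ℝ) *
        eLpNorm G 3 volume ^ (3 / 2 : ℝ))) * volume A ^ (1 / 2 : ℝ) := by
          exact mul_le_mul' (setLIntegral_mono' hAm hin) le_rfl
      _ = (ENNReal.ofReal (1 / ε) * volume A * eLpNorm F 3 volume *
            eLpNorm G 3 volume) ^ (3 / 2 : ℝ) := by
          rw [setLIntegral_const, ENNReal.mul_rpow_of_nonneg _ _ (by norm_num),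
            ENNReal.mul_rpow_of_nonneg _ _ (by norm_num),
            ENNReal.mul_rpow_of_nonneg _ _ (by norm_num)]
          have : volume A ^ (3 / 2 : ℝ) = volume A * volume A ^ (1 / 2 : ℝ) := by
            conv_rhs => rw [← ENNReal.rpow_one (volume A)]
            rw [← ENNReal.rpow_mul, ← ENNReal.rpow_add_of_nonneg _ _ (by norm_num) (by norm_num)]
            norm_num
          rw [this]
          ring
      _ ≤ (ENNReal.ofReal (2 * R / ε) * eLpNorm F 3 volume *
            eLpNorm G 3 volume) ^ (3 / 2 : ℝ) := by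
          apply ENNReal.rpow_le_rpow _ (by norm_num)
          gcongr
          calc ENNReal.ofReal (1 / ε) * volume A
              ≤ ENNReal.ofReal (1 / ε) * ENNReal.ofReal (2 * R) := by gcongr
            _ = ENNReal.ofReal (2 * R / ε) := by
                rw [← ENNReal.ofReal_mul (by positivity)]
                congr 1
                field_simp
  calc (∫⁻ z, maj F G ε R z ^ (3 / 2 : ℝ)) ^ (2 / 3 : ℝ)
      ≤ ((ENNReal.ofReal (2 * R / ε) * eLpNorm F 3 volume *
            eLpNorm G 3 volume) ^ (3 / 2 : ℝ)) ^ (2 / 3 : ℝ) :=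
        ENNReal.rpow_le_rpow hmain (by norm_num)
    _ = _ := by
        rw [← ENNReal.rpow_mul]
        norm_num

/-- single truncation: `‖B_{ε,R}(F,G)‖_{3/2} ≤ (2R/ε) ‖F‖₃ ‖G‖₃`. -/
theorem single_bound {F G : ℝ × ℝ → ℂ} (hF : MemLp F 3 volume) (hG : MemLp G 3 volume)
    {ε R : ℝ} (hε : 0 < ε) (hR : ε < R) :
    (∫⁻ z, ‖annularTriangularHT F G ε R z‖ₑ ^ (3 / 2 : ℝ)) ^ (2 / 3 : ℝ) ≤
      ENNReal.ofReal (2 * R / ε) * eLpNorm F 3 volume * eLpNorm G 3 volume := by
  refine le_trans (ENNReal.rpow_le_rpow (lintegral_mono fun z => ?_) (by norm_num))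
    (lint_maj_le hF.1 hG.1 hε hR)
  exact ENNReal.rpow_le_rpow (enorm_ht_le F G ε R z) (by norm_num)

/-- the integrand is integrable for a.e. `z` -/
theorem ae_integrable {F G : ℝ × ℝ → ℂ} (hF : MemLp F 3 volume) (hG : MemLp G 3 volume)
    {ε R : ℝ} (hε : 0 < ε) (hR : ε < R) :
    ∀ᵐ z : ℝ × ℝ, IntegrableOn (fun t => kern F G (z, t)) (ann ε R) := by
  have hk := aesm_kern_ann hF.1 hG.1 ε R
  have hm : AEMeasurable (fun z => maj F G ε R z ^ (3 / 2 : ℝ)) volume := by
    have : AEMeasurable (fun z => maj F G ε R z) volume :=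
      (hk.enorm).lintegral_prod_right'
    exact this.pow_const _
  have hfin : ∫⁻ z, maj F G ε R z ^ (3 / 2 : ℝ) ≠ ∞ := by
    intro h
    have h2 := lint_maj_le hF.1 hG.1 hε hR
    rw [h, ENNReal.top_rpow_of_pos (by norm_num), top_le_iff] at h2
    exact ENNReal.mul_ne_top (ENNReal.mul_ne_top ENNReal.ofReal_ne_top hF.2.ne) hG.2.ne h2
  filter_upwards [hk.prodMk_left, ae_lt_top' hm hfin] with z hz hz2
  refine ⟨hz, ?_⟩
  have : maj F G ε R z ≠ ∞ := by
    intro h
    rw [h, ENNReal.top_rpow_of_pos (by norm_num)] at hz2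
    exact lt_irrefl _ hz2
  exact lt_top_iff_ne_top.2 this

/-- additivity a.e. -/
theorem ht_sub_left {F F' G : ℝ × ℝ → ℂ} (hF : MemLp F 3 volume) (hF' : MemLp F' 3 volume)
    (hG : MemLp G 3 volume) {ε R : ℝ} (hε : 0 < ε) (hR : ε < R) :
    ∀ᵐ z : ℝ × ℝ, annularTriangularHT (F - F') G ε R z =
      annularTriangularHT F G ε R z - annularTriangularHT F' G ε R z := by
  filter_upwards [ae_integrable hF hG hε hR, ae_integrable hF' hG hε hR] with z h1 h2
  rw [ht_eq, ht_eq, ht_eq, ← integral_sub h1 h2]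
  congr 1
  ext t
  simp only [kern, Pi.sub_apply]
  ring

theorem ht_sub_right {F G G' : ℝ × ℝ → ℂ} (hF : MemLp F 3 volume) (hG : MemLp G 3 volume)
    (hG' : MemLp G' 3 volume) {ε R : ℝ} (hε : 0 < ε) (hR : ε < R) :
    ∀ᵐ z : ℝ × ℝ, annularTriangularHT F (G - G') ε R z =
      annularTriangularHT F G ε R z - annularTriangularHT F G' ε R z := by
  filter_upwards [ae_integrable hF hG hε hR, ae_integrable hF hG' hε hR] with z h1 h2
  rw [ht_eq, ht_eq, ht_eq, ← integral_sub h1 h2]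
  congr 1
  ext t
  simp only [kern, Pi.sub_apply]
  ring

/-! ### the finite index set of families -/

/-- admissible families -/
structure Fam (n : ℕ) where
  m : ℕ
  hm : m ≤ n
  e : Fin m → ℚ
  R : Fin m → ℚ
  h : ∀ j, 0 < e j ∧ e j < R j
  d : ∀ i j, i ≠ j → R i ≤ e j ∨ R j ≤ e i

instance (n : ℕ) : Countable (Fam n) := by
  let f : Fam n → (Σ m : ℕ, (Fin m → ℚ) × (Fin m → ℚ)) := fun x => ⟨x.m, (x.e, x.R)⟩
  have hf : Function.Injective f := by
    rintro ⟨m, hm, e, R, h, d⟩ ⟨m', hm', e', R', h', d'⟩ hxy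
    simp only [f, Sigma.mk.injEq] at hxy
    obtain ⟨rfl, h2⟩ := hxy
    simp only [heq_eq_eq, Prod.mk.injEq] at h2
    obtain ⟨rfl, rfl⟩ := h2
    rfl
  exact hf.countable

/-- the sum over one family -/
noncomputable def SS {n : ℕ} (a : Fam n) (F G : ℝ × ℝ → ℂ) (z : ℝ × ℝ) : ℝ≥0∞ :=
  ∑ j, ‖annularTriangularHT F G (a.e j : ℝ) (a.R j : ℝ) z‖ₑ

theorem annulusCount_eq (n : ℕ) (F G : ℝ × ℝ → ℂ) (z : ℝ × ℝ) :
    annulusCount n F G z = ⨆ a : Fam n, SS a F G z := by
  apply le_antisymm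
  · unfold annulusCount
    refine iSup_le fun m => iSup_le fun hm => iSup_le fun e => iSup_le fun R => iSup_le fun h =>
      iSup_le fun d => ?_
    exact le_iSup (fun a : Fam n => SS a F G z) ⟨m, hm, e, R, h, d⟩
  · refine iSup_le fun a => ?_
    unfold annulusCount
    exact le_iSup_of_le a.m (le_iSup_of_le a.hm (le_iSup_of_le a.e (le_iSup_of_le a.R
      (le_iSup_of_le a.h (le_iSup_of_le a.d le_rfl)))))

/-- sup over a finite set of families -/
noncomputable def TT {n : ℕ} (s : Finset (Fam n)) (F G : ℝ × ℝ → ℂ) (z : ℝ × ℝ) : ℝ≥0∞ :=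
  s.sup fun a => SS a F G z

theorem SS_le_count {n : ℕ} (a : Fam n) (F G : ℝ × ℝ → ℂ) (z : ℝ × ℝ) :
    SS a F G z ≤ annulusCount n F G z := by
  rw [annulusCount_eq]
  exact le_iSup (fun a : Fam n => SS a F G z) a

theorem TT_le_count {n : ℕ} (s : Finset (Fam n)) (F G : ℝ × ℝ → ℂ) (z : ℝ × ℝ) :
    TT s F G z ≤ annulusCount n F G z := by
  unfold TT
  exact Finset.sup_le fun a _ => SS_le_count a F G z

theorem annulusCount_eq_TT (n : ℕ) (F G : ℝ × ℝ → ℂ) (z : ℝ × ℝ) :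
    annulusCount n F G z = ⨆ s : Finset (Fam n), TT s F G z := by
  apply le_antisymm
  · rw [annulusCount_eq]
    refine iSup_le fun a => le_iSup_of_le {a} ?_
    simp [TT]
  · exact iSup_le fun s => TT_le_count s F G z

theorem aemeasurable_SS {n : ℕ} (a : Fam n) {F G : ℝ × ℝ → ℂ} (hF : MemLp F 3 volume)
    (hG : MemLp G 3 volume) : AEMeasurable (fun z => SS a F G z) volume := by
  unfold SS
  exact Finset.aemeasurable_fun_sum _ fun j _ => (aemeasurable_ht hF hG _ _).enorm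

theorem aemeasurable_TT {n : ℕ} (s : Finset (Fam n)) {F G : ℝ × ℝ → ℂ} (hF : MemLp F 3 volume)
    (hG : MemLp G 3 volume) : AEMeasurable (fun z => TT s F G z) volume := by
  classical
  induction s using Finset.induction_on with
  | empty => simp [TT]
  | insert a s _ ih =>
    have : (fun z => TT (insert a s) F G z) = fun z => SS a F G z ⊔ TT s F G z := by
      ext z; simp [TT]
    rw [this]
    exact (aemeasurable_SS a hF hG).sup ih

/-- the `L^{3/2}` size -/
noncomputable def N32 (f : ℝ × ℝ → ℝ≥0∞) : ℝ≥0∞ := (∫⁻ z, f z ^ (3 / 2 : ℝ)) ^ (2 / 3 : ℝ)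

theorem N32_mono {f g : ℝ × ℝ → ℝ≥0∞} (h : ∀ᵐ z, f z ≤ g z) : N32 f ≤ N32 g := by
  unfold N32
  refine ENNReal.rpow_le_rpow (lintegral_mono_ae ?_) (by norm_num)
  filter_upwards [h] with z hz
  exact ENNReal.rpow_le_rpow hz (by norm_num)

theorem N32_zero : N32 (fun _ => 0) = 0 := by
  unfold N32
  simp

theorem N32_add_le {f g : ℝ × ℝ → ℝ≥0∞} (hf : AEMeasurable f volume) (hg : AEMeasurable g volume) :
    N32 (fun z => f z + g z) ≤ N32 f + N32 g := by
  have h := ENNReal.lintegral_Lp_add_le (p := 3 / 2) hf hg (by norm_num)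
  have e : (1 / (3 / 2) : ℝ) = 2 / 3 := by norm_num
  rw [e] at h
  exact h

theorem N32_sum_le {ι : Type*} (s : Finset ι) (f : ι → ℝ × ℝ → ℝ≥0∞)
    (hf : ∀ i ∈ s, AEMeasurable (f i) volume) :
    N32 (fun z => ∑ i ∈ s, f i z) ≤ ∑ i ∈ s, N32 (f i) := by
  classical
  induction s using Finset.induction_on with
  | empty => simp [N32_zero]
  | insert a s ha ih =>
    simp only [Finset.sum_insert ha]
    refine (N32_add_le (hf a (Finset.mem_insert_self _ _)) ?_).trans ?_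
    · exact Finset.aemeasurable_fun_sum _ fun i hi => hf i (Finset.mem_insert_of_mem hi)
    · gcongr
      exact ih fun i hi => hf i (Finset.mem_insert_of_mem hi)

/-- the crude constant of a family -/
noncomputable def cst {n : ℕ} (a : Fam n) : ℝ≥0∞ :=
  ∑ j, ENNReal.ofReal (2 * (a.R j : ℝ) / (a.e j : ℝ))

theorem cst_ne_top {n : ℕ} (a : Fam n) : cst a ≠ ∞ := by
  unfold cst
  exact (ENNReal.sum_lt_top.2 fun j _ => ENNReal.ofReal_lt_top).ne

theorem N32_SS_le {n : ℕ} (a : Fam n) {F G : ℝ × ℝ → ℂ} (hF : MemLp F 3 volume)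
    (hG : MemLp G 3 volume) :
    N32 (fun z => SS a F G z) ≤ cst a * eLpNorm F 3 volume * eLpNorm G 3 volume := by
  unfold SS cst
  refine (N32_sum_le _ _ fun j _ => (aemeasurable_ht hF hG _ _).enorm).trans ?_
  rw [Finset.sum_mul, Finset.sum_mul]
  refine Finset.sum_le_sum fun j _ => ?_
  have h := a.h j
  exact single_bound hF hG (by exact_mod_cast h.1) (by exact_mod_cast h.2)

theorem N32_TT_le {n : ℕ} (s : Finset (Fam n)) {F G : ℝ × ℝ → ℂ} (hF : MemLp F 3 volume)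
    (hG : MemLp G 3 volume) :
    N32 (fun z => TT s F G z) ≤ (∑ a ∈ s, cst a) * eLpNorm F 3 volume * eLpNorm G 3 volume := by
  have h1 : ∀ z, TT s F G z ≤ ∑ a ∈ s, SS a F G z := by
    intro z
    unfold TT
    refine Finset.sup_le fun a ha => ?_
    exact Finset.single_le_sum (f := fun a => SS a F G z) (fun _ _ => zero_le) ha
  refine (N32_mono (Eventually.of_forall h1)).trans ?_
  refine (N32_sum_le _ _ fun a _ => aemeasurable_SS a hF hG).trans ?_
  rw [Finset.sum_mul, Finset.sum_mul]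
  exact Finset.sum_le_sum fun a _ => N32_SS_le a hF hG

/-- a.e. triangle inequality for one family -/
theorem SS_ae_le {n : ℕ} (a : Fam n) {F G F' G' : ℝ × ℝ → ℂ} (hF : MemLp F 3 volume)
    (hG : MemLp G 3 volume) (hF' : MemLp F' 3 volume) (hG' : MemLp G' 3 volume) :
    ∀ᵐ z : ℝ × ℝ, SS a F G z ≤ SS a F' G' z + (SS a (F - F') G' z + SS a F (G - G') z) := by
  have h1 : ∀ j, ∀ᵐ z : ℝ × ℝ, annularTriangularHT (F - F') G' (a.e j : ℝ) (a.R j : ℝ) z =
      annularTriangularHT F G' (a.e j : ℝ) (a.R j : ℝ) z -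
        annularTriangularHT F' G' (a.e j : ℝ) (a.R j : ℝ) z := fun j =>
    ht_sub_left hF hF' hG' (by exact_mod_cast (a.h j).1) (by exact_mod_cast (a.h j).2)
  have h2 : ∀ j, ∀ᵐ z : ℝ × ℝ, annularTriangularHT F (G - G') (a.e j : ℝ) (a.R j : ℝ) z =
      annularTriangularHT F G (a.e j : ℝ) (a.R j : ℝ) z -
        annularTriangularHT F G' (a.e j : ℝ) (a.R j : ℝ) z := fun j =>
    ht_sub_right hF hG hG' (by exact_mod_cast (a.h j).1) (by exact_mod_cast (a.h j).2)
  filter_upwards [ae_all_iff.2 h1, ae_all_iff.2 h2] with z hz1 hz2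
  unfold SS
  rw [← Finset.sum_add_distrib, ← Finset.sum_add_distrib]
  refine Finset.sum_le_sum fun j _ => ?_
  have e : annularTriangularHT F G (a.e j : ℝ) (a.R j : ℝ) z =
      annularTriangularHT F' G' (a.e j : ℝ) (a.R j : ℝ) z +
        (annularTriangularHT (F - F') G' (a.e j : ℝ) (a.R j : ℝ) z +
          annularTriangularHT F (G - G') (a.e j : ℝ) (a.R j : ℝ) z) := by
    rw [hz1 j, hz2 j]; ring
  rw [e]
  exact (enorm_add_le _ _).trans (add_le_add le_rfl (enorm_add_le _ _))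

theorem TT_ae_le {n : ℕ} (s : Finset (Fam n)) {F G F' G' : ℝ × ℝ → ℂ} (hF : MemLp F 3 volume)
    (hG : MemLp G 3 volume) (hF' : MemLp F' 3 volume) (hG' : MemLp G' 3 volume) :
    ∀ᵐ z : ℝ × ℝ, TT s F G z ≤ TT s F' G' z + (TT s (F - F') G' z + TT s F (G - G') z) := by
  have h : ∀ a : Fam n, ∀ᵐ z : ℝ × ℝ,
      SS a F G z ≤ SS a F' G' z + (SS a (F - F') G' z + SS a F (G - G') z) := fun a =>
    SS_ae_le a hF hG hF' hG'
  filter_upwards [ae_all_iff.2 h] with z hz
  unfold TT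
  refine Finset.sup_le fun a ha => (hz a).trans ?_
  refine add_le_add ?_ (add_le_add ?_ ?_)
  · exact Finset.le_sup (f := fun a => SS a F' G' z) ha
  · exact Finset.le_sup (f := fun a => SS a (F - F') G' z) ha
  · exact Finset.le_sup (f := fun a => SS a F (G - G') z) ha

/-- **Density.** -/
theorem count_density (K : ℝ≥0∞) (n : ℕ)
    (hcc : ∀ F G : ℝ × ℝ → ℂ, Continuous F → HasCompactSupport F → Continuous G →
      HasCompactSupport G → (∫⁻ z, annulusCount n F G z ^ (3 / 2 : ℝ)) ^ (2 / 3 : ℝ) ≤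
        K * eLpNorm F 3 volume * eLpNorm G 3 volume)
    (F G : ℝ × ℝ → ℂ) (hF : MemLp F 3 volume) (hG : MemLp G 3 volume) :
    (∫⁻ z, annulusCount n F G z ^ (3 / 2 : ℝ)) ^ (2 / 3 : ℝ) ≤
      K * eLpNorm F 3 volume * eLpNorm G 3 volume := by
  classical
  -- bound for finite sets of families
  have hfin : ∀ s : Finset (Fam n), N32 (fun z => TT s F G z) ≤
      K * eLpNorm F 3 volume * eLpNorm G 3 volume := by
    intro s
    set Cs : ℝ≥0∞ := ∑ a ∈ s, cst a with hCs
    have hCtop : Cs ≠ ∞ := (ENNReal.sum_lt_top.2 fun a _ => (cst_ne_top a).lt_top).ne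
    by_cases hF0 : eLpNorm F 3 volume = 0
    · refine (N32_TT_le s hF hG).trans ?_
      simp [hF0]
    by_cases hG0 : eLpNorm G 3 volume = 0
    · refine (N32_TT_le s hF hG).trans ?_
      simp [hG0]
    by_cases hK : K = ∞
    · rw [hK, ENNReal.top_mul hF0, ENNReal.top_mul hG0]
      exact le_top
    -- approximations
    have happ : ∀ η : ℝ≥0∞, η ≠ 0 → N32 (fun z => TT s F G z) ≤
        K * (eLpNorm F 3 volume + η) * (eLpNorm G 3 volume + η) +
          (Cs * η * (eLpNorm G 3 volume + η) + Cs * eLpNorm F 3 volume * η) := by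
      intro η hη
      obtain ⟨F', hF's, hF'e, hF'c, hF'm⟩ :=
        hF.exists_hasCompactSupport_eLpNorm_sub_le (by norm_num) hη
      obtain ⟨G', hG's, hG'e, hG'c, hG'm⟩ :=
        hG.exists_hasCompactSupport_eLpNorm_sub_le (by norm_num) hη
      have hF'n : eLpNorm F' 3 volume ≤ eLpNorm F 3 volume + η := by
        have : F' = F - (F - F') := by simp
        rw [this]
        refine (eLpNorm_sub_le hF.1 (hF.sub hF'm).1 (by norm_num)).trans ?_
        gcongr
      have hG'n : eLpNorm G' 3 volume ≤ eLpNorm G 3 volume + η := by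
        have : G' = G - (G - G') := by simp
        rw [this]
        refine (eLpNorm_sub_le hG.1 (hG.sub hG'm).1 (by norm_num)).trans ?_
        gcongr
      calc N32 (fun z => TT s F G z)
          ≤ N32 (fun z => TT s F' G' z + (TT s (F - F') G' z + TT s F (G - G') z)) :=
            N32_mono (TT_ae_le s hF hG hF'm hG'm)
        _ ≤ N32 (fun z => TT s F' G' z) + (N32 (fun z => TT s (F - F') G' z) +
              N32 (fun z => TT s F (G - G') z)) := by
            refine (N32_add_le (aemeasurable_TT s hF'm hG'm)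
              ((aemeasurable_TT s (hF.sub hF'm) hG'm).add
                (aemeasurable_TT s hF (hG.sub hG'm)))).trans ?_
            gcongr
            exact N32_add_le (aemeasurable_TT s (hF.sub hF'm) hG'm)
                (aemeasurable_TT s hF (hG.sub hG'm))
        _ ≤ K * eLpNorm F' 3 volume * eLpNorm G' 3 volume +
              (Cs * eLpNorm (F - F') 3 volume * eLpNorm G' 3 volume +
                Cs * eLpNorm F 3 volume * eLpNorm (G - G') 3 volume) := by
            refine add_le_add ?_ (add_le_add (N32_TT_le s (hF.sub hF'm) hG'm)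
              (N32_TT_le s hF (hG.sub hG'm)))
            refine (N32_mono (Eventually.of_forall fun z => TT_le_count s F' G' z)).trans ?_
            exact hcc F' G' hF'c hF's hG'c hG's
        _ ≤ _ := by gcongr
    have htend : Tendsto (fun η : ℝ≥0∞ => K * (eLpNorm F 3 volume + η) * (eLpNorm G 3 volume + η) +
          (Cs * η * (eLpNorm G 3 volume + η) + Cs * eLpNorm F 3 volume * η)) (𝓝[≠] 0)
          (𝓝 (K * (eLpNorm F 3 volume + 0) * (eLpNorm G 3 volume + 0) +
          (Cs * 0 * (eLpNorm G 3 volume + 0) + Cs * eLpNorm F 3 volume * 0))) := by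
      refine Tendsto.mono_left ?_ nhdsWithin_le_nhds
      have t0 : Tendsto (fun η : ℝ≥0∞ => η) (𝓝 0) (𝓝 0) := tendsto_id
      have tF : Tendsto (fun η : ℝ≥0∞ => eLpNorm F 3 volume + η) (𝓝 0)
          (𝓝 (eLpNorm F 3 volume + 0)) := tendsto_const_nhds.add t0
      have tG : Tendsto (fun η : ℝ≥0∞ => eLpNorm G 3 volume + η) (𝓝 0)
          (𝓝 (eLpNorm G 3 volume + 0)) := tendsto_const_nhds.add t0
      have fF : eLpNorm F 3 volume + 0 ≠ ∞ := by rw [add_zero]; exact hF.2.ne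
      have fG : eLpNorm G 3 volume + 0 ≠ ∞ := by rw [add_zero]; exact hG.2.ne
      have hKF : Tendsto (fun η : ℝ≥0∞ => K * (eLpNorm F 3 volume + η)) (𝓝 0)
          (𝓝 (K * (eLpNorm F 3 volume + 0))) := ENNReal.Tendsto.const_mul tF (Or.inr hK)
      have hCη : Tendsto (fun η : ℝ≥0∞ => Cs * η) (𝓝 0) (𝓝 (Cs * 0)) :=
        ENNReal.Tendsto.const_mul t0 (Or.inr hCtop)
      refine Tendsto.add ?_ (Tendsto.add ?_ ?_)
      · exact ENNReal.Tendsto.mul hKF (Or.inr fG) tG (Or.inr (ENNReal.mul_ne_top hK fF))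
      · exact ENNReal.Tendsto.mul hCη (Or.inr fG) tG (Or.inr (by simp))
      · exact ENNReal.Tendsto.const_mul t0 (Or.inr (ENNReal.mul_ne_top hCtop hF.2.ne))
    have hle := ge_of_tendsto htend (eventually_mem_nhdsWithin.mono fun η hη => happ η hη)
    simpa using hle
  -- monotone convergence
  have hmono : ∫⁻ z, annulusCount n F G z ^ (3 / 2 : ℝ) =
      ⨆ s : Finset (Fam n), ∫⁻ z, TT s F G z ^ (3 / 2 : ℝ) := by
    have hdir : Directed (· ≤ ·) (fun (s : Finset (Fam n)) (z : ℝ × ℝ) =>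
        TT s F G z ^ (3 / 2 : ℝ)) := by
      apply Monotone.directed_le
      intro s t hst z
      exact ENNReal.rpow_le_rpow (Finset.sup_mono hst) (by norm_num)
    rw [← lintegral_iSup_directed (fun s => (aemeasurable_TT s hF hG).pow_const _) hdir]
    apply lintegral_congr
    intro z
    rw [annulusCount_eq_TT]
    exact (ENNReal.orderIsoRpow (3 / 2) (by norm_num)).map_iSup _
  have key : ∫⁻ z, annulusCount n F G z ^ (3 / 2 : ℝ) ≤
      (K * eLpNorm F 3 volume * eLpNorm G 3 volume) ^ (3 / 2 : ℝ) := by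
    rw [hmono]
    refine iSup_le fun s => ?_
    have h := ENNReal.rpow_le_rpow (hfin s) (by norm_num : (0 : ℝ) ≤ 3 / 2)
    unfold N32 at h
    rw [← ENNReal.rpow_mul] at h
    norm_num at h
    exact h
  calc (∫⁻ z, annulusCount n F G z ^ (3 / 2 : ℝ)) ^ (2 / 3 : ℝ)
      ≤ ((K * eLpNorm F 3 volume * eLpNorm G 3 volume) ^ (3 / 2 : ℝ)) ^ (2 / 3 : ℝ) :=
        ENNReal.rpow_le_rpow key (by norm_num)
    _ = _ := by
        rw [← ENNReal.rpow_mul]
        norm_num

end Crest.Agent.R072.Density
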