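import Crest.Agent.R072.DyadicC

/-! R072: discrete dyadic theorem (blueprint part C). Definitions `hs, dform, blk, pot` and
`dform_le` are in `DyadicA.lean`; `dyadic_discrete`, `dyadic_discrete_homog` in `DyadicC.lean`. -/
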