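import Crest.Agent.R072.Frob

/-!
# Row 72: node inequality in the eigenbasis, derivative estimate
-/

set_option autoImplicit false
set_option linter.unusedSectionVars false

open Matrix
open scoped MatrixOrder

namespace Crest.Agent.R072.Nd

section deriv

variable {m n p : Type*} [Fintype m] [Fintype n] [Fintype p]

/-- entrywise derivative of a matrix-valued function -/
def MDeriv (X : ℝ → Matrix m n ℝ) (X' : Matrix m n ℝ) (t : ℝ) : Prop :=
  ∀ i j, HasDerivAt (fun s => X s i j) (X' i j) t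

theorem MDeriv.mul {X : ℝ → Matrix m n ℝ} {Y : ℝ → Matrix n p ℝ} {X' : Matrix m n ℝ}
    {Y' : Matrix n p ℝ} {t : ℝ} (hX : MDeriv X X' t) (hY : MDeriv Y Y' t) :
    MDeriv (fun s => X s * Y s) (X' * Y t + X t * Y') t := by
  intro i k
  simp only [Matrix.add_apply, mul_apply]
  rw [← Finset.sum_add_distrib]
  exact HasDerivAt.fun_sum fun j _ => (hX i j).mul (hY j k)

theorem MDeriv.const (A : Matrix m n ℝ) (t : ℝ) : MDeriv (fun _ => A) 0 t := fun i j => by
  simpa using hasDerivAt_const t (A i j)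

theorem MDeriv.mul_const {X : ℝ → Matrix m n ℝ} {X' : Matrix m n ℝ} {t : ℝ} (hX : MDeriv X X' t)
    (A : Matrix n p ℝ) : MDeriv (fun s => X s * A) (X' * A) t := by
  have := hX.mul (MDeriv.const A t)
  rwa [Matrix.mul_zero, add_zero] at this

theorem MDeriv.trace {X : ℝ → Matrix m m ℝ} {X' : Matrix m m ℝ} {t : ℝ} (hX : MDeriv X X' t) :
    HasDerivAt (fun s => Matrix.trace (X s)) (Matrix.trace X') t := by
  simp only [Matrix.trace, diag_apply]
  exact HasDerivAt.fun_sum fun i _ => hX i i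

end deriv

section

variable {m : Type*} [Fintype m] [DecidableEq m]

/-- `t (M+t)⁻¹` in the eigenbasis -/
noncomputable def dg (e : m → ℝ) (t : ℝ) : Matrix m m ℝ := diagonal fun i => t / (e i + t)

/-- derivative of `dg` -/
noncomputable def dg' (e : m → ℝ) (t : ℝ) : Matrix m m ℝ := diagonal fun i => e i / (e i + t) ^ 2

/-- `t² R u R` -/
noncomputable def su (u : Matrix m m ℝ) (e : m → ℝ) (t : ℝ) : Matrix m m ℝ := dg e t * u * dg e t

/-- the energy at parameter `t` -/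
noncomputable def gen (u : Matrix m m ℝ) (e : m → ℝ) (t : ℝ) : ℝ :=
  ∑ i, ∑ j, e i / (e i + t) ^ 2 * (e j / (e j + t)) * u i j ^ 2

theorem gen_nonneg (u : Matrix m m ℝ) {e : m → ℝ} (he : ∀ i, 0 ≤ e i) {t : ℝ} (ht : 0 < t) :
    0 ≤ gen u e t := by
  unfold gen
  refine Finset.sum_nonneg fun i _ => Finset.sum_nonneg fun j _ => ?_
  have h1 := he i
  have h2 := he j
  positivity

theorem mderiv_dg (e : m → ℝ) (he : ∀ i, 0 ≤ e i) {t : ℝ} (ht : 0 < t) :
    MDeriv (fun s => dg e s) (dg' e t) t := by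
  intro i j
  unfold dg dg'
  by_cases h : i = j
  · subst h
    simp only [diagonal_apply_eq]
    have hne : e i + t ≠ 0 := by have := he i; positivity
    have h1 : HasDerivAt (fun s : ℝ => s / (e i + s)) ((1 * (e i + t) - t * 1) / (e i + t) ^ 2) t :=
      (hasDerivAt_id t).div ((hasDerivAt_id t).const_add (e i)) hne
    convert h1 using 1
    ring
  · simp only [diagonal_apply_ne _ h]
    exact hasDerivAt_const t 0

theorem mderiv_su (u : Matrix m m ℝ) (e : m → ℝ) (he : ∀ i, 0 ≤ e i) {t : ℝ} (ht : 0 < t) :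
    MDeriv (fun s => su u e s) (dg' e t * u * dg e t + dg e t * u * dg' e t) t := by
  unfold su
  exact ((mderiv_dg e he ht).mul_const u).mul (mderiv_dg e he ht)

theorem dg_transpose (e : m → ℝ) (t : ℝ) : (dg e t)ᵀ = dg e t := diagonal_transpose _

theorem dg'_transpose (e : m → ℝ) (t : ℝ) : (dg' e t)ᵀ = dg' e t := diagonal_transpose _

theorem dg_sq_le (e : m → ℝ) (he : ∀ i, 0 ≤ e i) {t : ℝ} (ht : 0 < t) : dg e t * dg e t ≤ 1 := by
  rw [← sub_nonneg]
  have : (1 : Matrix m m ℝ) - dg e t * dg e t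
      = diagonal fun i => 1 - t / (e i + t) * (t / (e i + t)) := by
    unfold dg
    rw [diagonal_mul_diagonal, ← diagonal_one, diagonal_sub]
  rw [this]
  refine (PosSemidef.diagonal fun i => ?_).nonneg
  have h1 := he i
  have h2 : t / (e i + t) ≤ 1 := by rw [div_le_one (by positivity)]; linarith
  have h3 : 0 ≤ t / (e i + t) := by positivity
  show (0 : ℝ) ≤ 1 - t / (e i + t) * (t / (e i + t))
  nlinarith

theorem su_contraction {u : Matrix m m ℝ} (hu : uᵀ = u) (hu2 : u * u = 1) (e : m → ℝ)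
    (he : ∀ i, 0 ≤ e i) {t : ℝ} (ht : 0 < t) : su u e t * (su u e t)ᵀ ≤ 1 := by
  unfold su
  rw [transpose_mul, transpose_mul, dg_transpose, hu]
  have h1 : dg e t * u * dg e t * (dg e t * (u * dg e t))
      = (dg e t * u) * (dg e t * dg e t) * (dg e t * u)ᵀ := by
    rw [transpose_mul, dg_transpose, hu]
    simp only [Matrix.mul_assoc]
  rw [h1]
  have h2 := le_conj (dg_sq_le e he ht) (dg e t * u)
  refine h2.trans ?_
  rw [Matrix.mul_one, transpose_mul, dg_transpose, hu]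
  have h3 : dg e t * u * (u * dg e t) = dg e t * dg e t := by
    rw [Matrix.mul_assoc, ← Matrix.mul_assoc u u, hu2, Matrix.one_mul]
  rw [h3]
  exact dg_sq_le e he ht

theorem su_apply (u : Matrix m m ℝ) (e : m → ℝ) (t : ℝ) (i j : m) :
    su u e t i j = t / (e i + t) * u i j * (t / (e j + t)) := by
  unfold su dg
  rw [mul_diagonal, diagonal_mul]

variable {p q : Type*} [Fintype p] [Fintype q]

theorem trace_diag_sandwich (e : m → ℝ) (f : m → ℝ) (Y : Matrix m m ℝ) :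
    trace (diagonal e * (Y * diagonal f * Yᵀ)) = ∑ i, ∑ j, e i * Y i j ^ 2 * f j := by
  simp only [trace, diag_apply, diagonal_mul]
  refine Finset.sum_congr rfl fun i _ => ?_
  rw [mul_apply, Finset.mul_sum]
  refine Finset.sum_congr rfl fun j _ => ?_
  rw [mul_diagonal, transpose_apply]
  ring

/-- undifferentiated factor -/
theorem fsq_su_le (u : Matrix m m ℝ) (e : m → ℝ) (he : ∀ i, 0 ≤ e i) {t : ℝ} (ht : 0 < t)
    (A : Matrix p m ℝ) (B : Matrix m q ℝ) (hA : Aᵀ * A ≤ diagonal e) (hB : B * Bᵀ ≤ diagonal e) :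
    fsq (A * su u e t * B) ≤ t ^ 3 * gen u e t := by
  refine (fsq_sandwich_le A (su u e t) B hA hB).trans ?_
  rw [trace_diag_sandwich]
  unfold gen
  rw [Finset.mul_sum]
  refine Finset.sum_le_sum fun i _ => ?_
  rw [Finset.mul_sum]
  refine Finset.sum_le_sum fun j _ => ?_
  rw [su_apply]
  have h1 := he i
  have h2 := he j
  have h3 : t / (e j + t) ≤ 1 := by rw [div_le_one (by positivity)]; linarith
  have h4 : 0 ≤ t / (e j + t) := by positivity
  have h5 : e i * (t / (e i + t) * u i j * (t / (e j + t))) ^ 2 * e j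
      = (t ^ 3 * (e i / (e i + t) ^ 2 * (e j / (e j + t)) * u i j ^ 2)) * (t / (e j + t)) := by
    field_simp
  rw [h5]
  have h6 : 0 ≤ t ^ 3 * (e i / (e i + t) ^ 2 * (e j / (e j + t)) * u i j ^ 2) := by positivity
  nlinarith

/-- differentiated factor, derivative on the right -/
theorem fsq_su'_le (u : Matrix m m ℝ) (e : m → ℝ) (he : ∀ i, 0 ≤ e i) {t : ℝ} (ht : 0 < t)
    (C : Matrix p m ℝ) (hC : Cᵀ * C ≤ diagonal e) :
    fsq (C * (dg e t * u * dg' e t)) ≤ gen uᵀ e t / 4 := by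
  have h0 := fsq_sandwich_le C (dg e t * u * dg' e t) (1 : Matrix m m ℝ) (N := diagonal fun _ => 1)
    hC (by rw [transpose_one, Matrix.mul_one, diagonal_one])
  rw [Matrix.mul_one] at h0
  refine h0.trans ?_
  rw [trace_diag_sandwich]
  unfold gen
  rw [Finset.sum_comm, Finset.sum_div]
  refine Finset.sum_le_sum fun j _ => ?_
  rw [Finset.sum_div]
  refine Finset.sum_le_sum fun i _ => ?_
  have h5 : (dg e t * u * dg' e t) i j = t / (e i + t) * u i j * (e j / (e j + t) ^ 2) := by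
    unfold dg dg'
    rw [mul_diagonal, diagonal_mul]
  rw [h5, transpose_apply]
  have h1 := he i
  have h2 := he j
  -- e_i t² e_j² / ((e_i+t)² (e_j+t)⁴) ≤ (1/4) e_j/(e_j+t)² * e_i/(e_i+t)
  have h6 : e i * (t / (e i + t) * u i j * (e j / (e j + t) ^ 2)) ^ 2 * 1
      = (e j / (e j + t) ^ 2 * (e i / (e i + t)) * u i j ^ 2) *
        ((t / (e i + t)) * (t * e j / (e j + t) ^ 2)) := by
    field_simp
  rw [h6]
  have h7 : 0 ≤ e j / (e j + t) ^ 2 * (e i / (e i + t)) * u i j ^ 2 := by positivity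
  have h8 : t / (e i + t) ≤ 1 := by rw [div_le_one (by positivity)]; linarith
  have h8' : 0 ≤ t / (e i + t) := by positivity
  have h9 : t * e j / (e j + t) ^ 2 ≤ 1 / 4 := by
    rw [div_le_iff₀ (by positivity)]
    nlinarith [sq_nonneg (e j - t)]
  have h9' : 0 ≤ t * e j / (e j + t) ^ 2 := by positivity
  have h10 : (t / (e i + t)) * (t * e j / (e j + t) ^ 2) ≤ 1 / 4 := by nlinarith
  calc _ ≤ (e j / (e j + t) ^ 2 * (e i / (e i + t)) * u i j ^ 2) * (1 / 4) :=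
        mul_le_mul_of_nonneg_left h10 h7
    _ = _ := by ring

/-- differentiated factor, derivative on the left -/
theorem fsq_su'_le_left (u : Matrix m m ℝ) (e : m → ℝ) (he : ∀ i, 0 ≤ e i) {t : ℝ} (ht : 0 < t)
    (A : Matrix m p ℝ) (hA : A * Aᵀ ≤ diagonal e) :
    fsq (dg' e t * u * dg e t * A) ≤ gen u e t / 4 := by
  have h := fsq_su'_le uᵀ e he ht Aᵀ (by rwa [transpose_transpose])
  rw [transpose_transpose] at h
  have h2 : (Aᵀ * (dg e t * uᵀ * dg' e t))ᵀ = dg' e t * u * dg e t * A := by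
    rw [transpose_mul, transpose_mul, transpose_mul, transpose_transpose, transpose_transpose,
      dg_transpose, dg'_transpose]
    simp only [Matrix.mul_assoc]
  rw [← h2, fsq_transpose]
  exact h

end

section node

variable {i0 i1 i2 : Type*} [Fintype i0] [Fintype i1] [Fintype i2] [DecidableEq i0]
  [DecidableEq i1] [DecidableEq i2]

/-- the regularised trilinear trace -/
noncomputable def Wt (u0 : Matrix i0 i0 ℝ) (u1 : Matrix i1 i1 ℝ) (u2 : Matrix i2 i2 ℝ)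
    (e0 : i0 → ℝ) (e1 : i1 → ℝ) (e2 : i2 → ℝ) (A : Matrix i0 i1 ℝ) (B : Matrix i1 i2 ℝ)
    (C : Matrix i2 i0 ℝ) (t : ℝ) : ℝ :=
  trace (su u0 e0 t * A * (su u1 e1 t) * B * (su u2 e2 t) * C)

/-- bound of the terms where the left-most factor is differentiated -/
theorem node_term_le (u0 : Matrix i0 i0 ℝ) (u1 : Matrix i1 i1 ℝ) (u2 : Matrix i2 i2 ℝ)
    (h0 : u0ᵀ = u0) (h1 : u1ᵀ = u1) (h2 : u2ᵀ = u2)
    (q1 : u1 * u1 = 1) (q2 : u2 * u2 = 1)
    {e0 : i0 → ℝ} {e1 : i1 → ℝ} {e2 : i2 → ℝ} (p0 : ∀ i, 0 ≤ e0 i) (p1 : ∀ i, 0 ≤ e1 i)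
    (p2 : ∀ i, 0 ≤ e2 i) {A : Matrix i0 i1 ℝ} {B : Matrix i1 i2 ℝ} {C : Matrix i2 i0 ℝ}
    (a0 : A * Aᵀ ≤ diagonal e0) (a1 : Aᵀ * A ≤ diagonal e1) (b1 : B * Bᵀ ≤ diagonal e1)
    (b2 : Bᵀ * B ≤ diagonal e2) (c2 : C * Cᵀ ≤ diagonal e2) (c0 : Cᵀ * C ≤ diagonal e0)
    {t : ℝ} (ht : 0 < t) :
    |trace ((dg' e0 t * u0 * dg e0 t + dg e0 t * u0 * dg' e0 t) * A * (su u1 e1 t) * B
        * (su u2 e2 t) * C)|
      ≤ √(t ^ 3) * (2 * gen u0 e0 t + gen u1 e1 t + gen u2 e2 t) / 4 := by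
  have g0 := gen_nonneg u0 p0 ht
  have g1 := gen_nonneg u1 p1 ht
  have g2 := gen_nonneg u2 p2 ht
  have t3 : 0 ≤ t ^ 3 := by positivity
  -- AM-GM
  have amgm : ∀ x y : ℝ, 0 ≤ x → 0 ≤ y → √(x / 4) * √(t ^ 3 * y) ≤ √(t ^ 3) * (x + y) / 4 := by
    intro x y hx hy
    rw [Real.sqrt_mul t3, Real.sqrt_div hx]
    have h4 : √(4 : ℝ) = 2 := by
      rw [show (4 : ℝ) = 2 ^ 2 by norm_num]; exact Real.sqrt_sq (by norm_num)
    rw [h4]
    have h5 : √x * √y ≤ (x + y) / 2 := by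
      nlinarith [sq_nonneg (√x - √y), Real.sq_sqrt hx, Real.sq_sqrt hy]
    have h6 := mul_le_mul_of_nonneg_left h5 (Real.sqrt_nonneg (t ^ 3))
    calc √x / 2 * (√(t ^ 3) * √y) = (√(t ^ 3) * (√x * √y)) / 2 := by ring
      _ ≤ (√(t ^ 3) * ((x + y) / 2)) / 2 := by linarith
      _ = _ := by ring
  -- left derivative
  have L : |trace (dg' e0 t * u0 * dg e0 t * A * (su u1 e1 t) * (B * (su u2 e2 t) * C))|
      ≤ √(t ^ 3) * (gen u0 e0 t + gen u2 e2 t) / 4 := by
    refine (abs_trace_mul_mul_le _ _ _ (su_contraction h1 q1 e1 p1 ht)).trans ?_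
    refine le_trans ?_ (amgm _ _ g0 g2)
    exact mul_le_mul (Real.sqrt_le_sqrt (fsq_su'_le_left u0 e0 p0 ht A a0))
      (Real.sqrt_le_sqrt (fsq_su_le u2 e2 p2 ht B C b2 c2)) (Real.sqrt_nonneg _)
      (Real.sqrt_nonneg _)
  -- right derivative
  have R : |trace ((C * (dg e0 t * u0 * dg' e0 t)) * (A * (su u1 e1 t) * B) * (su u2 e2 t))|
      ≤ √(t ^ 3) * (gen u0 e0 t + gen u1 e1 t) / 4 := by
    have e1' : trace ((C * (dg e0 t * u0 * dg' e0 t)) * (A * (su u1 e1 t) * B) * (su u2 e2 t))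
        = trace ((A * (su u1 e1 t) * B) * (su u2 e2 t) * (C * (dg e0 t * u0 * dg' e0 t))) := by
      rw [Matrix.mul_assoc (C * _), trace_mul_comm]
    rw [e1']
    refine (abs_trace_mul_mul_le _ _ _ (su_contraction h2 q2 e2 p2 ht)).trans ?_
    rw [mul_comm]
    refine le_trans ?_ (amgm _ _ g0 g1)
    have hh := fsq_su'_le u0 e0 p0 ht C c0
    rw [h0] at hh
    exact mul_le_mul (Real.sqrt_le_sqrt hh)
      (Real.sqrt_le_sqrt (fsq_su_le u1 e1 p1 ht A B a1 b1)) (Real.sqrt_nonneg _)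
      (Real.sqrt_nonneg _)
  have split : trace ((dg' e0 t * u0 * dg e0 t + dg e0 t * u0 * dg' e0 t) * A * (su u1 e1 t) * B
        * (su u2 e2 t) * C)
      = trace (dg' e0 t * u0 * dg e0 t * A * (su u1 e1 t) * (B * (su u2 e2 t) * C))
        + trace ((C * (dg e0 t * u0 * dg' e0 t)) * (A * (su u1 e1 t) * B) * (su u2 e2 t)) := by
    have r : trace ((C * (dg e0 t * u0 * dg' e0 t)) * (A * (su u1 e1 t) * B) * (su u2 e2 t))
        = trace (dg e0 t * u0 * dg' e0 t * A * (su u1 e1 t) * B * (su u2 e2 t) * C) := by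
      rw [show C * (dg e0 t * u0 * dg' e0 t) * (A * su u1 e1 t * B) * su u2 e2 t
        = C * (dg e0 t * u0 * dg' e0 t * A * su u1 e1 t * B * su u2 e2 t) by
          simp only [Matrix.mul_assoc], trace_mul_comm]
    rw [r, ← trace_add]
    congr 1
    simp only [Matrix.add_mul, Matrix.mul_assoc]
  rw [split]
  refine (abs_add_le _ _).trans ?_
  refine (add_le_add L R).trans (le_of_eq ?_)
  ring

/-- derivative estimate for `Wt` -/
theorem Wt_deriv (u0 : Matrix i0 i0 ℝ) (u1 : Matrix i1 i1 ℝ) (u2 : Matrix i2 i2 ℝ)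
    (h0 : u0ᵀ = u0) (h1 : u1ᵀ = u1) (h2 : u2ᵀ = u2)
    (q0 : u0 * u0 = 1) (q1 : u1 * u1 = 1) (q2 : u2 * u2 = 1)
    {e0 : i0 → ℝ} {e1 : i1 → ℝ} {e2 : i2 → ℝ} (p0 : ∀ i, 0 ≤ e0 i) (p1 : ∀ i, 0 ≤ e1 i)
    (p2 : ∀ i, 0 ≤ e2 i) {A : Matrix i0 i1 ℝ} {B : Matrix i1 i2 ℝ} {C : Matrix i2 i0 ℝ}
    (a0 : A * Aᵀ ≤ diagonal e0) (a1 : Aᵀ * A ≤ diagonal e1) (b1 : B * Bᵀ ≤ diagonal e1)
    (b2 : Bᵀ * B ≤ diagonal e2) (c2 : C * Cᵀ ≤ diagonal e2) (c0 : Cᵀ * C ≤ diagonal e0)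
    {t : ℝ} (ht : 0 < t) :
    ∃ w' : ℝ, HasDerivAt (Wt u0 u1 u2 e0 e1 e2 A B C) w' t ∧
      |w'| ≤ √(t ^ 3) * (gen u0 e0 t + gen u1 e1 t + gen u2 e2 t) := by
  have m0 := mderiv_su u0 e0 p0 ht
  have m1 := mderiv_su u1 e1 p1 ht
  have m2 := mderiv_su u2 e2 p2 ht
  have D := ((((((m0.mul_const A).mul m1).mul_const B).mul m2).mul_const C)).trace
  refine ⟨_, D, ?_⟩
  have T0 := node_term_le u0 u1 u2 h0 h1 h2 q1 q2 p0 p1 p2 a0 a1 b1 b2 c2 c0 ht
  have T1 := node_term_le u1 u2 u0 h1 h2 h0 q2 q0 p1 p2 p0 b1 b2 c2 c0 a0 a1 ht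
  have T2 := node_term_le u2 u0 u1 h2 h0 h1 q0 q1 p2 p0 p1 c2 c0 a0 a1 b1 b2 ht
  set X0 := dg' e0 t * u0 * dg e0 t + dg e0 t * u0 * dg' e0 t
  set X1 := dg' e1 t * u1 * dg e1 t + dg e1 t * u1 * dg' e1 t
  set X2 := dg' e2 t * u2 * dg e2 t + dg e2 t * u2 * dg' e2 t
  have r1 : trace (su u0 e0 t * A * X1 * B * su u2 e2 t * C)
      = trace (X1 * B * su u2 e2 t * C * su u0 e0 t * A) := by
    rw [show su u0 e0 t * A * X1 * B * su u2 e2 t * C
      = (su u0 e0 t * A) * (X1 * B * su u2 e2 t * C) by simp only [Matrix.mul_assoc],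
      trace_mul_comm]
    simp only [Matrix.mul_assoc]
  have r2 : trace (su u0 e0 t * A * su u1 e1 t * B * X2 * C)
      = trace (X2 * C * su u0 e0 t * A * su u1 e1 t * B) := by
    rw [show su u0 e0 t * A * su u1 e1 t * B * X2 * C
      = (su u0 e0 t * A * su u1 e1 t * B) * (X2 * C) by simp only [Matrix.mul_assoc],
      trace_mul_comm]
    simp only [Matrix.mul_assoc]
  have split : trace ((((X0 * A * su u1 e1 t + su u0 e0 t * A * X1) * B) * su u2 e2 t
        + su u0 e0 t * A * su u1 e1 t * B * X2) * C)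
      = trace (X0 * A * su u1 e1 t * B * su u2 e2 t * C)
        + trace (X1 * B * su u2 e2 t * C * su u0 e0 t * A)
        + trace (X2 * C * su u0 e0 t * A * su u1 e1 t * B) := by
    rw [← r1, ← r2, ← trace_add, ← trace_add]
    congr 1
    simp only [Matrix.add_mul, Matrix.mul_assoc]
  rw [split]
  have k1 := abs_add_le (trace (X0 * A * su u1 e1 t * B * su u2 e2 t * C)
        + trace (X1 * B * su u2 e2 t * C * su u0 e0 t * A))
        (trace (X2 * C * su u0 e0 t * A * su u1 e1 t * B))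
  have k2 := abs_add_le (trace (X0 * A * su u1 e1 t * B * su u2 e2 t * C))
        (trace (X1 * B * su u2 e2 t * C * su u0 e0 t * A))
  refine (k1.trans (add_le_add k2 le_rfl)).trans ?_
  refine (add_le_add (add_le_add T0 T1) T2).trans (le_of_eq ?_)
  ring

end node

end Crest.Agent.R072.Nd
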