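import Crest.Agent.R072.Resolv
import Crest.Agent.R072.NodeDiag
import Crest.Agent.R072.Defs

/-!
# Row 72: spectral form of `phi` and of the fixed-parameter functional `ht`, Jensen gap
-/

set_option autoImplicit false
set_option linter.unusedSectionVars false

open Matrix
open scoped MatrixOrder

namespace Crest.Agent.R072.Nd

section spec

variable {n : Type*} [Fintype n] [DecidableEq n]

/-- spectral theorem for real positive semidefinite matrices, transpose form -/
theorem exists_spec {M : Matrix n n ℝ} (hM : M.PosSemidef) :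
    ∃ (V : Matrix n n ℝ) (e : n → ℝ), Vᵀ * V = 1 ∧ V * Vᵀ = 1 ∧ (∀ i, 0 ≤ e i) ∧
      M = V * diagonal e * Vᵀ := by
  refine ⟨(hM.1.eigenvectorUnitary : Matrix n n ℝ), hM.1.eigenvalues, ?_, ?_,
    hM.eigenvalues_nonneg, ?_⟩
  · have := Unitary.coe_star_mul_self hM.1.eigenvectorUnitary
    rwa [star_eq_conjTranspose, conjTranspose_eq_transpose_of_trivial] at this
  · have := Unitary.coe_mul_star_self hM.1.eigenvectorUnitary
    rwa [Unitary.coe_star, star_eq_conjTranspose, conjTranspose_eq_transpose_of_trivial] at this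
  · have := hM.1.spectral_theorem
    rw [Unitary.conjStarAlgAut_apply, star_eq_conjTranspose,
      conjTranspose_eq_transpose_of_trivial] at this
    exact this

theorem spec_mul {V : Matrix n n ℝ} (hV : Vᵀ * V = 1) (a b : n → ℝ) :
    (V * diagonal a * Vᵀ) * (V * diagonal b * Vᵀ) = V * diagonal (fun i => a i * b i) * Vᵀ := by
  rw [show (V * diagonal a * Vᵀ) * (V * diagonal b * Vᵀ)
    = V * diagonal a * (Vᵀ * V) * diagonal b * Vᵀ by simp only [Matrix.mul_assoc], hV,
    Matrix.mul_one, Matrix.mul_assoc V, diagonal_mul_diagonal]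

theorem spec_trace {V : Matrix n n ℝ} (hV : Vᵀ * V = 1) (a : n → ℝ) :
    trace (V * diagonal a * Vᵀ) = ∑ i, a i := by
  rw [Matrix.mul_assoc, trace_mul_comm, Matrix.mul_assoc, hV, Matrix.mul_one, trace_diagonal]

theorem spec_psd (V : Matrix n n ℝ) {a : n → ℝ} (ha : ∀ i, 0 ≤ a i) :
    0 ≤ V * diagonal a * Vᵀ :=
  frob_psd_conj (PosSemidef.diagonal ha).nonneg V

theorem spec_sqrt {V : Matrix n n ℝ} (hV : Vᵀ * V = 1) {e : n → ℝ} (he : ∀ i, 0 ≤ e i) :
    CFC.sqrt (V * diagonal e * Vᵀ) = V * diagonal (fun i => √(e i)) * Vᵀ := by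
  refine CFC.sqrt_unique ?_ (spec_psd V fun i => Real.sqrt_nonneg _)
  rw [spec_mul hV]
  simp only [Real.mul_self_sqrt (he _)]

theorem spec_phi {V : Matrix n n ℝ} (hV : Vᵀ * V = 1) {e : n → ℝ} (he : ∀ i, 0 ≤ e i) :
    phi (V * diagonal e * Vᵀ) = ∑ i, e i * √(e i) := by
  unfold phi
  rw [spec_sqrt hV he, spec_mul hV, spec_trace hV]
  simp only [mul_comm]

theorem spec_sh_inv {V : Matrix n n ℝ} (hV : Vᵀ * V = 1) (hV' : V * Vᵀ = 1) {e : n → ℝ}
    (he : ∀ i, 0 ≤ e i) {t : ℝ} (h : 0 < t) :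
    (sh (V * diagonal e * Vᵀ) t)⁻¹ = V * diagonal (fun i => (e i + t)⁻¹) * Vᵀ := by
  have e1 : sh (V * diagonal e * Vᵀ) t = V * diagonal (fun i => e i + t) * Vᵀ := by
    unfold sh
    have : (diagonal fun i => e i + t) = diagonal e + t • (1 : Matrix n n ℝ) := by
      rw [← diagonal_one, ← diagonal_smul, diagonal_add]
      congr 1
      ext i
      simp
    rw [this, Matrix.mul_add, Matrix.add_mul, Matrix.mul_smul, Matrix.smul_mul, Matrix.mul_one, hV']
  rw [e1]
  refine inv_eq_right_inv ?_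
  rw [spec_mul hV]
  have : (fun i => (e i + t) * (e i + t)⁻¹) = fun _ => (1 : ℝ) := by
    funext i
    have := he i
    exact mul_inv_cancel₀ (by positivity)
  rw [this, diagonal_one, Matrix.mul_one, hV']

theorem spec_ht {V : Matrix n n ℝ} (hV : Vᵀ * V = 1) (hV' : V * Vᵀ = 1) {e : n → ℝ}
    (he : ∀ i, 0 ≤ e i) {t : ℝ} (h : 0 < t) :
    ht (V * diagonal e * Vᵀ) t = ∑ i, e i ^ 2 / (e i + t) := by
  unfold ht
  rw [spec_sh_inv hV hV' he h, spec_mul hV, spec_trace hV, spec_trace hV, Finset.mul_sum,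
    ← Finset.sum_sub_distrib]
  refine Finset.sum_congr rfl fun i _ => ?_
  have := he i
  have hne : e i + t ≠ 0 := by positivity
  field_simp
  ring

/-- Jensen gap at a fixed parameter for sign conjugation -/
theorem ht_sign_gap {V : Matrix n n ℝ} (hV : Vᵀ * V = 1) (hV' : V * Vᵀ = 1) {e : n → ℝ}
    (he : ∀ i, 0 ≤ e i) {D : Matrix n n ℝ} (hD : Dᵀ = D) (hD2 : D * D = 1) {t : ℝ} (h : 0 < t) :
    2 * t ^ 2 * gen (Vᵀ * D * V) e t ≤
      ht (V * diagonal e * Vᵀ + D * (V * diagonal e * Vᵀ) * D) t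
        - 2 * ht (V * diagonal e * Vᵀ) t := by
  set M := V * diagonal e * Vᵀ with hM
  set r : n → ℝ := fun i => √(e i) with hr
  set X := V * diagonal r with hX
  have hrr : (fun i => r i * r i) = e := by
    funext i; exact Real.mul_self_sqrt (he i)
  have hXt : Xᵀ = diagonal r * Vᵀ := by rw [hX, transpose_mul, diagonal_transpose]
  have hXX : X * Xᵀ = M := by
    rw [hXt, hX, hM]
    rw [show V * diagonal r * (diagonal r * Vᵀ) = V * (diagonal r * diagonal r) * Vᵀ by
      simp only [Matrix.mul_assoc], diagonal_mul_diagonal, hrr]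
  have hK : Xᵀ * X = diagonal e := by
    rw [hXt, hX]
    rw [show diagonal r * Vᵀ * (V * diagonal r) = diagonal r * (Vᵀ * V) * diagonal r by
      simp only [Matrix.mul_assoc], hV, Matrix.mul_one, diagonal_mul_diagonal, hrr]
  set K : Matrix n n ℝ := diagonal e with hKd
  set E := Xᵀ * D * X with hE
  have hEt : Eᵀ = E := by
    have hgen : ∀ Y : Matrix n n ℝ, (Yᵀ * D * Y)ᵀ = Yᵀ * D * Y := fun Y => by
      rw [transpose_mul, transpose_mul, hD, transpose_transpose, Matrix.mul_assoc]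
    exact hgen X
  set c : ℝ := √(1 / 2) with hc
  have hcc : c * c = 1 / 2 := Real.mul_self_sqrt (by norm_num)
  set Z1 := c • ((1 + D) * X) with hZ1
  set Z2 := c • ((1 - D) * X) with hZ2
  have t1 : (1 + D)ᵀ = 1 + D := by rw [transpose_add, transpose_one, hD]
  have t2 : (1 - D)ᵀ = 1 - D := by rw [transpose_sub, transpose_one, hD]
  have s1 : (1 + D) * (1 + D) = (2 : ℝ) • (1 + D) := by
    rw [Matrix.add_mul, Matrix.mul_add, Matrix.one_mul, Matrix.mul_add, Matrix.mul_one, hD2,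
      two_smul]
    simp only [Matrix.one_mul]
    abel
  have s2 : (1 - D) * (1 - D) = (2 : ℝ) • (1 - D) := by
    rw [Matrix.sub_mul, Matrix.mul_sub, Matrix.one_mul, Matrix.mul_sub, Matrix.mul_one, hD2,
      two_smul]
    simp only [Matrix.one_mul]
    abel
  have s12 : (1 + D) * (1 - D) = 0 := by
    rw [Matrix.add_mul, Matrix.mul_sub, Matrix.one_mul, Matrix.mul_sub, Matrix.mul_one, hD2]
    simp
  have s21 : (1 - D) * (1 + D) = 0 := by
    rw [Matrix.sub_mul, Matrix.one_mul, Matrix.mul_add, Matrix.mul_one, hD2]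
    abel
  have z1 : Z1ᵀ * Z1 = K + E := by
    rw [hZ1, transpose_smul, transpose_mul, t1, Matrix.smul_mul, Matrix.mul_smul, smul_smul, hcc]
    rw [show Xᵀ * (1 + D) * ((1 + D) * X) = Xᵀ * ((1 + D) * (1 + D)) * X by
      simp only [Matrix.mul_assoc], s1, Matrix.mul_smul, Matrix.smul_mul, smul_smul]
    rw [show (1 / 2 * 2 : ℝ) = 1 by norm_num, one_smul, Matrix.mul_add, Matrix.add_mul,
      Matrix.mul_one, hK]
  have z2 : Z2ᵀ * Z2 = K - E := by
    rw [hZ2, transpose_smul, transpose_mul, t2, Matrix.smul_mul, Matrix.mul_smul, smul_smul, hcc]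
    rw [show Xᵀ * (1 - D) * ((1 - D) * X) = Xᵀ * ((1 - D) * (1 - D)) * X by
      simp only [Matrix.mul_assoc], s2, Matrix.mul_smul, Matrix.smul_mul, smul_smul]
    rw [show (1 / 2 * 2 : ℝ) = 1 by norm_num, one_smul, Matrix.mul_sub, Matrix.sub_mul,
      Matrix.mul_one, hK]
  have w1 : Z1 * Z1ᵀ = (1 / 2 : ℝ) • ((1 + D) * M * (1 + D)) := by
    rw [hZ1, transpose_smul, transpose_mul, t1, Matrix.smul_mul, Matrix.mul_smul, smul_smul, hcc,
      ← hXX]
    simp only [Matrix.mul_assoc]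
  have w2 : Z2 * Z2ᵀ = (1 / 2 : ℝ) • ((1 - D) * M * (1 - D)) := by
    rw [hZ2, transpose_smul, transpose_mul, t2, Matrix.smul_mul, Matrix.mul_smul, smul_smul, hcc,
      ← hXX]
    simp only [Matrix.mul_assoc]
  have sum : Z1 * Z1ᵀ + Z2 * Z2ᵀ = M + D * M * D := by
    rw [w1, w2, ← smul_add]
    have : (1 + D) * M * (1 + D) + (1 - D) * M * (1 - D) = (2 : ℝ) • (M + D * M * D) := by
      simp only [Matrix.add_mul, Matrix.sub_mul, Matrix.mul_add, Matrix.mul_sub, Matrix.mul_one,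
        Matrix.one_mul, two_smul]
      abel
    rw [this, smul_smul]
    norm_num
  have o12 : (Z1 * Z1ᵀ) * (Z2 * Z2ᵀ) = 0 := by
    rw [w1, w2, Matrix.smul_mul, Matrix.mul_smul]
    rw [show (1 + D) * M * (1 + D) * ((1 - D) * M * (1 - D))
      = (1 + D) * M * ((1 + D) * (1 - D)) * M * (1 - D) by simp only [Matrix.mul_assoc], s12]
    simp
  have o21 : (Z2 * Z2ᵀ) * (Z1 * Z1ᵀ) = 0 := by
    rw [w1, w2, Matrix.smul_mul, Matrix.mul_smul]
    rw [show (1 - D) * M * (1 - D) * ((1 + D) * M * (1 + D))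
      = (1 - D) * M * ((1 - D) * (1 + D)) * M * (1 + D) by simp only [Matrix.mul_assoc], s21]
    simp
  have h1 : ht (M + D * M * D) t = ht (K + E) t + ht (K - E) t := by
    rw [← sum, ht_add (psd_mul_transpose_self Z1) (psd_mul_transpose_self Z2) o12 o21 h,
      ht_mul_transpose Z1 h, ht_mul_transpose Z2 h, z1, z2]
  have h2 : ht M t = ht K t := by
    rw [← hXX, ht_mul_transpose X h, hK]
  have hK0 : 0 ≤ K := (PosSemidef.diagonal he).nonneg
  have g := ht_gap hEt hK0 (by rw [← z1]; exact psd_transpose_mul_self Z1)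
    (by rw [← z2]; exact psd_transpose_mul_self Z2) h
  rw [h1, h2]
  refine le_trans (le_of_eq ?_) g
  congr 1
  -- compute the trace
  have hinv : (sh K t)⁻¹ = diagonal (fun i => (e i + t)⁻¹) := by
    have := spec_sh_inv (V := (1 : Matrix n n ℝ)) (by simp) (by simp) he h
    simpa using this
  rw [hinv]
  have hu : ∀ i j, E i j = r i * (Vᵀ * D * V) i j * r j := by
    intro i j
    rw [hE, hXt, hX]
    rw [show diagonal r * Vᵀ * D * (V * diagonal r) = diagonal r * (Vᵀ * D * V) * diagonal r by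
      simp only [Matrix.mul_assoc], mul_diagonal, diagonal_mul]
  unfold gen
  have hsym : (Vᵀ * D * V)ᵀ = Vᵀ * D * V := by
    rw [transpose_mul, transpose_mul, hD, transpose_transpose, Matrix.mul_assoc]
  simp only [trace, diag_apply]
  refine Finset.sum_congr rfl fun i _ => ?_
  rw [mul_diagonal]
  rw [mul_apply, Finset.sum_mul]
  refine Finset.sum_congr rfl fun j _ => ?_
  rw [mul_diagonal, diagonal_mul, hu i j, hu j i]
  have hji : (Vᵀ * D * V) j i = (Vᵀ * D * V) i j := by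
    conv_lhs => rw [← hsym]
    rfl
  rw [hji]
  have ei : r i * r i = e i := Real.mul_self_sqrt (he i)
  have ej : r j * r j = e j := Real.mul_self_sqrt (he j)
  have hi := he i
  have hj := he j
  have ni : e i + t ≠ 0 := by positivity
  have nj : e j + t ≠ 0 := by positivity
  rw [show (e i + t)⁻¹ * (r i * (Vᵀ * D * V) i j * r j) * (e j + t)⁻¹ *
      (r j * (Vᵀ * D * V) i j * r i) * (e i + t)⁻¹
    = (r i * r i) * (r j * r j) * (Vᵀ * D * V) i j ^ 2 * ((e i + t)⁻¹ ^ 2 * (e j + t)⁻¹) by ring,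
    ei, ej]
  field_simp

end spec

end Crest.Agent.R072.Nd
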