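import Crest.Agent.R072.Defs
import Crest.Agent.R072.NodeSpec

/-! R072: the node inequality (blueprint part B). Independent of `Mat.lean` (only uses `phi`, `Gam`).

Direct proof (helper959) in `Frob`, `Resolv`, `NodeDiag`, `NodeSpec`; constant `π/2`. -/

set_option autoImplicit false

namespace Crest.Agent.R072.Nd

open Matrix Filter Topology
open scoped MatrixOrder

/-- antiderivative of `y² / (y + t) / √t` -/
noncomputable def Hs (y t : ℝ) : ℝ := 2 * (y * √y) * Real.arctan (√(t / y))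

theorem Hs_deriv {y : ℝ} (hy : 0 ≤ y) {t : ℝ} (ht : 0 < t) :
    HasDerivAt (Hs y) (y ^ 2 / (y + t) / √t) t := by
  unfold Hs
  rcases hy.eq_or_lt with h | h
  · subst h
    simpa using hasDerivAt_const t (0 : ℝ)
  · have h1 : HasDerivAt (fun t : ℝ => t / y) (1 / y) t := (hasDerivAt_id t).div_const y
    have hpos : 0 < t / y := by positivity
    have h2 := h1.sqrt hpos.ne'
    have h3 := h2.arctan
    have h4 := h3.const_mul (2 * (y * √y))
    refine h4.congr_deriv ?_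
    rw [Real.sq_sqrt hpos.le, Real.sqrt_div ht.le]
    have hy' : 0 < √y := Real.sqrt_pos.mpr h
    have ht' : 0 < √t := Real.sqrt_pos.mpr ht
    have hyy : √y * √y = y := Real.mul_self_sqrt h.le
    field_simp
    rw [Real.sq_sqrt h.le]

theorem Hs_atTop {y : ℝ} (hy : 0 ≤ y) :
    Tendsto (Hs y) atTop (𝓝 (Real.pi * (y * √y))) := by
  unfold Hs
  rcases hy.eq_or_lt with h | h
  · subst h
    simp
  · have h1 : Tendsto (fun t : ℝ => t / y) atTop atTop := tendsto_id.atTop_div_const h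
    have h2 : Tendsto (fun t : ℝ => √(t / y)) atTop atTop :=
      (Real.tendsto_sqrt_atTop).comp h1
    have h3 : Tendsto (fun t : ℝ => Real.arctan (√(t / y))) atTop (𝓝 (Real.pi / 2)) :=
      (Real.tendsto_arctan_atTop.mono_right nhdsWithin_le_nhds).comp h2
    have h4 := h3.const_mul (2 * (y * √y))
    convert h4 using 2
    ring

theorem Hs_zero {y : ℝ} : Tendsto (Hs y) (𝓝[>] 0) (𝓝 0) := by
  have hc : Continuous (Hs y) := by unfold Hs; fun_prop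
  have := (hc.tendsto 0).mono_left (nhdsWithin_le_nhds (s := Set.Ioi 0))
  simpa [Hs] using this

/-- entrywise limits of matrices -/
def MTend {m n : Type*} (X : ℝ → Matrix m n ℝ) (l : Filter ℝ) (L : Matrix m n ℝ) : Prop :=
  ∀ i j, Tendsto (fun t => X t i j) l (𝓝 (L i j))

theorem MTend.mul {m n p : Type*} [Fintype n] {X : ℝ → Matrix m n ℝ} {Y : ℝ → Matrix n p ℝ}
    {l : Filter ℝ} {L : Matrix m n ℝ} {L' : Matrix n p ℝ} (hX : MTend X l L)
    (hY : MTend Y l L') : MTend (fun t => X t * Y t) l (L * L') := by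
  intro i k
  simp only [mul_apply]
  exact tendsto_finsetSum _ fun j _ => (hX i j).mul (hY j k)

theorem MTend.const {m n : Type*} (l : Filter ℝ) (A : Matrix m n ℝ) :
    MTend (fun _ => A) l A := fun _ _ => tendsto_const_nhds

theorem MTend.trace {m : Type*} [Fintype m] {X : ℝ → Matrix m m ℝ} {l : Filter ℝ}
    {L : Matrix m m ℝ} (hX : MTend X l L) :
    Tendsto (fun t => Matrix.trace (X t)) l (𝓝 (Matrix.trace L)) := by
  simp only [Matrix.trace, diag_apply]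
  exact tendsto_finsetSum _ fun i _ => hX i i

theorem dg_atTop {m : Type*} [Fintype m] [DecidableEq m] (e : m → ℝ) :
    MTend (dg e) atTop 1 := by
  intro i j
  unfold dg
  by_cases h : i = j
  · subst h
    simp only [diagonal_apply_eq, one_apply_eq]
    have h1 : Tendsto (fun t : ℝ => e i / (e i + t)) atTop (𝓝 0) :=
      Tendsto.div_atTop tendsto_const_nhds (tendsto_atTop_add_const_left _ _ tendsto_id)
    have h2 : Tendsto (fun t : ℝ => 1 - e i / (e i + t)) atTop (𝓝 (1 - 0)) :=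
      tendsto_const_nhds.sub h1
    rw [sub_zero] at h2
    refine h2.congr' ?_
    filter_upwards [eventually_gt_atTop (-e i)] with t ht
    have : e i + t ≠ 0 := by linarith
    field_simp
    ring
  · simp only [diagonal_apply_ne _ h, one_apply_ne h]
    exact tendsto_const_nhds

/-- limit of `dg e` at `0+` -/
noncomputable def dg0 {m : Type*} [DecidableEq m] (e : m → ℝ) : Matrix m m ℝ :=
  diagonal fun i => if e i = 0 then 1 else 0

theorem dg_zero {m : Type*} [Fintype m] [DecidableEq m] (e : m → ℝ) :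
    MTend (dg e) (𝓝[>] 0) (dg0 e) := by
  intro i j
  unfold dg dg0
  by_cases h : i = j
  · subst h
    simp only [diagonal_apply_eq]
    by_cases h0 : e i = 0
    · rw [if_pos h0]
      refine tendsto_const_nhds.congr' ?_
      filter_upwards [self_mem_nhdsWithin] with t ht
      have ht' : (0 : ℝ) < t := ht
      rw [h0, zero_add, div_self ht'.ne']
    · rw [if_neg h0]
      have hc : ContinuousAt (fun t : ℝ => t / (e i + t)) 0 := by
        refine ContinuousAt.div continuousAt_id (by fun_prop) ?_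
        simpa using h0
      have := hc.tendsto.mono_left (nhdsWithin_le_nhds (s := Set.Ioi 0))
      simpa using this
  · simp only [diagonal_apply_ne _ h]
    exact tendsto_const_nhds

theorem dg0_mul_eq_zero {m n : Type*} [Fintype m] [DecidableEq m] [Fintype n] (e : m → ℝ)
    (A : Matrix m n ℝ) (hA : A * Aᵀ ≤ diagonal e) : dg0 e * A = 0 := by
  ext i j
  unfold dg0
  rw [diagonal_mul, Matrix.zero_apply]
  by_cases h0 : e i = 0
  · rw [if_pos h0, one_mul]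
    have h1 : 0 ≤ (diagonal e - A * Aᵀ) i i :=
      (Matrix.nonneg_iff_posSemidef.mp (sub_nonneg.mpr hA)).diag_nonneg
    rw [Matrix.sub_apply, diagonal_apply_eq, h0, mul_apply] at h1
    simp only [transpose_apply] at h1
    have h2 : ∑ k, A i k * A i k = 0 :=
      le_antisymm (by linarith) (Finset.sum_nonneg fun k _ => mul_self_nonneg _)
    have h3 := (Finset.sum_eq_zero_iff_of_nonneg fun k _ => mul_self_nonneg (A i k)).mp h2 j
      (Finset.mem_univ j)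
    exact mul_self_eq_zero.mp h3
  · rw [if_neg h0, zero_mul]

/-- monotone function with limit `0` at `0+` has a nonnegative limit at infinity -/
theorem lim_nonneg {f f' : ℝ → ℝ} (hd : ∀ t, 0 < t → HasDerivAt f (f' t) t)
    (h' : ∀ t, 0 < t → 0 ≤ f' t) (h0 : Tendsto f (𝓝[>] 0) (𝓝 0)) {L : ℝ}
    (h1 : Tendsto f atTop (𝓝 L)) : 0 ≤ L := by
  have mono : MonotoneOn f (Set.Ioi 0) := by
    refine monotoneOn_of_deriv_nonneg (convex_Ioi 0) ?_ ?_ ?_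
    · intro t ht
      exact (hd t ht).continuousAt.continuousWithinAt
    · intro t ht
      rw [interior_Ioi] at ht
      exact (hd t ht).differentiableAt.differentiableWithinAt
    · intro t ht
      rw [interior_Ioi] at ht
      rw [(hd t ht).deriv]
      exact h' t ht
  have h2 : ∀ t, 0 < t → 0 ≤ f t := by
    intro t ht
    refine le_of_tendsto h0 ?_
    have : Set.Ioo 0 t ∈ 𝓝[>] (0 : ℝ) := Ioo_mem_nhdsGT ht
    filter_upwards [this] with s hs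
    exact mono hs.1 ht hs.2.le
  refine ge_of_tendsto h1 ?_
  filter_upwards [eventually_gt_atTop 0] with t ht
  exact h2 t ht

section main

variable {i0 i1 i2 : Type*} [Fintype i0] [Fintype i1] [Fintype i2] [DecidableEq i0]
  [DecidableEq i1] [DecidableEq i2]

theorem su_atTop (u : Matrix i0 i0 ℝ) (e : i0 → ℝ) : MTend (su u e) atTop u := by
  have := ((dg_atTop e).mul (MTend.const atTop u)).mul (dg_atTop e)
  rwa [Matrix.one_mul, Matrix.mul_one] at this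

theorem su_zero (u : Matrix i0 i0 ℝ) (e : i0 → ℝ) :
    MTend (su u e) (𝓝[>] 0) (dg0 e * u * dg0 e) :=
  ((dg_zero e).mul (MTend.const _ u)).mul (dg_zero e)

theorem Wt_atTop (u0 : Matrix i0 i0 ℝ) (u1 : Matrix i1 i1 ℝ) (u2 : Matrix i2 i2 ℝ)
    (e0 : i0 → ℝ) (e1 : i1 → ℝ) (e2 : i2 → ℝ) (A : Matrix i0 i1 ℝ) (B : Matrix i1 i2 ℝ)
    (C : Matrix i2 i0 ℝ) :
    Tendsto (Wt u0 u1 u2 e0 e1 e2 A B C) atTop (𝓝 (trace (u0 * A * u1 * B * u2 * C))) := by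
  have := ((((((su_atTop u0 e0).mul (MTend.const atTop A)).mul (su_atTop u1 e1)).mul
    (MTend.const atTop B)).mul (su_atTop u2 e2)).mul (MTend.const atTop C)).trace
  exact this

theorem Wt_zero (u0 : Matrix i0 i0 ℝ) (u1 : Matrix i1 i1 ℝ) (u2 : Matrix i2 i2 ℝ)
    {e0 : i0 → ℝ} (e1 : i1 → ℝ) (e2 : i2 → ℝ) {A : Matrix i0 i1 ℝ} (B : Matrix i1 i2 ℝ)
    (C : Matrix i2 i0 ℝ) (a0 : A * Aᵀ ≤ diagonal e0) :
    Tendsto (Wt u0 u1 u2 e0 e1 e2 A B C) (𝓝[>] 0) (𝓝 0) := by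
  have := ((((((su_zero u0 e0).mul (MTend.const _ A)).mul (su_zero u1 e1)).mul
    (MTend.const _ B)).mul (su_zero u2 e2)).mul (MTend.const _ C)).trace
  have h : dg0 e0 * u0 * dg0 e0 * A = 0 := by
    rw [Matrix.mul_assoc, dg0_mul_eq_zero e0 A a0, Matrix.mul_zero]
  rw [h] at this
  simp only [Matrix.zero_mul, trace_zero] at this
  exact this

/-- the scalar part attached to one vertex -/
noncomputable def Bt {m : Type*} [Fintype m] (e y : m → ℝ) (t : ℝ) : ℝ :=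
  (1 / 2) * ∑ i, Hs (y i) t - ∑ i, Hs (e i) t

theorem Bt_deriv {m : Type*} [Fintype m] {e y : m → ℝ} (he : ∀ i, 0 ≤ e i) (hy : ∀ i, 0 ≤ y i)
    {t : ℝ} (ht : 0 < t) :
    HasDerivAt (Bt e y)
      (((1 / 2) * ∑ i, y i ^ 2 / (y i + t) - ∑ i, e i ^ 2 / (e i + t)) / √t) t := by
  have h1 : HasDerivAt (fun t => ∑ i, Hs (y i) t) (∑ i, y i ^ 2 / (y i + t) / √t) t :=
    HasDerivAt.fun_sum fun i _ => Hs_deriv (hy i) ht
  have h2 : HasDerivAt (fun t => ∑ i, Hs (e i) t) (∑ i, e i ^ 2 / (e i + t) / √t) t :=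
    HasDerivAt.fun_sum fun i _ => Hs_deriv (he i) ht
  refine ((h1.const_mul (1 / 2)).sub h2).congr_deriv ?_
  rw [← Finset.sum_div, ← Finset.sum_div]
  ring

theorem Bt_atTop {m : Type*} [Fintype m] {e y : m → ℝ} (he : ∀ i, 0 ≤ e i) (hy : ∀ i, 0 ≤ y i) :
    Tendsto (Bt e y) atTop
      (𝓝 ((Real.pi / 2) * (∑ i, y i * √(y i) - 2 * ∑ i, e i * √(e i)))) := by
  have h1 : Tendsto (fun t => ∑ i, Hs (y i) t) atTop (𝓝 (∑ i, Real.pi * (y i * √(y i)))) :=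
    tendsto_finsetSum _ fun i _ => Hs_atTop (hy i)
  have h2 : Tendsto (fun t => ∑ i, Hs (e i) t) atTop (𝓝 (∑ i, Real.pi * (e i * √(e i)))) :=
    tendsto_finsetSum _ fun i _ => Hs_atTop (he i)
  have h3 := (h1.const_mul (1 / 2)).sub h2
  rw [← Finset.mul_sum, ← Finset.mul_sum] at h3
  have e1 : (Real.pi / 2) * (∑ i, y i * √(y i) - 2 * ∑ i, e i * √(e i))
      = 1 / 2 * (Real.pi * ∑ i, y i * √(y i)) - Real.pi * ∑ i, e i * √(e i) := by ring
  rw [e1]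
  exact h3

theorem Bt_zero {m : Type*} [Fintype m] {e y : m → ℝ} : Tendsto (Bt e y) (𝓝[>] 0) (𝓝 0) := by
  have h1 : Tendsto (fun t => ∑ i, Hs (y i) t) (𝓝[>] 0) (𝓝 (∑ _i : m, 0)) :=
    tendsto_finsetSum _ fun i _ => Hs_zero
  have h2 : Tendsto (fun t => ∑ i, Hs (e i) t) (𝓝[>] 0) (𝓝 (∑ _i : m, 0)) :=
    tendsto_finsetSum _ fun i _ => Hs_zero
  have h3 := (h1.const_mul (1 / 2)).sub h2
  simp only [Finset.sum_const_zero, mul_zero, sub_zero] at h3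
  exact h3

/-- data attached to one vertex: spectral data of `M`, and the lower bound for `Bt'` -/
theorem vertex_data {m : Type*} [Fintype m] [DecidableEq m] {M : Matrix m m ℝ} (hM : 0 ≤ M)
    (u : m → ℝ) (hu : ∀ i, u i * u i = 1) :
    ∃ (V : Matrix m m ℝ) (e y : m → ℝ), Vᵀ * V = 1 ∧ V * Vᵀ = 1 ∧ (∀ i, 0 ≤ e i) ∧
      (∀ i, 0 ≤ y i) ∧ M = V * diagonal e * Vᵀ ∧
      Gam u M = ∑ i, y i * √(y i) - 2 * ∑ i, e i * √(e i) ∧
      ∀ t : ℝ, 0 < t → √(t ^ 3) * gen (Vᵀ * diagonal u * V) e t ≤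
        ((1 / 2) * ∑ i, y i ^ 2 / (y i + t) - ∑ i, e i ^ 2 / (e i + t)) / √t := by
  obtain ⟨V, e, hV, hV', he, hMe⟩ := exists_spec (Matrix.nonneg_iff_posSemidef.mp hM)
  have hD : (diagonal u)ᵀ = diagonal u := diagonal_transpose _
  have hD2 : diagonal u * diagonal u = (1 : Matrix m m ℝ) := by
    rw [diagonal_mul_diagonal, ← diagonal_one]
    congr 1
    funext i
    exact hu i
  have hY : 0 ≤ M + diagonal u * M * diagonal u := by
    refine add_nonneg hM ?_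
    have := frob_psd_conj hM (diagonal u)
    rwa [hD] at this
  obtain ⟨V', y, hW, hW', hy, hYe⟩ := exists_spec (Matrix.nonneg_iff_posSemidef.mp hY)
  refine ⟨V, e, y, hV, hV', he, hy, hMe, ?_, ?_⟩
  · unfold Gam
    rw [hYe, spec_phi hW hy, hMe, spec_phi hV he]
  · intro t ht'
    have g := ht_sign_gap hV hV' he hD hD2 ht'
    rw [← hMe, hYe, spec_ht hW hW' hy ht', hMe, spec_ht hV hV' he ht'] at g
    have hs : 0 < √t := Real.sqrt_pos.mpr ht'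
    rw [le_div_iff₀ hs]
    have h3 : √(t ^ 3) * √t = t ^ 2 := by
      rw [← Real.sqrt_mul (by positivity), show t ^ 3 * t = (t ^ 2) ^ 2 by ring,
        Real.sqrt_sq (by positivity)]
    calc √(t ^ 3) * gen (Vᵀ * diagonal u * V) e t * √t
        = (√(t ^ 3) * √t) * gen (Vᵀ * diagonal u * V) e t := by ring
      _ = t ^ 2 * gen (Vᵀ * diagonal u * V) e t := by rw [h3]
      _ ≤ _ := by linarith

theorem back_le {m : Type*} [Fintype m] [DecidableEq m] {V : Matrix m m ℝ} {e : m → ℝ}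
    {M P : Matrix m m ℝ} (hV : Vᵀ * V = 1) (hM : M = V * diagonal e * Vᵀ) (hP : P ≤ M) :
    Vᵀ * P * V ≤ diagonal e := by
  have := le_conj hP Vᵀ
  rw [transpose_transpose, hM] at this
  rwa [show Vᵀ * (V * diagonal e * Vᵀ) * V = (Vᵀ * V) * diagonal e * (Vᵀ * V) by
    simp only [Matrix.mul_assoc], hV, Matrix.one_mul, Matrix.mul_one] at this

/-- one-sided core of the node inequality, in rotated coordinates -/
theorem node_core (u0 : Matrix i0 i0 ℝ) (u1 : Matrix i1 i1 ℝ) (u2 : Matrix i2 i2 ℝ)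
    (h0 : u0ᵀ = u0) (h1 : u1ᵀ = u1) (h2 : u2ᵀ = u2)
    (q0 : u0 * u0 = 1) (q1 : u1 * u1 = 1) (q2 : u2 * u2 = 1)
    {e0 : i0 → ℝ} {e1 : i1 → ℝ} {e2 : i2 → ℝ} (p0 : ∀ i, 0 ≤ e0 i) (p1 : ∀ i, 0 ≤ e1 i)
    (p2 : ∀ i, 0 ≤ e2 i) {A : Matrix i0 i1 ℝ} {B : Matrix i1 i2 ℝ} {C : Matrix i2 i0 ℝ}
    (a0 : A * Aᵀ ≤ diagonal e0) (a1 : Aᵀ * A ≤ diagonal e1) (b1 : B * Bᵀ ≤ diagonal e1)
    (b2 : Bᵀ * B ≤ diagonal e2) (c2 : C * Cᵀ ≤ diagonal e2) (c0 : Cᵀ * C ≤ diagonal e0)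
    {y0 : i0 → ℝ} {y1 : i1 → ℝ} {y2 : i2 → ℝ} (r0 : ∀ i, 0 ≤ y0 i) (r1 : ∀ i, 0 ≤ y1 i)
    (r2 : ∀ i, 0 ≤ y2 i)
    (g0 : ∀ t : ℝ, 0 < t → √(t ^ 3) * gen u0 e0 t ≤
        ((1 / 2) * ∑ i, y0 i ^ 2 / (y0 i + t) - ∑ i, e0 i ^ 2 / (e0 i + t)) / √t)
    (g1 : ∀ t : ℝ, 0 < t → √(t ^ 3) * gen u1 e1 t ≤
        ((1 / 2) * ∑ i, y1 i ^ 2 / (y1 i + t) - ∑ i, e1 i ^ 2 / (e1 i + t)) / √t)
    (g2 : ∀ t : ℝ, 0 < t → √(t ^ 3) * gen u2 e2 t ≤
        ((1 / 2) * ∑ i, y2 i ^ 2 / (y2 i + t) - ∑ i, e2 i ^ 2 / (e2 i + t)) / √t)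
    {σ : ℝ} (hσ : |σ| = 1) :
    0 ≤ (Real.pi / 2) * ((∑ i, y0 i * √(y0 i) - 2 * ∑ i, e0 i * √(e0 i)) +
        (∑ i, y1 i * √(y1 i) - 2 * ∑ i, e1 i * √(e1 i)) +
        (∑ i, y2 i * √(y2 i) - 2 * ∑ i, e2 i * √(e2 i)))
      + σ * trace (u0 * A * u1 * B * u2 * C) := by
  have hW : ∀ t : ℝ, ∃ w' : ℝ, 0 < t → (HasDerivAt (Wt u0 u1 u2 e0 e1 e2 A B C) w' t ∧
      |w'| ≤ √(t ^ 3) * (gen u0 e0 t + gen u1 e1 t + gen u2 e2 t)) := by
    intro t
    by_cases ht : 0 < t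
    · obtain ⟨w', hw⟩ := Wt_deriv u0 u1 u2 h0 h1 h2 q0 q1 q2 p0 p1 p2 a0 a1 b1 b2 c2 c0 ht
      exact ⟨w', fun _ => hw⟩
    · exact ⟨0, fun h => absurd h ht⟩
  choose w' hw' using hW
  refine lim_nonneg (f := fun t => Bt e0 y0 t + Bt e1 y1 t + Bt e2 y2 t
      + σ * Wt u0 u1 u2 e0 e1 e2 A B C t)
    (f' := fun t => ((1 / 2) * ∑ i, y0 i ^ 2 / (y0 i + t) - ∑ i, e0 i ^ 2 / (e0 i + t)) / √t
      + ((1 / 2) * ∑ i, y1 i ^ 2 / (y1 i + t) - ∑ i, e1 i ^ 2 / (e1 i + t)) / √t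
      + ((1 / 2) * ∑ i, y2 i ^ 2 / (y2 i + t) - ∑ i, e2 i ^ 2 / (e2 i + t)) / √t
      + σ * w' t) ?_ ?_ ?_ ?_
  · intro t ht
    exact (((Bt_deriv p0 r0 ht).add (Bt_deriv p1 r1 ht)).add (Bt_deriv p2 r2 ht)).add
      ((hw' t ht).1.const_mul σ)
  · intro t ht
    have k0 := g0 t ht
    have k1 := g1 t ht
    have k2 := g2 t ht
    have kw := (hw' t ht).2
    have ks : |σ * w' t| ≤ √(t ^ 3) * (gen u0 e0 t + gen u1 e1 t + gen u2 e2 t) := by
      rw [abs_mul, hσ, one_mul]; exact kw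
    have ks' := (abs_le.mp ks).1
    show 0 ≤ ((1 / 2) * ∑ i, y0 i ^ 2 / (y0 i + t) - ∑ i, e0 i ^ 2 / (e0 i + t)) / √t
      + ((1 / 2) * ∑ i, y1 i ^ 2 / (y1 i + t) - ∑ i, e1 i ^ 2 / (e1 i + t)) / √t
      + ((1 / 2) * ∑ i, y2 i ^ 2 / (y2 i + t) - ∑ i, e2 i ^ 2 / (e2 i + t)) / √t
      + σ * w' t
    linarith
  · have hw0 := Wt_zero u0 u1 u2 e1 e2 B C a0
    have := (((Bt_zero (e := e0) (y := y0)).add (Bt_zero (e := e1) (y := y1))).add
      (Bt_zero (e := e2) (y := y2))).add (hw0.const_mul σ)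
    simpa only [add_zero, mul_zero] using this
  · have := (((Bt_atTop p0 r0).add (Bt_atTop p1 r1)).add (Bt_atTop p2 r2)).add
      ((Wt_atTop u0 u1 u2 e0 e1 e2 A B C).const_mul σ)
    rwa [← mul_add, ← mul_add] at this

theorem rot_symm {m : Type*} [Fintype m] [DecidableEq m] (u : m → ℝ) (V : Matrix m m ℝ) :
    (Vᵀ * diagonal u * V)ᵀ = Vᵀ * diagonal u * V := by
  rw [transpose_mul, transpose_mul, diagonal_transpose, transpose_transpose, Matrix.mul_assoc]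

theorem rot_sq {m : Type*} [Fintype m] [DecidableEq m] {u : m → ℝ} (hu : ∀ i, u i * u i = 1)
    {V : Matrix m m ℝ} (hV : Vᵀ * V = 1) (hV' : V * Vᵀ = 1) :
    (Vᵀ * diagonal u * V) * (Vᵀ * diagonal u * V) = 1 := by
  have hD2 : diagonal u * diagonal u = (1 : Matrix m m ℝ) := by
    rw [diagonal_mul_diagonal, ← diagonal_one]
    congr 1
    funext i
    exact hu i
  rw [show Vᵀ * diagonal u * V * (Vᵀ * diagonal u * V)
    = Vᵀ * (diagonal u * (V * Vᵀ) * diagonal u) * V by simp only [Matrix.mul_assoc], hV',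
    Matrix.mul_one, hD2, Matrix.mul_one, hV]

theorem rot_gram {m n : Type*} [Fintype m] [DecidableEq m] [Fintype n] [DecidableEq n]
    {V : Matrix m m ℝ} {e : m → ℝ} {M : Matrix m m ℝ} {W : Matrix n n ℝ} (A : Matrix m n ℝ)
    (hV : Vᵀ * V = 1) (hW : W * Wᵀ = 1) (hM : M = V * diagonal e * Vᵀ) (hP : A * Aᵀ ≤ M) :
    (Vᵀ * A * W) * (Vᵀ * A * W)ᵀ ≤ diagonal e := by
  have h := back_le hV hM hP
  have e1 : (Vᵀ * A * W) * (Vᵀ * A * W)ᵀ = Vᵀ * (A * Aᵀ) * V := by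
    rw [transpose_mul, transpose_mul, transpose_transpose]
    rw [show Vᵀ * A * W * (Wᵀ * (Aᵀ * V)) = Vᵀ * (A * (W * Wᵀ) * Aᵀ) * V by
      simp only [Matrix.mul_assoc], hW, Matrix.mul_one]
  rwa [e1]

theorem rot_gram' {m n : Type*} [Fintype m] [DecidableEq m] [Fintype n] [DecidableEq n]
    {V : Matrix m m ℝ} {e : m → ℝ} {M : Matrix m m ℝ} {W : Matrix n n ℝ} (A : Matrix n m ℝ)
    (hV : Vᵀ * V = 1) (hW : W * Wᵀ = 1) (hM : M = V * diagonal e * Vᵀ) (hP : Aᵀ * A ≤ M) :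
    (Wᵀ * A * V)ᵀ * (Wᵀ * A * V) ≤ diagonal e := by
  have h := back_le hV hM hP
  have e1 : (Wᵀ * A * V)ᵀ * (Wᵀ * A * V) = Vᵀ * (Aᵀ * A) * V := by
    rw [transpose_mul, transpose_mul, transpose_transpose]
    rw [show Vᵀ * (Aᵀ * W) * (Wᵀ * A * V) = Vᵀ * (Aᵀ * (W * Wᵀ) * A) * V by
      simp only [Matrix.mul_assoc], hW, Matrix.mul_one]
  rwa [e1]

/-- **Node inequality.** -/
theorem node_ineq'
    (A : Matrix i0 i1 ℝ) (B : Matrix i1 i2 ℝ) (C : Matrix i2 i0 ℝ)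
    (u0 : i0 → ℝ) (u1 : i1 → ℝ) (u2 : i2 → ℝ)
    (h0 : ∀ i, u0 i * u0 i = 1) (h1 : ∀ i, u1 i * u1 i = 1) (h2 : ∀ i, u2 i * u2 i = 1) :
    |(diagonal u0 * A * diagonal u1 * B * diagonal u2 * C).trace| ≤
      (Real.pi / 2) * (Gam u0 (A * Aᵀ + Cᵀ * C) + Gam u1 (Aᵀ * A + B * Bᵀ) +
        Gam u2 (Bᵀ * B + C * Cᵀ)) := by
  have pA := psd_mul_transpose_self A
  have pA' := psd_transpose_mul_self A
  have pB := psd_mul_transpose_self B
  have pB' := psd_transpose_mul_self B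
  have pC := psd_mul_transpose_self C
  have pC' := psd_transpose_mul_self C
  obtain ⟨V0, e0, y0, hV0, hV0', he0, hy0, hM0, hG0, hg0⟩ :=
    vertex_data (add_nonneg pA pC') u0 h0
  obtain ⟨V1, e1, y1, hV1, hV1', he1, hy1, hM1, hG1, hg1⟩ :=
    vertex_data (add_nonneg pA' pB) u1 h1
  obtain ⟨V2, e2, y2, hV2, hV2', he2, hy2, hM2, hG2, hg2⟩ :=
    vertex_data (add_nonneg pB' pC) u2 h2
  -- rotated data
  have key : ∀ {σ : ℝ}, |σ| = 1 → 0 ≤ (Real.pi / 2) * ((∑ i, y0 i * √(y0 i)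
        - 2 * ∑ i, e0 i * √(e0 i)) +
        (∑ i, y1 i * √(y1 i) - 2 * ∑ i, e1 i * √(e1 i)) +
        (∑ i, y2 i * √(y2 i) - 2 * ∑ i, e2 i * √(e2 i)))
      + σ * trace ((V0ᵀ * diagonal u0 * V0) * (V0ᵀ * A * V1) * (V1ᵀ * diagonal u1 * V1)
        * (V1ᵀ * B * V2) * (V2ᵀ * diagonal u2 * V2) * (V2ᵀ * C * V0)) := fun hσ =>
    node_core _ _ _ (rot_symm u0 V0) (rot_symm u1 V1) (rot_symm u2 V2)
      (rot_sq h0 hV0 hV0') (rot_sq h1 hV1 hV1') (rot_sq h2 hV2 hV2') he0 he1 he2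
      (rot_gram A hV0 hV1' hM0 (le_add_of_nonneg_right pC'))
      (rot_gram' A hV1 hV0' hM1 (le_add_of_nonneg_right pB))
      (rot_gram B hV1 hV2' hM1 (le_add_of_nonneg_left pA'))
      (rot_gram' B hV2 hV1' hM2 (le_add_of_nonneg_right pC))
      (rot_gram C hV2 hV0' hM2 (le_add_of_nonneg_left pB'))
      (rot_gram' C hV0 hV2' hM0 (le_add_of_nonneg_left pA))
      hy0 hy1 hy2 hg0 hg1 hg2 hσ
  have htr : trace ((V0ᵀ * diagonal u0 * V0) * (V0ᵀ * A * V1) * (V1ᵀ * diagonal u1 * V1)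
        * (V1ᵀ * B * V2) * (V2ᵀ * diagonal u2 * V2) * (V2ᵀ * C * V0))
      = (diagonal u0 * A * diagonal u1 * B * diagonal u2 * C).trace := by
    rw [show (V0ᵀ * diagonal u0 * V0) * (V0ᵀ * A * V1) * (V1ᵀ * diagonal u1 * V1)
        * (V1ᵀ * B * V2) * (V2ᵀ * diagonal u2 * V2) * (V2ᵀ * C * V0)
      = V0ᵀ * (diagonal u0 * (V0 * V0ᵀ) * A * (V1 * V1ᵀ) * diagonal u1 * (V1 * V1ᵀ) * B
        * (V2 * V2ᵀ) * diagonal u2 * (V2 * V2ᵀ) * C * V0) by simp only [Matrix.mul_assoc],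
      trace_mul_comm, hV0', hV1', hV2']
    simp only [Matrix.mul_one]
    rw [Matrix.mul_assoc _ V0, hV0', Matrix.mul_one]
  rw [htr, ← hG0, ← hG1, ← hG2] at key
  have k1 := key (σ := 1) (by norm_num)
  have k2 := key (σ := -1) (by norm_num)
  rw [abs_le]
  constructor <;> linarith

end main

end Crest.Agent.R072.Nd

namespace Crest.Agent.R072

open Matrix

/-- **Node inequality.** -/
theorem node_ineq {ι0 ι1 ι2 : Type*} [Fintype ι0] [DecidableEq ι0] [Fintype ι1]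
    [DecidableEq ι1] [Fintype ι2] [DecidableEq ι2]
    (A : Matrix ι0 ι1 ℝ) (B : Matrix ι1 ι2 ℝ) (C : Matrix ι2 ι0 ℝ)
    (u0 : ι0 → ℝ) (u1 : ι1 → ℝ) (u2 : ι2 → ℝ)
    (h0 : ∀ i, u0 i * u0 i = 1) (h1 : ∀ i, u1 i * u1 i = 1) (h2 : ∀ i, u2 i * u2 i = 1) :
    |(diagonal u0 * A * diagonal u1 * B * diagonal u2 * C).trace| ≤
      (Real.pi / 2) * (Gam u0 (A * Aᵀ + Cᵀ * C) + Gam u1 (Aᵀ * A + B * Bᵀ) +
        Gam u2 (Bᵀ * B + C * Cᵀ)) :=
  Nd.node_ineq' A B C u0 u1 u2 h0 h1 h2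

end Crest.Agent.R072
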