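import Crest.Agent.R072.Mat
import Crest.Agent.R072.Node

/-! R072: discrete dyadic theorem (blueprint part C), definitions and the one step inequality. -/

set_option autoImplicit false
set_option linter.unusedSectionVars false

namespace Crest.Agent.R072.Dyadic

open Matrix Finset Crest.Agent.R072
open Crest.Agent.R072.Nd (psd_mul_transpose_self psd_transpose_mul_self)
open scoped MatrixOrder

/-- Haar sign inside a block of length `2^k`: `+1` on the first half, `-1` on the second half. -/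
noncomputable def hs (k : ℕ) (i : ℕ) : ℝ := if i < 2 ^ (k - 1) then 1 else -1

/-- discrete local form (block of side `2^k`, `k ≥ 1`), normalised by `2^{-k}`. -/
noncomputable def dform (F0 F1 F2 : ℕ → ℕ → ℝ) (k n0 n1 n2 : ℕ) : ℝ :=
  (1 / 2 ^ k : ℝ) * ∑ i0 ∈ range (2 ^ k), ∑ i1 ∈ range (2 ^ k), ∑ i2 ∈ range (2 ^ k),
    F0 (2 ^ k * n0 + i0) (2 ^ k * n1 + i1) * F1 (2 ^ k * n1 + i1) (2 ^ k * n2 + i2) *
      F2 (2 ^ k * n2 + i2) (2 ^ k * n0 + i0) * (hs k i0 * hs k i1 * hs k i2)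

/-- block matrix of a kernel at scale `k` and block position `(a, b)`. -/
noncomputable def blk (F : ℕ → ℕ → ℝ) (k a b : ℕ) : Matrix (Fin (2 ^ k)) (Fin (2 ^ k)) ℝ :=
  fun i j => F (2 ^ k * a + i) (2 ^ k * b + j)

/-- node potential -/
noncomputable def pot (F0 F1 F2 : ℕ → ℕ → ℝ) (k n0 n1 n2 : ℕ) : ℝ :=
  phi (blk F0 k n0 n1 * (blk F0 k n0 n1)ᵀ + (blk F2 k n2 n0)ᵀ * blk F2 k n2 n0) +
  phi ((blk F0 k n0 n1)ᵀ * blk F0 k n0 n1 + blk F1 k n1 n2 * (blk F1 k n1 n2)ᵀ) +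
  phi ((blk F1 k n1 n2)ᵀ * blk F1 k n1 n2 + blk F2 k n2 n0 * (blk F2 k n2 n0)ᵀ)

/-- halves of a block -/
def he (k : ℕ) : Fin (2 ^ k) ⊕ Fin (2 ^ k) ≃ Fin (2 ^ (k + 1)) :=
  finSumFinEquiv.trans (finCongr (by rw [pow_succ]; ring))

theorem he_inl (k : ℕ) (i : Fin (2 ^ k)) : ((he k (Sum.inl i) : Fin _) : ℕ) = i := by
  simp [he]

theorem he_inr (k : ℕ) (i : Fin (2 ^ k)) : ((he k (Sum.inr i) : Fin _) : ℕ) = 2 ^ k + i := by
  simp [he, add_comm]

theorem blk_he (F : ℕ → ℕ → ℝ) (k a b : ℕ) :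
    (blk F (k + 1) a b).submatrix (he k) (he k) =
      fromBlocks (blk F k (2 * a) (2 * b)) (blk F k (2 * a) (2 * b + 1))
        (blk F k (2 * a + 1) (2 * b)) (blk F k (2 * a + 1) (2 * b + 1)) := by
  have h1 : ∀ a i : ℕ, 2 ^ (k + 1) * a + i = 2 ^ k * (2 * a) + i := by
    intro a i; rw [pow_succ]; ring
  have h2 : ∀ a i : ℕ, 2 ^ (k + 1) * a + (2 ^ k + i) = 2 ^ k * (2 * a + 1) + i := by
    intro a i; rw [pow_succ]; ring
  ext x y
  rcases x with x | x <;> rcases y with y | y <;>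
    simp only [submatrix_apply, blk, he_inl, he_inr, fromBlocks_apply₁₁, fromBlocks_apply₁₂,
      fromBlocks_apply₂₁, fromBlocks_apply₂₂, h2] <;> simp only [h1]

/-- the half signs on the sum type -/
noncomputable def sg {m : Type*} : m ⊕ m → ℝ := Sum.elim (fun _ => 1) (fun _ => -1)

theorem sg_mul_self {m : Type*} (x : m ⊕ m) : sg x * sg x = 1 := by
  rcases x with x | x <;> simp [sg]

theorem diagonal_sg {m : Type*} [DecidableEq m] :
    diagonal (sg : m ⊕ m → ℝ) = fromBlocks 1 0 0 (-1) := by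
  unfold sg
  rw [← fromBlocks_diagonal]
  congr 1
  ext i j
  by_cases h : i = j
  · subst h; simp
  · simp [h]

section gen

variable {m : Type*} [Fintype m] [DecidableEq m]

/-- `M + U M U` for the half signs is block diagonal. -/
theorem add_conj_sg (P Q R S : Matrix m m ℝ) :
    fromBlocks P Q R S + diagonal sg * fromBlocks P Q R S * diagonal sg =
      fromBlocks ((2 : ℝ) • P) 0 0 ((2 : ℝ) • S) := by
  rw [diagonal_sg, fromBlocks_multiply, fromBlocks_multiply, fromBlocks_add]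
  simp only [Matrix.one_mul, Matrix.mul_one, Matrix.zero_mul, Matrix.mul_zero, add_zero, zero_add,
    Matrix.neg_mul, Matrix.mul_neg, neg_neg, add_neg_cancel, two_smul]

theorem phi_two_le {X Y : Matrix m m ℝ} (hX : X.PosSemidef) (hY : Y.PosSemidef) :
    phi ((2 : ℝ) • (X + Y)) ≤ 4 * (phi X + phi Y) := by
  rw [phi_smul (hX.add hY) (by norm_num)]
  have h := phi_add_le hX hY
  have h2 : (0 : ℝ) ≤ √2 := Real.sqrt_nonneg 2
  have h3 : √(2 : ℝ) * √2 = 2 := Real.mul_self_sqrt (by norm_num)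
  calc 2 * √2 * phi (X + Y) ≤ 2 * √2 * (√2 * (phi X + phi Y)) :=
        mul_le_mul_of_nonneg_left h (by positivity)
    _ = 2 * (√2 * √2) * (phi X + phi Y) := by ring
    _ = _ := by rw [h3]; ring

/-- bound of the symmetrised matrix by the children. -/
theorem phi_blocks_le {P Q R S X0 X1 Y0 Y1 : Matrix m m ℝ} (hX0 : X0.PosSemidef)
    (hX1 : X1.PosSemidef) (hY0 : Y0.PosSemidef) (hY1 : Y1.PosSemidef) (hP : P = X0 + X1)
    (hS : S = Y0 + Y1) :
    phi (fromBlocks P Q R S + diagonal sg * fromBlocks P Q R S * diagonal sg) ≤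
      4 * (phi X0 + phi X1 + phi Y0 + phi Y1) := by
  rw [add_conj_sg, hP, hS, phi_fromBlocks ((hX0.add hX1).smul (by norm_num))
    ((hY0.add hY1).smul (by norm_num))]
  have h1 := phi_two_le hX0 hX1
  have h2 := phi_two_le hY0 hY1
  linarith

theorem psd_gram (A B : Matrix m m ℝ) : (A * Aᵀ + Bᵀ * B).PosSemidef :=
  Matrix.nonneg_iff_posSemidef.mp (add_nonneg (psd_mul_transpose_self A)
    (psd_transpose_mul_self B))

theorem psd_gram' (A B : Matrix m m ℝ) : (Aᵀ * A + B * Bᵀ).PosSemidef :=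
  Matrix.nonneg_iff_posSemidef.mp (add_nonneg (psd_transpose_mul_self A)
    (psd_mul_transpose_self B))

/-- the potential of a triple of matrices -/
noncomputable def tpot {m : Type*} [Fintype m] [DecidableEq m] (A B C : Matrix m m ℝ) : ℝ :=
  phi (A * Aᵀ + Cᵀ * C) + phi (Aᵀ * A + B * Bᵀ) + phi (Bᵀ * B + C * Cᵀ)

/-- one step inequality for block matrices.
`A a b` etc. are the blocks; children are `(A a b, B b c, C c a)` with `c` given by the pattern
`c = a + b + s` (mod 2); here `s = 0`. -/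
theorem step_zero (A00 A01 A10 A11 B00 B01 B10 B11 C00 C01 C10 C11 : Matrix m m ℝ) :
    |trace (diagonal sg * fromBlocks A00 A01 A10 A11 * diagonal sg * fromBlocks B00 B01 B10 B11
        * diagonal sg * fromBlocks C00 C01 C10 C11)| ≤
      (Real.pi / 2) * (4 * (tpot A00 B00 C00 + tpot A01 B11 C10 + tpot A10 B01 C11
        + tpot A11 B10 C01) - 2 * tpot (fromBlocks A00 A01 A10 A11) (fromBlocks B00 B01 B10 B11)
          (fromBlocks C00 C01 C10 C11)) := by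
  have N := node_ineq (fromBlocks A00 A01 A10 A11) (fromBlocks B00 B01 B10 B11)
    (fromBlocks C00 C01 C10 C11) sg sg sg sg_mul_self sg_mul_self sg_mul_self
  refine N.trans (mul_le_mul_of_nonneg_left ?_ (by positivity))
  unfold Gam
  have e0 : fromBlocks A00 A01 A10 A11 * (fromBlocks A00 A01 A10 A11)ᵀ
      + (fromBlocks C00 C01 C10 C11)ᵀ * fromBlocks C00 C01 C10 C11
      = fromBlocks ((A00 * A00ᵀ + C00ᵀ * C00) + (A01 * A01ᵀ + C10ᵀ * C10))
        (A00 * A10ᵀ + A01 * A11ᵀ + (C00ᵀ * C01 + C10ᵀ * C11))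
        (A10 * A00ᵀ + A11 * A01ᵀ + (C01ᵀ * C00 + C11ᵀ * C10))
        ((A10 * A10ᵀ + C11ᵀ * C11) + (A11 * A11ᵀ + C01ᵀ * C01)) := by
    rw [fromBlocks_transpose, fromBlocks_transpose, fromBlocks_multiply, fromBlocks_multiply,
      fromBlocks_add]
    congr 1 <;> abel
  have e1 : (fromBlocks A00 A01 A10 A11)ᵀ * fromBlocks A00 A01 A10 A11
      + fromBlocks B00 B01 B10 B11 * (fromBlocks B00 B01 B10 B11)ᵀ
      = fromBlocks ((A00ᵀ * A00 + B00 * B00ᵀ) + (A10ᵀ * A10 + B01 * B01ᵀ))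
        (A00ᵀ * A01 + A10ᵀ * A11 + (B00 * B10ᵀ + B01 * B11ᵀ))
        (A01ᵀ * A00 + A11ᵀ * A10 + (B10 * B00ᵀ + B11 * B01ᵀ))
        ((A01ᵀ * A01 + B11 * B11ᵀ) + (A11ᵀ * A11 + B10 * B10ᵀ)) := by
    rw [fromBlocks_transpose, fromBlocks_transpose, fromBlocks_multiply, fromBlocks_multiply,
      fromBlocks_add]
    congr 1 <;> abel
  have e2 : (fromBlocks B00 B01 B10 B11)ᵀ * fromBlocks B00 B01 B10 B11
      + fromBlocks C00 C01 C10 C11 * (fromBlocks C00 C01 C10 C11)ᵀ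
      = fromBlocks ((B00ᵀ * B00 + C00 * C00ᵀ) + (B10ᵀ * B10 + C01 * C01ᵀ))
        (B00ᵀ * B01 + B10ᵀ * B11 + (C00 * C10ᵀ + C01 * C11ᵀ))
        (B01ᵀ * B00 + B11ᵀ * B10 + (C10 * C00ᵀ + C11 * C01ᵀ))
        ((B11ᵀ * B11 + C10 * C10ᵀ) + (B01ᵀ * B01 + C11 * C11ᵀ)) := by
    rw [fromBlocks_transpose, fromBlocks_transpose, fromBlocks_multiply, fromBlocks_multiply,
      fromBlocks_add]
    congr 1 <;> abel
  have k0 := phi_blocks_le (Q := (A00 * A10ᵀ + A01 * A11ᵀ + (C00ᵀ * C01 + C10ᵀ * C11)))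
    (R := (A10 * A00ᵀ + A11 * A01ᵀ + (C01ᵀ * C00 + C11ᵀ * C10)))
    (psd_gram A00 C00) (psd_gram A01 C10) (psd_gram A10 C11) (psd_gram A11 C01) rfl rfl
  have k1 := phi_blocks_le (Q := (A00ᵀ * A01 + A10ᵀ * A11 + (B00 * B10ᵀ + B01 * B11ᵀ)))
    (R := (A01ᵀ * A00 + A11ᵀ * A10 + (B10 * B00ᵀ + B11 * B01ᵀ)))
    (psd_gram' A00 B00) (psd_gram' A10 B01) (psd_gram' A01 B11) (psd_gram' A11 B10) rfl rfl
  have k2 := phi_blocks_le (Q := (B00ᵀ * B01 + B10ᵀ * B11 + (C00 * C10ᵀ + C01 * C11ᵀ)))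
    (R := (B01ᵀ * B00 + B11ᵀ * B10 + (C10 * C00ᵀ + C11 * C01ᵀ)))
    (psd_gram' B00 C00) (psd_gram' B10 C01) (psd_gram' B11 C10) (psd_gram' B01 C11) rfl rfl
  unfold tpot
  rw [e0, e1, e2]
  linarith

theorem tpot_submatrix {n : Type*} [Fintype n] [DecidableEq n] (e : n ≃ m)
    (A B C : Matrix m m ℝ) :
    tpot (A.submatrix e e) (B.submatrix e e) (C.submatrix e e) = tpot A B C := by
  unfold tpot
  have h : ∀ X Y : Matrix m m ℝ, X.submatrix e e * Y.submatrix e e = (X * Y).submatrix e e :=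
    fun X Y => submatrix_mul_equiv X Y e e e
  have ha : ∀ X Y : Matrix m m ℝ, X.submatrix e e + Y.submatrix e e = (X + Y).submatrix e e :=
    fun X Y => rfl
  simp only [transpose_submatrix, h, ha]
  rw [phi_submatrix_equiv e (psd_gram A C), phi_submatrix_equiv e (psd_gram' A B),
    phi_submatrix_equiv e (psd_gram' B C)]

theorem trace_expand (u v w : m → ℝ) (A B C : Matrix m m ℝ) :
    trace (diagonal u * A * diagonal v * B * diagonal w * C) =
      ∑ x, ∑ y, ∑ z, A x y * B y z * C z x * (u x * v y * w z) := by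
  simp only [trace, diag_apply]
  refine Finset.sum_congr rfl fun x _ => ?_
  rw [mul_apply]
  rw [Finset.sum_comm]
  refine Finset.sum_congr rfl fun z _ => ?_
  rw [mul_diagonal, mul_apply, Finset.sum_mul, Finset.sum_mul]
  refine Finset.sum_congr rfl fun y _ => ?_
  rw [mul_diagonal, diagonal_mul]
  ring

end gen

theorem xor_two (a b x y : ℕ) (hx : x < 2) (hy : y < 2) :
    (2 * a + x) ^^^ (2 * b + y) = 2 * (a ^^^ b) + (x ^^^ y) := by
  have h : ∀ (c : Bool) (n : ℕ), Nat.bit c n = 2 * n + c.toNat := fun c n => Nat.bit_val c n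
  have ex : ∃ c : Bool, x = c.toNat := by
    interval_cases x
    · exact ⟨false, rfl⟩
    · exact ⟨true, rfl⟩
  have ey : ∃ c : Bool, y = c.toNat := by
    interval_cases y
    · exact ⟨false, rfl⟩
    · exact ⟨true, rfl⟩
  obtain ⟨c, rfl⟩ := ex
  obtain ⟨d, rfl⟩ := ey
  rw [← h, ← h, Nat.xor_bit, h]
  cases c <;> cases d <;> rfl

theorem hs_he (k : ℕ) (x : Fin (2 ^ k) ⊕ Fin (2 ^ k)) : hs (k + 1) (he k x) = sg x := by
  rcases x with x | x
  · rw [he_inl]; simp [hs, sg]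
  · rw [he_inr]; simp [hs, sg]

theorem dform_eq (F0 F1 F2 : ℕ → ℕ → ℝ) (k n0 n1 n2 : ℕ) :
    dform F0 F1 F2 (k + 1) n0 n1 n2 = (1 / 2 ^ (k + 1) : ℝ) *
      trace (diagonal sg * (blk F0 (k + 1) n0 n1).submatrix (he k) (he k) * diagonal sg *
        (blk F1 (k + 1) n1 n2).submatrix (he k) (he k) * diagonal sg *
        (blk F2 (k + 1) n2 n0).submatrix (he k) (he k)) := by
  unfold dform
  congr 1
  rw [trace_expand]
  simp only [Finset.sum_range]
  rw [← Equiv.sum_comp (he k)]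
  refine Finset.sum_congr rfl fun x _ => ?_
  rw [← Equiv.sum_comp (he k)]
  refine Finset.sum_congr rfl fun y _ => ?_
  rw [← Equiv.sum_comp (he k)]
  refine Finset.sum_congr rfl fun z _ => ?_
  rw [hs_he, hs_he, hs_he]
  rfl

/-- one step: node inequality + splitting + `phi_add_le` -/
theorem dform_le (F0 F1 F2 : ℕ → ℕ → ℝ) (k n0 n1 : ℕ) :
    |dform F0 F1 F2 (k + 1) n0 n1 (n0 ^^^ n1)| ≤
      Real.pi *
        ((1 / 2 ^ k : ℝ) * (∑ a ∈ range 2, ∑ b ∈ range 2,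
            pot F0 F1 F2 k (2 * n0 + a) (2 * n1 + b) ((2 * n0 + a) ^^^ (2 * n1 + b))) -
          (1 / 2 ^ (k + 1) : ℝ) * pot F0 F1 F2 (k + 1) n0 n1 (n0 ^^^ n1)) := by
  have hp : ∀ k n0 n1 n2, pot F0 F1 F2 k n0 n1 n2
    = tpot (blk F0 k n0 n1) (blk F1 k n1 n2) (blk F2 k n2 n0) := fun _ _ _ _ => rfl
  set n2 := n0 ^^^ n1 with hn2
  rw [dform_eq, abs_mul, abs_of_pos (by positivity : (0 : ℝ) < 1 / 2 ^ (k + 1))]
  have hpar : pot F0 F1 F2 (k + 1) n0 n1 n2
      = tpot ((blk F0 (k + 1) n0 n1).submatrix (he k) (he k))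
        ((blk F1 (k + 1) n1 n2).submatrix (he k) (he k))
        ((blk F2 (k + 1) n2 n0).submatrix (he k) (he k)) := by
    rw [hp, tpot_submatrix]
  rw [hpar, blk_he, blk_he, blk_he]
  have h := step_zero (blk F0 k (2 * n0) (2 * n1)) (blk F0 k (2 * n0) (2 * n1 + 1))
    (blk F0 k (2 * n0 + 1) (2 * n1)) (blk F0 k (2 * n0 + 1) (2 * n1 + 1))
    (blk F1 k (2 * n1) (2 * n2)) (blk F1 k (2 * n1) (2 * n2 + 1))
    (blk F1 k (2 * n1 + 1) (2 * n2)) (blk F1 k (2 * n1 + 1) (2 * n2 + 1))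
    (blk F2 k (2 * n2) (2 * n0)) (blk F2 k (2 * n2) (2 * n0 + 1))
    (blk F2 k (2 * n2 + 1) (2 * n0)) (blk F2 k (2 * n2 + 1) (2 * n0 + 1))
  have x00 : (2 * n0) ^^^ (2 * n1) = 2 * n2 := by
    have := xor_two n0 n1 0 0 (by norm_num) (by norm_num)
    simpa using this
  have x01 : (2 * n0) ^^^ (2 * n1 + 1) = 2 * n2 + 1 := by
    have := xor_two n0 n1 0 1 (by norm_num) (by norm_num)
    simpa using this
  have x10 : (2 * n0 + 1) ^^^ (2 * n1) = 2 * n2 + 1 := by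
    have := xor_two n0 n1 1 0 (by norm_num) (by norm_num)
    simpa using this
  have x11 : (2 * n0 + 1) ^^^ (2 * n1 + 1) = 2 * n2 := by
    have := xor_two n0 n1 1 1 (by norm_num) (by norm_num)
    simpa using this
  simp only [Finset.sum_range_succ, Finset.sum_range_zero, zero_add, add_zero, x00, x01, x10, x11,
    hp]
  have hk : (0 : ℝ) < 1 / 2 ^ (k + 1) := by positivity
  refine (mul_le_mul_of_nonneg_left h hk.le).trans (le_of_eq ?_)
  rw [show (1 / 2 ^ k : ℝ) = 2 * (1 / 2 ^ (k + 1)) by rw [pow_succ]; field_simp]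
  ring

end Crest.Agent.R072.Dyadic
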