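import Crest.Agent.R072.DyadicA

/-! R072: discrete dyadic theorem: telescoping and homogeneity. -/

set_option autoImplicit false

namespace Crest.Agent.R072.Dyadic

open Matrix Finset Crest.Agent.R072
open scoped MatrixOrder

theorem pot_nonneg (F0 F1 F2 : ℕ → ℕ → ℝ) (k n0 n1 n2 : ℕ) : 0 ≤ pot F0 F1 F2 k n0 n1 n2 := by
  unfold pot
  have h0 := phi_nonneg (psd_gram (blk F0 k n0 n1) (blk F2 k n2 n0))
  have h1 := phi_nonneg (psd_gram' (blk F0 k n0 n1) (blk F1 k n1 n2))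
  have h2 := phi_nonneg (psd_gram' (blk F1 k n1 n2) (blk F2 k n2 n0))
  linarith

/-- weighted potential sum at level `k` over `[0,N)²` nodes -/
noncomputable def psum (F0 F1 F2 : ℕ → ℕ → ℝ) (k N : ℕ) : ℝ :=
  (1 / 2 ^ k : ℝ) * ∑ n0 ∈ range N, ∑ n1 ∈ range N, pot F0 F1 F2 k n0 n1 (n0 ^^^ n1)

theorem sum_range_two_mul (f : ℕ → ℝ) (N : ℕ) :
    ∑ n ∈ range (2 * N), f n = ∑ n ∈ range N, ∑ a ∈ range 2, f (2 * n + a) := by
  induction N with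
  | zero => simp
  | succ N ih =>
    rw [show 2 * (N + 1) = 2 * N + 1 + 1 by ring, Finset.sum_range_succ, Finset.sum_range_succ, ih,
      Finset.sum_range_succ _ N]
    simp only [Finset.sum_range_succ, Finset.sum_range_zero, zero_add, add_zero]
    ring

theorem step_sum (F0 F1 F2 : ℕ → ℕ → ℝ) (k N : ℕ) :
    ∑ n0 ∈ range N, ∑ n1 ∈ range N, |dform F0 F1 F2 (k + 1) n0 n1 (n0 ^^^ n1)| ≤
      Real.pi * (psum F0 F1 F2 k (2 * N) - psum F0 F1 F2 (k + 1) N) := by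
  have h : ∑ n0 ∈ range N, ∑ n1 ∈ range N, |dform F0 F1 F2 (k + 1) n0 n1 (n0 ^^^ n1)| ≤
      ∑ n0 ∈ range N, ∑ n1 ∈ range N, Real.pi *
        ((1 / 2 ^ k : ℝ) * (∑ a ∈ range 2, ∑ b ∈ range 2,
            pot F0 F1 F2 k (2 * n0 + a) (2 * n1 + b) ((2 * n0 + a) ^^^ (2 * n1 + b))) -
          (1 / 2 ^ (k + 1) : ℝ) * pot F0 F1 F2 (k + 1) n0 n1 (n0 ^^^ n1)) :=
    Finset.sum_le_sum fun n0 _ => Finset.sum_le_sum fun n1 _ => dform_le F0 F1 F2 k n0 n1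
  refine h.trans (le_of_eq ?_)
  unfold psum
  simp only [← Finset.mul_sum, Finset.sum_sub_distrib]
  congr 2
  congr 1
  rw [sum_range_two_mul]
  refine Finset.sum_congr rfl fun n0 _ => ?_
  rw [Finset.sum_comm]
  refine Finset.sum_congr rfl fun a _ => ?_
  rw [sum_range_two_mul]

theorem telescope (F0 F1 F2 : ℕ → ℕ → ℝ) (m : ℕ) :
    ∑ k ∈ range m, ∑ n0 ∈ range (2 ^ (m - (k + 1))), ∑ n1 ∈ range (2 ^ (m - (k + 1))),
      |dform F0 F1 F2 (k + 1) n0 n1 (n0 ^^^ n1)| ≤ Real.pi * psum F0 F1 F2 0 (2 ^ m) := by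
  have h : ∀ k ∈ range m, ∑ n0 ∈ range (2 ^ (m - (k + 1))), ∑ n1 ∈ range (2 ^ (m - (k + 1))),
      |dform F0 F1 F2 (k + 1) n0 n1 (n0 ^^^ n1)| ≤
      Real.pi * psum F0 F1 F2 k (2 ^ (m - k)) - Real.pi * psum F0 F1 F2 (k + 1) (2 ^ (m - (k + 1))) := by
    intro k hk
    have hk' := Finset.mem_range.mp hk
    refine (step_sum F0 F1 F2 k _).trans (le_of_eq ?_)
    rw [show 2 * 2 ^ (m - (k + 1)) = 2 ^ (m - k) by
      rw [← pow_succ']; congr 1; omega]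
    ring
  refine (Finset.sum_le_sum h).trans ?_
  rw [Finset.sum_range_sub' (fun k => Real.pi * psum F0 F1 F2 k (2 ^ (m - k))) m]
  have h2 : 0 ≤ psum F0 F1 F2 m (2 ^ (m - m)) :=
    mul_nonneg (by positivity) (Finset.sum_nonneg fun _ _ => Finset.sum_nonneg fun _ _ =>
      pot_nonneg _ _ _ _ _ _ _)
  have h3 := mul_nonneg Real.pi_pos.le h2
  simp only [Nat.sub_zero]
  linarith

theorem xor_cancel (a x : ℕ) : a ^^^ (a ^^^ x) = x := by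
  rw [← Nat.xor_assoc, Nat.xor_self, Nat.zero_xor]

/-- xor with `a` permutes `[0, 2^m)` -/
theorem sum_xor (m a : ℕ) (ha : a < 2 ^ m) (f : ℕ → ℝ) :
    ∑ x ∈ range (2 ^ m), f (a ^^^ x) = ∑ x ∈ range (2 ^ m), f x := by
  refine Finset.sum_nbij' (fun x => a ^^^ x) (fun x => a ^^^ x) ?_ ?_ ?_ ?_ ?_
  · intro x hx
    exact Finset.mem_range.mpr (Nat.xor_lt_two_pow ha (Finset.mem_range.mp hx))
  · intro x hx
    exact Finset.mem_range.mpr (Nat.xor_lt_two_pow ha (Finset.mem_range.mp hx))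
  · intro x _
    exact xor_cancel a x
  · intro x _
    exact xor_cancel a x
  · intro x _
    rfl

theorem sq_add_bound (a b : ℝ) : (a ^ 2 + b ^ 2) * √(a ^ 2 + b ^ 2) ≤ √2 * (|a| ^ 3 + |b| ^ 3) := by
  rw [← sq_abs a, ← sq_abs b]
  have hx := abs_nonneg a
  have hy := abs_nonneg b
  set x := |a|
  set y := |b|
  have hs : 0 ≤ x ^ 2 + y ^ 2 := by positivity
  refine abs_le_of_sq_le_sq' ?_ (by positivity) |>.2
  rw [mul_pow, mul_pow, Real.sq_sqrt hs, Real.sq_sqrt (by norm_num)]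
  have hQ : 0 ≤ (x - y) ^ 2 * (x ^ 4 + 2 * x ^ 3 * y + 2 * x * y ^ 3 + y ^ 4) := by positivity
  nlinarith [hQ]

theorem phi_level0 (M : Matrix (Fin (2 ^ 0)) (Fin (2 ^ 0)) ℝ) (h : 0 ≤ M 0 0) :
    phi M = M 0 0 * √(M 0 0) := by
  letI : Unique (Fin (2 ^ 0)) := inferInstanceAs (Unique (Fin 1))
  have hd : (default : Fin (2 ^ 0)) = 0 := Subsingleton.elim _ _
  have := phi_unique (M := M) (by rw [hd]; exact h)
  rw [hd] at this
  exact this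

theorem blk_zero_apply (F : ℕ → ℕ → ℝ) (a b : ℕ) (i j : Fin (2 ^ 0)) : blk F 0 a b i j = F a b := by
  simp [blk]

theorem pot_zero_le (F0 F1 F2 : ℕ → ℕ → ℝ) (n0 n1 n2 : ℕ) :
    pot F0 F1 F2 0 n0 n1 n2 ≤ 2 * √2 * (|F0 n0 n1| ^ 3 + |F1 n1 n2| ^ 3 + |F2 n2 n0| ^ 3) := by
  have e1 : ∀ (F G : ℕ → ℕ → ℝ) (a b c d : ℕ),
      (blk F 0 a b * (blk F 0 a b)ᵀ + (blk G 0 c d)ᵀ * blk G 0 c d) 0 0
        = F a b ^ 2 + G c d ^ 2 := by
    intro F G a b c d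
    simp only [Matrix.add_apply, mul_apply, transpose_apply, blk_zero_apply, Finset.sum_const,
      Finset.card_univ, Fintype.card_fin, pow_zero, one_smul]
    ring
  have e2 : ∀ (F G : ℕ → ℕ → ℝ) (a b c d : ℕ),
      ((blk F 0 a b)ᵀ * blk F 0 a b + blk G 0 c d * (blk G 0 c d)ᵀ) 0 0
        = F a b ^ 2 + G c d ^ 2 := by
    intro F G a b c d
    simp only [Matrix.add_apply, mul_apply, transpose_apply, blk_zero_apply, Finset.sum_const,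
      Finset.card_univ, Fintype.card_fin, pow_zero, one_smul]
    ring
  unfold pot
  rw [phi_level0 _ (by rw [e1]; positivity), phi_level0 _ (by rw [e2]; positivity),
    phi_level0 _ (by rw [e2]; positivity), e1, e2, e2]
  have h1 := sq_add_bound (F0 n0 n1) (F2 n2 n0)
  have h2 := sq_add_bound (F0 n0 n1) (F1 n1 n2)
  have h3 := sq_add_bound (F1 n1 n2) (F2 n2 n0)
  linarith

/-- **Discrete dyadic theorem**: sum over all scales `k = 1..m` and all nodes inside `[0,2^m)`. -/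
theorem dyadic_discrete (F0 F1 F2 : ℕ → ℕ → ℝ) (m : ℕ) :
    ∑ k ∈ range m, ∑ n0 ∈ range (2 ^ (m - (k + 1))), ∑ n1 ∈ range (2 ^ (m - (k + 1))),
      |dform F0 F1 F2 (k + 1) n0 n1 (n0 ^^^ n1)| ≤
      Real.pi * (2 * Real.sqrt 2) *
        (∑ x ∈ range (2 ^ m), ∑ y ∈ range (2 ^ m), |F0 x y| ^ 3 +
         ∑ x ∈ range (2 ^ m), ∑ y ∈ range (2 ^ m), |F1 x y| ^ 3 +
         ∑ x ∈ range (2 ^ m), ∑ y ∈ range (2 ^ m), |F2 x y| ^ 3) := by
  refine (telescope F0 F1 F2 m).trans ?_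
  rw [mul_assoc]
  refine mul_le_mul_of_nonneg_left ?_ Real.pi_pos.le
  unfold psum
  rw [pow_zero, div_one, one_mul]
  have h : ∑ n0 ∈ range (2 ^ m), ∑ n1 ∈ range (2 ^ m), pot F0 F1 F2 0 n0 n1 (n0 ^^^ n1) ≤
      ∑ n0 ∈ range (2 ^ m), ∑ n1 ∈ range (2 ^ m),
        2 * √2 * (|F0 n0 n1| ^ 3 + |F1 n1 (n0 ^^^ n1)| ^ 3 + |F2 (n0 ^^^ n1) n0| ^ 3) :=
    Finset.sum_le_sum fun n0 _ => Finset.sum_le_sum fun n1 _ => pot_zero_le _ _ _ _ _ _
  refine h.trans (le_of_eq ?_)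
  simp only [← Finset.mul_sum, Finset.sum_add_distrib]
  congr 1
  congr 1
  · congr 1
    rw [Finset.sum_comm]
    refine Finset.sum_congr rfl fun n1 hn1 => ?_
    have := sum_xor m n1 (Finset.mem_range.mp hn1) (fun x => |F1 n1 x| ^ 3)
    rw [← this]
    refine Finset.sum_congr rfl fun n0 _ => ?_
    rw [Nat.xor_comm]
  · rw [Finset.sum_comm (f := fun x y => |F2 x y| ^ 3)]
    refine Finset.sum_congr rfl fun n0 hn0 => ?_
    exact sum_xor m n0 (Finset.mem_range.mp hn0) (fun x => |F2 x n0| ^ 3)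

theorem dform_smul (F0 F1 F2 : ℕ → ℕ → ℝ) (a b c : ℝ) (k n0 n1 n2 : ℕ) :
    dform (fun x y => a * F0 x y) (fun x y => b * F1 x y) (fun x y => c * F2 x y) k n0 n1 n2
      = (a * b * c) * dform F0 F1 F2 k n0 n1 n2 := by
  unfold dform
  simp only [Finset.mul_sum]
  refine Finset.sum_congr rfl fun i0 _ => Finset.sum_congr rfl fun i1 _ =>
    Finset.sum_congr rfl fun i2 _ => ?_
  ring

theorem homog_aux (F0 F1 F2 : ℕ → ℕ → ℝ) (m : ℕ) {a b c : ℝ} (ha : 0 < a) (hb : 0 < b)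
    (hc : 0 < c) :
    a * b * c * ∑ k ∈ range m, ∑ n0 ∈ range (2 ^ (m - (k + 1))), ∑ n1 ∈ range (2 ^ (m - (k + 1))),
      |dform F0 F1 F2 (k + 1) n0 n1 (n0 ^^^ n1)| ≤
      Real.pi * (2 * Real.sqrt 2) *
        (a ^ 3 * ∑ x ∈ range (2 ^ m), ∑ y ∈ range (2 ^ m), |F0 x y| ^ 3 +
         b ^ 3 * ∑ x ∈ range (2 ^ m), ∑ y ∈ range (2 ^ m), |F1 x y| ^ 3 +
         c ^ 3 * ∑ x ∈ range (2 ^ m), ∑ y ∈ range (2 ^ m), |F2 x y| ^ 3) := by
  have h := dyadic_discrete (fun x y => a * F0 x y) (fun x y => b * F1 x y)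
    (fun x y => c * F2 x y) m
  simp only [dform_smul, abs_mul, abs_of_pos ha, abs_of_pos hb, abs_of_pos hc, mul_pow,
    ← Finset.mul_sum] at h
  exact h

/-- homogeneous form -/
theorem dyadic_discrete_homog (F0 F1 F2 : ℕ → ℕ → ℝ) (m : ℕ) :
    ∑ k ∈ range m, ∑ n0 ∈ range (2 ^ (m - (k + 1))), ∑ n1 ∈ range (2 ^ (m - (k + 1))),
      |dform F0 F1 F2 (k + 1) n0 n1 (n0 ^^^ n1)| ≤
      27 * (∑ x ∈ range (2 ^ m), ∑ y ∈ range (2 ^ m), |F0 x y| ^ 3) ^ (1 / 3 : ℝ) *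
        (∑ x ∈ range (2 ^ m), ∑ y ∈ range (2 ^ m), |F1 x y| ^ 3) ^ (1 / 3 : ℝ) *
        (∑ x ∈ range (2 ^ m), ∑ y ∈ range (2 ^ m), |F2 x y| ^ 3) ^ (1 / 3 : ℝ) := by
  have hS : ∀ F : ℕ → ℕ → ℝ, 0 ≤ ∑ x ∈ range (2 ^ m), ∑ y ∈ range (2 ^ m), |F x y| ^ 3 :=
    fun F => Finset.sum_nonneg fun _ _ => Finset.sum_nonneg fun _ _ => by positivity
  have h0 := hS F0
  have h1 := hS F1
  have h2 := hS F2
  set S0 := ∑ x ∈ range (2 ^ m), ∑ y ∈ range (2 ^ m), |F0 x y| ^ 3 with hS0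
  set S1 := ∑ x ∈ range (2 ^ m), ∑ y ∈ range (2 ^ m), |F1 x y| ^ 3 with hS1
  set S2 := ∑ x ∈ range (2 ^ m), ∑ y ∈ range (2 ^ m), |F2 x y| ^ 3 with hS2
  set L := ∑ k ∈ range m, ∑ n0 ∈ range (2 ^ (m - (k + 1))), ∑ n1 ∈ range (2 ^ (m - (k + 1))),
      |dform F0 F1 F2 (k + 1) n0 n1 (n0 ^^^ n1)| with hL
  have hK : Real.pi * (2 * √2) * 3 ≤ 27 := by
    have h3 : Real.pi < 3.1416 := Real.pi_lt_d4
    have h4 : √2 ≤ 1.4143 := by
      rw [Real.sqrt_le_left (by norm_num)]; norm_num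
    have h5 : 0 ≤ √(2 : ℝ) := Real.sqrt_nonneg 2
    nlinarith [Real.pi_pos]
  have key : ∀ ε : ℝ, 0 < ε → L ≤ 27 * (S0 + ε) ^ (1 / 3 : ℝ) * (S1 + ε) ^ (1 / 3 : ℝ)
      * (S2 + ε) ^ (1 / 3 : ℝ) := by
    intro ε hε
    have cub : ∀ S : ℝ, 0 ≤ S → 0 < (S + ε) ^ (1 / 3 : ℝ) ∧
        (((S + ε) ^ (1 / 3 : ℝ))⁻¹) ^ 3 * S ≤ 1 := by
      intro S hS
      have hp : 0 < S + ε := by linarith
      refine ⟨Real.rpow_pos_of_pos hp _, ?_⟩
      rw [inv_pow, ← Real.rpow_natCast, ← Real.rpow_mul hp.le]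
      norm_num
      rw [inv_mul_le_iff₀ hp]
      linarith
    obtain ⟨a0, a1⟩ := cub S0 h0
    obtain ⟨b0, b1⟩ := cub S1 h1
    obtain ⟨c0, c1⟩ := cub S2 h2
    set a := (S0 + ε) ^ (1 / 3 : ℝ)
    set b := (S1 + ε) ^ (1 / 3 : ℝ)
    set c := (S2 + ε) ^ (1 / 3 : ℝ)
    have h := homog_aux F0 F1 F2 m (inv_pos.mpr a0) (inv_pos.mpr b0) (inv_pos.mpr c0)
    rw [← hS0, ← hS1, ← hS2, ← hL] at h
    have h' : a⁻¹ * b⁻¹ * c⁻¹ * L ≤ 27 := by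
      refine h.trans (le_trans ?_ hK)
      exact mul_le_mul_of_nonneg_left (by linarith) (by positivity)
    have h'' := mul_le_mul_of_nonneg_left h' (by positivity : 0 ≤ a * b * c)
    calc L = a * b * c * (a⁻¹ * b⁻¹ * c⁻¹ * L) := by
          field_simp
      _ ≤ a * b * c * 27 := h''
      _ = _ := by ring
  have hc : Continuous fun ε : ℝ => 27 * (S0 + ε) ^ (1 / 3 : ℝ) * (S1 + ε) ^ (1 / 3 : ℝ)
      * (S2 + ε) ^ (1 / 3 : ℝ) := by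
    have hr : ∀ S : ℝ, Continuous fun ε : ℝ => (S + ε) ^ (1 / 3 : ℝ) := fun S =>
      (continuous_const.add continuous_id).rpow_const fun _ => Or.inr (by norm_num)
    exact ((continuous_const.mul (hr S0)).mul (hr S1)).mul (hr S2)
  have ht := (hc.tendsto 0).mono_left (nhdsWithin_le_nhds (s := Set.Ioi 0))
  simp only [add_zero] at ht
  refine ge_of_tendsto ht ?_
  filter_upwards [self_mem_nhdsWithin] with ε hε
  exact key ε hε

end Crest.Agent.R072.Dyadic
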