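import Crest.Agent.R072.DyadicContA

/-! R072: averages over dyadic squares and convergence, for `DyadicCont.lean`. -/

set_option autoImplicit false

namespace Crest.Agent.R072.DyadicCont

open MeasureTheory Set Filter Topology Crest.AnalysisR.TriangularDyadic

/-- average over the closed dyadic square -/
noncomputable def avg (F : ℝ × ℝ → ℝ) (h : ℝ) (a b : ℕ) : ℝ :=
  ⨍ z in Metric.closedBall ((h * (a + 1 / 2), h * (b + 1 / 2)) : ℝ × ℝ) (h / 2), F z

theorem abs_avg_le {F : ℝ × ℝ → ℝ} {M : ℝ} (hM : ∀ z, |F z| ≤ M) (h : ℝ) (a b : ℕ) :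
    |avg F h a b| ≤ M := by
  have hM0 : 0 ≤ M := (abs_nonneg _).trans (hM 0)
  unfold avg
  rw [setAverage_eq, smul_eq_mul, abs_mul]
  set s := Metric.closedBall ((h * (a + 1 / 2), h * (b + 1 / 2)) : ℝ × ℝ) (h / 2) with hs
  have hfin : volume s < ⊤ := measure_closedBall_lt_top
  have h1 : ‖∫ z in s, F z‖ ≤ M * volume.real s :=
    norm_setIntegral_le_of_norm_le_const hfin (fun x _ => by rw [Real.norm_eq_abs]; exact hM x)
  rw [Real.norm_eq_abs] at h1
  have h2 : |(volume.real s)⁻¹| = (volume.real s)⁻¹ := abs_of_nonneg (by positivity)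
  rw [h2]
  rcases eq_or_lt_of_le (measureReal_nonneg (μ := volume) (s := s)) with h0 | h0
  · rw [← h0]; simpa using hM0
  · rw [inv_mul_le_iff₀ h0, mul_comm]; exact h1

theorem mem_ball_floor {h : ℝ} (hh : 0 < h) {z : ℝ × ℝ} (h1 : 0 ≤ z.1) (h2 : 0 ≤ z.2) :
    z ∈ Metric.closedBall ((h * (⌊z.1 / h⌋₊ + 1 / 2), h * (⌊z.2 / h⌋₊ + 1 / 2)) : ℝ × ℝ) (h / 2) := by
  have key : ∀ x : ℝ, 0 ≤ x → |x - h * (⌊x / h⌋₊ + 1 / 2)| ≤ h / 2 := by
    intro x hx
    have hx' : 0 ≤ x / h := by positivity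
    have a1 := Nat.floor_le hx'
    have a2 := Nat.lt_floor_add_one (x / h)
    rw [le_div_iff₀ hh] at a1
    rw [div_lt_iff₀ hh] at a2
    rw [abs_le]
    constructor <;> nlinarith
  rw [Metric.mem_closedBall, Prod.dist_eq, max_le_iff]
  exact ⟨by rw [Real.dist_eq]; exact key _ h1, by rw [Real.dist_eq]; exact key _ h2⟩

/-- the dyadic step -/
noncomputable def hN (N : ℕ) : ℝ := (2 : ℝ) ^ (-(N : ℤ))

theorem hN_pos (N : ℕ) : 0 < hN N := by unfold hN; positivity

theorem hN_le_one (N : ℕ) : hN N ≤ 1 := by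
  unfold hN
  exact zpow_le_one_of_nonpos₀ (by norm_num) (by omega)

theorem tendsto_hN : Tendsto hN atTop (𝓝 0) := by
  have : hN = fun N : ℕ => ((1 : ℝ) / 2) ^ N := by
    ext N; unfold hN; rw [zpow_neg, zpow_natCast, one_div, inv_pow]
  rw [this]
  exact tendsto_pow_atTop_nhds_zero_of_lt_one (by norm_num) (by norm_num)

/-- the approximation -/
noncomputable def apx (F : ℝ × ℝ → ℝ) (N : ℕ) : ℝ × ℝ → ℝ := stepf (hN N) (avg F (hN N))

theorem abs_apx_le {F : ℝ × ℝ → ℝ} {M : ℝ} (hM : ∀ z, |F z| ≤ M) (N : ℕ) (z : ℝ × ℝ) :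
    |apx F N z| ≤ M := abs_avg_le hM _ _ _

theorem measurable_apx (F : ℝ × ℝ → ℝ) (N : ℕ) : Measurable (apx F N) := measurable_stepf _ _

theorem tendsto_apx {F : ℝ × ℝ → ℝ} (hF : LocallyIntegrable F volume) :
    ∀ᵐ z : ℝ × ℝ, z ∈ Ici (0 : ℝ) ×ˢ Ici (0 : ℝ) →
      Tendsto (fun N => apx F N z) atTop (𝓝 (F z)) := by
  filter_upwards [IsUnifLocDoublingMeasure.ae_tendsto_average (μ := volume) hF 1] with z hz hzQ
  have h1 : 0 ≤ z.1 := hzQ.1
  have h2 : 0 ≤ z.2 := hzQ.2
  refine hz (fun N : ℕ => ((hN N * (⌊z.1 / hN N⌋₊ + 1 / 2), hN N * (⌊z.2 / hN N⌋₊ + 1 / 2)) : ℝ × ℝ))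
    (fun N => hN N / 2) ?_ ?_
  · rw [tendsto_nhdsWithin_iff]
    refine ⟨by simpa using tendsto_hN.div_const 2, Eventually.of_forall fun N => ?_⟩
    exact half_pos (hN_pos N)
  · refine Eventually.of_forall fun N => ?_
    rw [one_mul]
    exact mem_ball_floor (hN_pos N) h1 h2

theorem apx_eq_zero {F : ℝ × ℝ → ℝ} {R : ℝ} (hR : ∀ z, R < ‖z‖ → F z = 0) (N : ℕ)
    {z : ℝ × ℝ} (hz : z ∈ Ici (0 : ℝ) ×ˢ Ici (0 : ℝ)) (hz2 : R + 1 < ‖z‖) : apx F N z = 0 := by
  unfold apx stepf avg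
  rw [setAverage_eq, setIntegral_eq_zero_of_forall_eq_zero, smul_zero]
  intro y hy
  apply hR
  have h1 := mem_ball_floor (hN_pos N) hz.1 hz.2
  have h2 : dist y z ≤ hN N := by
    calc dist y z ≤ hN N / 2 + hN N / 2 := by
          refine (dist_triangle_right y z _).trans (add_le_add hy h1)
      _ = hN N := by ring
  have h3 : ‖z‖ ≤ ‖y‖ + dist y z := by
    rw [dist_eq_norm]
    have := norm_sub_rev y z
    calc ‖z‖ = ‖y + (z - y)‖ := by congr 1; abel
      _ ≤ ‖y‖ + ‖z - y‖ := norm_add_le _ _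
      _ = ‖y‖ + ‖y - z‖ := by rw [norm_sub_rev]
  have h4 := hN_le_one N
  linarith

theorem measurable_haarSign (k : ℤ) (n : ℕ) : Measurable (haarSign k n) := by
  unfold haarSign
  exact Measurable.ite measurableSet_Ico measurable_const
    (Measurable.ite measurableSet_Ico measurable_const measurable_const)

theorem abs_haarSign_le (k : ℤ) (n : ℕ) (x : ℝ) : |haarSign k n x| ≤ 1 := by
  unfold haarSign
  split_ifs <;> simp

theorem interval_subset (k : ℤ) (n : ℕ) : interval k n ⊆ Ici (0 : ℝ) := by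
  intro x hx
  exact le_trans (by positivity) hx.1

theorem ae_pair {P : ℝ × ℝ → Prop} (hP : ∀ᵐ z : ℝ × ℝ, z ∈ Ici (0 : ℝ) ×ˢ Ici (0 : ℝ) → P z)
    {I J : Set ℝ} (hI : MeasurableSet I) (hJ : MeasurableSet J) (hI0 : I ⊆ Ici 0)
    (hJ0 : J ⊆ Ici 0) :
    ∀ᵐ x ∂(volume.restrict I), ∀ᵐ y ∂(volume.restrict J), P (x, y) := by
  apply Measure.ae_ae_of_ae_prod
  rw [Measure.prod_restrict, ae_restrict_iff' (hI.prod hJ), ← Measure.volume_eq_prod]
  filter_upwards [hP] with z hz hzm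
  exact hz ⟨hI0 hzm.1, hJ0 hzm.2⟩

theorem ae_pair_swap {P : ℝ × ℝ → Prop}
    (hP : ∀ᵐ z : ℝ × ℝ, z ∈ Ici (0 : ℝ) ×ˢ Ici (0 : ℝ) → P z)
    {I J : Set ℝ} (hI : MeasurableSet I) (hJ : MeasurableSet J) (hI0 : I ⊆ Ici 0)
    (hJ0 : J ⊆ Ici 0) :
    ∀ᵐ x ∂(volume.restrict I), ∀ᵐ y ∂(volume.restrict J), P (y, x) := by
  have h1 : ∀ᵐ z : ℝ × ℝ, z ∈ Ici (0 : ℝ) ×ˢ Ici (0 : ℝ) → P z.swap := by
    have h2 := (Measure.measurePreserving_swap (μ := (volume : Measure ℝ))
      (ν := (volume : Measure ℝ))).quasiMeasurePreserving.ae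
      (p := fun z => z ∈ Ici (0 : ℝ) ×ˢ Ici (0 : ℝ) → P z) (by
        rw [← Measure.volume_eq_prod]; exact hP)
    rw [← Measure.volume_eq_prod] at h2
    filter_upwards [h2] with z hz hzm
    exact hz ⟨hzm.2, hzm.1⟩
  exact ae_pair (P := fun z => P z.swap) h1 hI hJ hI0 hJ0

theorem measurableSet_interval (k : ℤ) (n : ℕ) : MeasurableSet (interval k n) := by
  unfold interval; exact measurableSet_Ico

instance (k : ℤ) (n : ℕ) : IsFiniteMeasure (volume.restrict (interval k n)) := by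
  constructor
  rw [Measure.restrict_apply_univ]
  unfold interval
  simp

/-- convergence of the local forms -/
theorem tendsto_localForm {F₀ F₁ F₂ : ℝ × ℝ → ℝ} (h0 : LocallyIntegrable F₀ volume)
    (h1 : LocallyIntegrable F₁ volume) (h2 : LocallyIntegrable F₂ volume) {M : ℝ}
    (hM : ∀ z, |F₀ z| ≤ M ∧ |F₁ z| ≤ M ∧ |F₂ z| ≤ M) (k : ℤ) (n0 n1 n2 : ℕ) :
    Tendsto (fun N => localForm k n0 n1 n2 (apx F₀ N) (apx F₁ N) (apx F₂ N)) atTop
      (𝓝 (localForm k n0 n1 n2 F₀ F₁ F₂)) := by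
  have hM0 : 0 ≤ M := (abs_nonneg _).trans (hM 0).1
  unfold localForm
  refine Tendsto.const_mul _ ?_
  refine tendsto_triple (μ0 := volume.restrict (interval k n0))
    (μ1 := volume.restrict (interval k n1)) (μ2 := volume.restrict (interval k n2))
    (fun N x y z => apx F₀ N (x, y) * apx F₁ N (y, z) * apx F₂ N (z, x) *
      (haarSign k n0 x * haarSign k n1 y * haarSign k n2 z))
    (fun x y z => F₀ (x, y) * F₁ (y, z) * F₂ (z, x) *
      (haarSign k n0 x * haarSign k n1 y * haarSign k n2 z)) (M * M * M * (1 * 1 * 1)) ?_ ?_ ?_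
  · intro N
    have mx : Measurable (fun p : ℝ × ℝ × ℝ => p.1) := measurable_fst
    have my : Measurable (fun p : ℝ × ℝ × ℝ => p.2.1) := measurable_fst.comp measurable_snd
    have mz : Measurable (fun p : ℝ × ℝ × ℝ => p.2.2) := measurable_snd.comp measurable_snd
    exact ((((measurable_apx F₀ N).comp (mx.prodMk my)).mul
      ((measurable_apx F₁ N).comp (my.prodMk mz))).mul
      ((measurable_apx F₂ N).comp (mz.prodMk mx))).mul
      ((((measurable_haarSign k n0).comp mx).mul ((measurable_haarSign k n1).comp my)).mul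
        ((measurable_haarSign k n2).comp mz))
  · intro N x y z
    simp only [abs_mul]
    gcongr
    · exact abs_apx_le (fun z => (hM z).1) N _
    · exact abs_apx_le (fun z => (hM z).2.1) N _
    · exact abs_apx_le (fun z => (hM z).2.2) N _
    · exact abs_haarSign_le _ _ _
    · exact abs_haarSign_le _ _ _
    · exact abs_haarSign_le _ _ _
  · have i0 := interval_subset k n0
    have i1 := interval_subset k n1
    have i2 := interval_subset k n2
    have m0 := measurableSet_interval k n0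
    have m1 := measurableSet_interval k n1
    have m2 := measurableSet_interval k n2
    filter_upwards [ae_pair (tendsto_apx h0) m0 m1 i0 i1,
      ae_pair_swap (tendsto_apx h2) m0 m2 i0 i2] with x hx hx2
    filter_upwards [hx, ae_pair (tendsto_apx h1) m1 m2 i1 i2] with y hy hy2
    filter_upwards [hy2, hx2] with z hz hz2
    exact ((hy.mul hz).mul hz2).mul tendsto_const_nhds

theorem integrableOn_cube {G : ℝ × ℝ → ℝ} (hG : Measurable G) {M R : ℝ}
    (hM : ∀ z, |G z| ≤ M)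
    (hR : ∀ z ∈ Ici (0 : ℝ) ×ˢ Ici (0 : ℝ), R < ‖z‖ → G z = 0) :
    IntegrableOn (fun z => |G z| ^ 3) (Ici (0 : ℝ) ×ˢ Ici (0 : ℝ)) := by
  have hM0 : 0 ≤ M := (abs_nonneg _).trans (hM 0)
  have hb : Integrable (indicator (Metric.closedBall (0 : ℝ × ℝ) R) (fun _ => M ^ 3))
      (volume.restrict (Ici (0 : ℝ) ×ˢ Ici (0 : ℝ))) := by
    refine Integrable.integrableOn ?_
    rw [integrable_indicator_iff Metric.isClosed_closedBall.measurableSet]
    exact integrableOn_const (measure_closedBall_lt_top.ne)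
  refine hb.mono' ((hG.norm.pow_const 3).aestronglyMeasurable) ?_
  rw [ae_restrict_iff' (measurableSet_Ici.prod measurableSet_Ici)]
  refine Eventually.of_forall fun z hz => ?_
  rw [Real.norm_eq_abs, abs_of_nonneg (by positivity)]
  by_cases hzR : z ∈ Metric.closedBall (0 : ℝ × ℝ) R
  · rw [indicator_of_mem hzR]
    exact pow_le_pow_left₀ (abs_nonneg _) (hM z) 3
  · rw [indicator_of_notMem hzR]
    rw [mem_closedBall_zero_iff, not_le] at hzR
    rw [hR z hz hzR]; simp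

/-- convergence of the cubes -/
theorem tendsto_cube {F : ℝ × ℝ → ℝ} (hF : LocallyIntegrable F volume) {M R : ℝ}
    (hM : ∀ z, |F z| ≤ M) (hR : ∀ z, R < ‖z‖ → F z = 0) :
    Tendsto (fun N => ∫ z in Ici (0 : ℝ) ×ˢ Ici (0 : ℝ), |apx F N z| ^ 3) atTop
      (𝓝 (∫ z in Ici (0 : ℝ) ×ˢ Ici (0 : ℝ), |F z| ^ 3)) := by
  have hM0 : 0 ≤ M := (abs_nonneg _).trans (hM 0)
  refine tendsto_integral_of_dominated_convergence
    (indicator (Metric.closedBall (0 : ℝ × ℝ) (R + 1)) (fun _ => M ^ 3))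
    (fun N => (((measurable_apx F N).norm.pow_const 3).aestronglyMeasurable)) ?_ ?_ ?_
  · refine Integrable.integrableOn ?_
    rw [integrable_indicator_iff Metric.isClosed_closedBall.measurableSet]
    exact integrableOn_const (measure_closedBall_lt_top.ne)
  · intro N
    rw [ae_restrict_iff' (measurableSet_Ici.prod measurableSet_Ici)]
    refine Eventually.of_forall fun z hz => ?_
    rw [Real.norm_eq_abs, abs_of_nonneg (by positivity)]
    by_cases hzR : z ∈ Metric.closedBall (0 : ℝ × ℝ) (R + 1)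
    · rw [indicator_of_mem hzR]
      exact pow_le_pow_left₀ (abs_nonneg _) (abs_apx_le hM N z) 3
    · rw [indicator_of_notMem hzR]
      rw [mem_closedBall_zero_iff, not_le] at hzR
      rw [apx_eq_zero hR N hz hzR]; simp
  · rw [ae_restrict_iff' (measurableSet_Ici.prod measurableSet_Ici)]
    filter_upwards [tendsto_apx hF] with z hz hzQ
    exact ((hz hzQ).abs).pow 3

end Crest.Agent.R072.DyadicCont
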