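import Crest.Prelude.Def_DyadicTriangular
import Crest.Agent.R072.Dyadic
import Crest.Agent.R072.DyadicContB

/-! R072: S0097 from the discrete dyadic theorem `Dyadic.dyadic_discrete_homog`.

The `Dyadic.lean` import is only used for the definition `dform` and the statement of
`dyadic_discrete_homog` (constant 27 — plenty of room below 40). -/

set_option autoImplicit false

namespace Crest.Agent.R072.DyadicCont

open MeasureTheory Set Filter Topology Crest.AnalysisR.TriangularDyadic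

theorem localForm_apx {k : ℤ} {N K : ℕ} (hK : k + N = K) (hK1 : 1 ≤ K) (n0 n1 n2 : ℕ)
    (F₀ F₁ F₂ : ℝ × ℝ → ℝ) :
    localForm k n0 n1 n2 (apx F₀ N) (apx F₁ N) (apx F₂ N) =
      hN N ^ 2 * Dyadic.dform (avg F₀ (hN N)) (avg F₁ (hN N)) (avg F₂ (hN N)) K n0 n1 n2 := by
  unfold apx hN
  rw [localForm_stepf hK hK1]
  rfl

theorem rpow_third {a b c h : ℝ} (ha : 0 ≤ a) (hb : 0 ≤ b) (hc : 0 ≤ c) (hh : 0 ≤ h) :
    h ^ 2 * (27 * a ^ (1 / 3 : ℝ) * b ^ (1 / 3 : ℝ) * c ^ (1 / 3 : ℝ)) =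
      27 * (h ^ 2 * a) ^ (1 / 3 : ℝ) * (h ^ 2 * b) ^ (1 / 3 : ℝ) * (h ^ 2 * c) ^ (1 / 3 : ℝ) := by
  have h2 : 0 ≤ h ^ 2 := by positivity
  rw [Real.mul_rpow h2 ha, Real.mul_rpow h2 hb, Real.mul_rpow h2 hc]
  have h3 : ((h ^ 2) ^ (1 / 3 : ℝ)) * ((h ^ 2) ^ (1 / 3 : ℝ)) * ((h ^ 2) ^ (1 / 3 : ℝ)) = h ^ 2 := by
    have : ((h ^ 2) ^ (1 / 3 : ℝ)) ^ 3 = h ^ 2 := by
      rw [← Real.rpow_natCast, ← Real.rpow_mul h2]; norm_num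
    exact (by ring : ((h ^ 2) ^ (1 / 3 : ℝ)) * ((h ^ 2) ^ (1 / 3 : ℝ)) * ((h ^ 2) ^ (1 / 3 : ℝ)) =
      ((h ^ 2) ^ (1 / 3 : ℝ)) ^ 3).trans this
  calc h ^ 2 * (27 * a ^ (1 / 3 : ℝ) * b ^ (1 / 3 : ℝ) * c ^ (1 / 3 : ℝ))
      = (((h ^ 2) ^ (1 / 3 : ℝ)) * ((h ^ 2) ^ (1 / 3 : ℝ)) * ((h ^ 2) ^ (1 / 3 : ℝ))) *
        (27 * a ^ (1 / 3 : ℝ) * b ^ (1 / 3 : ℝ) * c ^ (1 / 3 : ℝ)) := by rw [h3]
    _ = _ := by ring

/-- sum over a finite family of nodes is bounded by the full sum -/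
theorem sum_dform_le (g0 g1 g2 : ℕ → ℕ → ℝ) (𝓘 : Finset (ℤ × ℕ × ℕ)) (N m : ℕ)
    (h1 : ∀ i ∈ 𝓘, 1 ≤ i.1 + N)
    (hm : ∀ i ∈ 𝓘, (i.1 + N).toNat ≤ m ∧ i.2.1 < 2 ^ (m - (i.1 + N).toNat) ∧
      i.2.2 < 2 ^ (m - (i.1 + N).toNat)) :
    ∑ i ∈ 𝓘, |Dyadic.dform g0 g1 g2 (i.1 + N).toNat i.2.1 i.2.2 (i.2.1 ^^^ i.2.2)| ≤
    ∑ k ∈ Finset.range m, ∑ n0 ∈ Finset.range (2 ^ (m - (k + 1))),
      ∑ n1 ∈ Finset.range (2 ^ (m - (k + 1))),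
      |Dyadic.dform g0 g1 g2 (k + 1) n0 n1 (n0 ^^^ n1)| := by
  classical
  set T : Finset (Σ _ : ℕ, ℕ × ℕ) := (Finset.range m).sigma
    (fun k => Finset.range (2 ^ (m - (k + 1))) ×ˢ Finset.range (2 ^ (m - (k + 1)))) with hT
  set f : (Σ _ : ℕ, ℕ × ℕ) → ℝ := fun s =>
    |Dyadic.dform g0 g1 g2 (s.1 + 1) s.2.1 s.2.2 (s.2.1 ^^^ s.2.2)| with hf
  set e : ℤ × ℕ × ℕ → (Σ _ : ℕ, ℕ × ℕ) := fun i => ⟨(i.1 + N).toNat - 1, (i.2.1, i.2.2)⟩ with he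
  have hR : ∑ k ∈ Finset.range m, ∑ n0 ∈ Finset.range (2 ^ (m - (k + 1))),
      ∑ n1 ∈ Finset.range (2 ^ (m - (k + 1))),
      |Dyadic.dform g0 g1 g2 (k + 1) n0 n1 (n0 ^^^ n1)| = ∑ s ∈ T, f s := by
    rw [hT, Finset.sum_sigma]
    refine Finset.sum_congr rfl fun k _ => ?_
    rw [Finset.sum_product]
  have hinj : Set.InjOn e (𝓘 : Set (ℤ × ℕ × ℕ)) := by
    rintro ⟨k, n0, n1⟩ hi ⟨k', n0', n1'⟩ hi' heq
    have a1 := h1 _ hi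
    have a2 := h1 _ hi'
    simp only [he, Sigma.mk.injEq, heq_eq_eq, Prod.mk.injEq] at heq a1 a2
    obtain ⟨b1, b2, b3⟩ := heq
    have : k = k' := by omega
    simp [this, b2, b3]
  have hL : ∑ i ∈ 𝓘, |Dyadic.dform g0 g1 g2 (i.1 + N).toNat i.2.1 i.2.2 (i.2.1 ^^^ i.2.2)| =
      ∑ s ∈ 𝓘.image e, f s := by
    rw [Finset.sum_image hinj]
    refine Finset.sum_congr rfl fun i hi => ?_
    have a1 := h1 i hi
    simp only [hf, he]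
    rw [Nat.sub_add_cancel (by omega)]
  rw [hR, hL]
  refine Finset.sum_le_sum_of_subset_of_nonneg ?_ (fun s _ _ => abs_nonneg _)
  intro s hs
  rw [Finset.mem_image] at hs
  obtain ⟨i, hi, rfl⟩ := hs
  have a1 := h1 i hi
  obtain ⟨b1, b2, b3⟩ := hm i hi
  simp only [hT, he, Finset.mem_sigma, Finset.mem_range, Finset.mem_product]
  rw [Nat.sub_add_cancel (by omega)]
  exact ⟨by omega, b2, b3⟩

/-- the inequality for the approximations -/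
theorem apx_ineq {F₀ F₁ F₂ : ℝ × ℝ → ℝ} {M R : ℝ}
    (hM : ∀ z, |F₀ z| ≤ M ∧ |F₁ z| ≤ M ∧ |F₂ z| ≤ M)
    (hR : ∀ z, R < ‖z‖ → F₀ z = 0 ∧ F₁ z = 0 ∧ F₂ z = 0)
    (𝓘 : Finset (ℤ × ℕ × ℕ)) (N : ℕ) (h1 : ∀ i ∈ 𝓘, 1 ≤ i.1 + N) :
    ∑ i ∈ 𝓘, |localForm i.1 i.2.1 i.2.2 (i.2.1 ^^^ i.2.2) (apx F₀ N) (apx F₁ N) (apx F₂ N)| ≤
      27 * (∫ z in Ici (0 : ℝ) ×ˢ Ici (0 : ℝ), |apx F₀ N z| ^ 3) ^ (1 / 3 : ℝ) *
        (∫ z in Ici (0 : ℝ) ×ˢ Ici (0 : ℝ), |apx F₁ N z| ^ 3) ^ (1 / 3 : ℝ) *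
        (∫ z in Ici (0 : ℝ) ×ˢ Ici (0 : ℝ), |apx F₂ N z| ^ 3) ^ (1 / 3 : ℝ) := by
  classical
  set m0 : ℕ := ∑ i ∈ 𝓘, (i.1.toNat + i.2.1 + i.2.2) with hm0
  set m : ℕ := N + m0 with hm
  have hm1 : ∀ i ∈ 𝓘, (i.1 + N).toNat ≤ m ∧ i.2.1 < 2 ^ (m - (i.1 + N).toNat) ∧
      i.2.2 < 2 ^ (m - (i.1 + N).toNat) := by
    intro i hi
    have a1 : i.1.toNat + i.2.1 + i.2.2 ≤ m0 :=
      Finset.single_le_sum (f := fun i : ℤ × ℕ × ℕ => i.1.toNat + i.2.1 + i.2.2)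
        (fun _ _ => Nat.zero_le _) hi
    have a2 : (i.1 + N).toNat ≤ i.1.toNat + N := by omega
    have a3 : i.2.1 ≤ m - (i.1 + N).toNat := by omega
    have a4 : i.2.2 ≤ m - (i.1 + N).toNat := by omega
    exact ⟨by omega, lt_of_lt_of_le Nat.lt_two_pow_self (Nat.pow_le_pow_right (by norm_num) a3),
      lt_of_lt_of_le Nat.lt_two_pow_self (Nat.pow_le_pow_right (by norm_num) a4)⟩
  have hpos := hN_pos N
  have hcube : ∀ F : ℝ × ℝ → ℝ, (∀ z, |F z| ≤ M) → (∀ z, R < ‖z‖ → F z = 0) →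
      hN N ^ 2 * (∑ x ∈ Finset.range (2 ^ m), ∑ y ∈ Finset.range (2 ^ m), |avg F (hN N) x y| ^ 3) ≤
      ∫ z in Ici (0 : ℝ) ×ˢ Ici (0 : ℝ), |apx F N z| ^ 3 := by
    intro F hFM hFR
    have hint := integrableOn_cube (measurable_apx F N) (R := R + 1) (abs_apx_le hFM N)
      (fun z hz hz2 => apx_eq_zero hFR N hz hz2)
    have hsub : Ico (0 : ℝ) (hN N * ((2 ^ m : ℕ) : ℝ)) ×ˢ Ico (0 : ℝ) (hN N * ((2 ^ m : ℕ) : ℝ)) ⊆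
        Ici (0 : ℝ) ×ˢ Ici (0 : ℝ) := by
      intro z hz
      exact ⟨hz.1.1, hz.2.1⟩
    rw [← integral_stepf_sq (hN N) hpos (avg F (hN N)) (2 ^ m) (hint.mono_set hsub)]
    exact setIntegral_mono_set hint (Eventually.of_forall fun z => by positivity)
      (Eventually.of_forall hsub)
  have step1 : ∑ i ∈ 𝓘, |localForm i.1 i.2.1 i.2.2 (i.2.1 ^^^ i.2.2) (apx F₀ N) (apx F₁ N)
      (apx F₂ N)| = hN N ^ 2 * ∑ i ∈ 𝓘, |Dyadic.dform (avg F₀ (hN N)) (avg F₁ (hN N))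
        (avg F₂ (hN N)) (i.1 + N).toNat i.2.1 i.2.2 (i.2.1 ^^^ i.2.2)| := by
    rw [Finset.mul_sum]
    refine Finset.sum_congr rfl fun i hi => ?_
    have a1 := h1 i hi
    rw [localForm_apx (K := (i.1 + N).toNat) (by omega) (by omega), abs_mul,
      abs_of_nonneg (by positivity : (0 : ℝ) ≤ hN N ^ 2)]
  rw [step1]
  refine (mul_le_mul_of_nonneg_left ((sum_dform_le _ _ _ 𝓘 N m h1 hm1).trans
    (Dyadic.dyadic_discrete_homog _ _ _ m)) (by positivity)).trans ?_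
  have hS : ∀ F : ℝ × ℝ → ℝ, 0 ≤ ∑ x ∈ Finset.range (2 ^ m), ∑ y ∈ Finset.range (2 ^ m),
      |avg F (hN N) x y| ^ 3 := fun F =>
    Finset.sum_nonneg fun _ _ => Finset.sum_nonneg fun _ _ => by positivity
  rw [rpow_third (hS F₀) (hS F₁) (hS F₂) hpos.le]
  have r0 := Real.rpow_le_rpow (mul_nonneg (by positivity) (hS F₀))
    (hcube F₀ (fun z => (hM z).1) (fun z hz => (hR z hz).1)) (by norm_num : (0 : ℝ) ≤ 1 / 3)
  have r1 := Real.rpow_le_rpow (mul_nonneg (by positivity) (hS F₁))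
    (hcube F₁ (fun z => (hM z).2.1) (fun z hz => (hR z hz).2.1)) (by norm_num : (0 : ℝ) ≤ 1 / 3)
  have r2 := Real.rpow_le_rpow (mul_nonneg (by positivity) (hS F₂))
    (hcube F₂ (fun z => (hM z).2.2) (fun z hz => (hR z hz).2.2)) (by norm_num : (0 : ℝ) ≤ 1 / 3)
  have p0 : 0 ≤ (hN N ^ 2 * ∑ x ∈ Finset.range (2 ^ m), ∑ y ∈ Finset.range (2 ^ m),
      |avg F₀ (hN N) x y| ^ 3) ^ (1 / 3 : ℝ) :=
    Real.rpow_nonneg (mul_nonneg (by positivity) (hS F₀)) _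
  have p1 : 0 ≤ (hN N ^ 2 * ∑ x ∈ Finset.range (2 ^ m), ∑ y ∈ Finset.range (2 ^ m),
      |avg F₁ (hN N) x y| ^ 3) ^ (1 / 3 : ℝ) :=
    Real.rpow_nonneg (mul_nonneg (by positivity) (hS F₁)) _
  have p2 : 0 ≤ (hN N ^ 2 * ∑ x ∈ Finset.range (2 ^ m), ∑ y ∈ Finset.range (2 ^ m),
      |avg F₂ (hN N) x y| ^ 3) ^ (1 / 3 : ℝ) :=
    Real.rpow_nonneg (mul_nonneg (by positivity) (hS F₂)) _
  exact mul_le_mul (mul_le_mul (mul_le_mul_of_nonneg_left r0 (by norm_num)) r1 p1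
    (mul_nonneg (by norm_num) (p0.trans r0))) r2 p2
    (mul_nonneg (mul_nonneg (by norm_num) (p0.trans r0)) (p1.trans r1))

theorem zero_outside {F : ℝ × ℝ → ℝ} (hc : HasCompactSupport F) :
    ∃ R : ℝ, ∀ z, R < ‖z‖ → F z = 0 := by
  obtain ⟨R, hR⟩ := hc.isCompact.isBounded.subset_closedBall (0 : ℝ × ℝ)
  refine ⟨R, fun z hz => ?_⟩
  by_contra hne
  have h1 : z ∈ tsupport F := subset_tsupport F hne
  have h2 := hR h1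
  rw [mem_closedBall_zero_iff] at h2
  linarith

theorem locInt {F : ℝ × ℝ → ℝ} (hF : Measurable F) {M : ℝ} (hM : ∀ z, |F z| ≤ M) :
    LocallyIntegrable F volume := by
  have h1 : LocallyIntegrable (fun _ : ℝ × ℝ => M) volume := locallyIntegrable_const M
  refine h1.mono hF.aestronglyMeasurable (Eventually.of_forall fun z => ?_)
  rw [Real.norm_eq_abs, Real.norm_eq_abs]
  exact (hM z).trans (le_abs_self M)

/-- S0097, with constant 27 in place of 40 -/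
theorem dyadic_cont
    (F₀ F₁ F₂ : ℝ × ℝ → ℝ) (hF₀ : Measurable F₀) (hF₁ : Measurable F₁) (hF₂ : Measurable F₂)
    (hb : ∃ M : ℝ, ∀ z, abs (F₀ z) ≤ M ∧ abs (F₁ z) ≤ M ∧ abs (F₂ z) ≤ M)
    (hc₀ : HasCompactSupport F₀) (hc₁ : HasCompactSupport F₁) (hc₂ : HasCompactSupport F₂)
    (𝓘 : Finset (ℤ × ℕ × ℕ)) :
    ∑ i ∈ 𝓘, abs (localForm i.1 i.2.1 i.2.2 (i.2.1 ^^^ i.2.2) F₀ F₁ F₂) ≤
      27 * (∫ z in Set.Ici 0 ×ˢ Set.Ici 0, abs (F₀ z) ^ 3) ^ (1 / 3 : ℝ) *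
        (∫ z in Set.Ici 0 ×ˢ Set.Ici 0, abs (F₁ z) ^ 3) ^ (1 / 3 : ℝ) *
        (∫ z in Set.Ici 0 ×ˢ Set.Ici 0, abs (F₂ z) ^ 3) ^ (1 / 3 : ℝ) := by
  obtain ⟨M, hM⟩ := hb
  obtain ⟨R0, hR0⟩ := zero_outside hc₀
  obtain ⟨R1, hR1⟩ := zero_outside hc₁
  obtain ⟨R2, hR2⟩ := zero_outside hc₂
  set R : ℝ := max R0 (max R1 R2) with hRdef
  have hR : ∀ z : ℝ × ℝ, R < ‖z‖ → F₀ z = 0 ∧ F₁ z = 0 ∧ F₂ z = 0 := by
    intro z hz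
    have b0 : R0 ≤ R := le_max_left _ _
    have b1 : R1 ≤ R := (le_max_left _ _).trans (le_max_right _ _)
    have b2 : R2 ≤ R := (le_max_right _ _).trans (le_max_right _ _)
    exact ⟨hR0 z (by linarith), hR1 z (by linarith), hR2 z (by linarith)⟩
  have l0 := locInt hF₀ (fun z => (hM z).1)
  have l1 := locInt hF₁ (fun z => (hM z).2.1)
  have l2 := locInt hF₂ (fun z => (hM z).2.2)
  -- left side
  have tL : Tendsto (fun N => ∑ i ∈ 𝓘, |localForm i.1 i.2.1 i.2.2 (i.2.1 ^^^ i.2.2)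
      (apx F₀ N) (apx F₁ N) (apx F₂ N)|) atTop
      (𝓝 (∑ i ∈ 𝓘, |localForm i.1 i.2.1 i.2.2 (i.2.1 ^^^ i.2.2) F₀ F₁ F₂|)) :=
    tendsto_finsetSum _ fun i _ => (tendsto_localForm l0 l1 l2 hM _ _ _ _).abs
  have c0 := (tendsto_cube l0 (fun z => (hM z).1) (fun z hz => (hR z hz).1)).rpow_const
    (p := (1 / 3 : ℝ)) (Or.inr (by norm_num))
  have c1 := (tendsto_cube l1 (fun z => (hM z).2.1) (fun z hz => (hR z hz).2.1)).rpow_const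
    (p := (1 / 3 : ℝ)) (Or.inr (by norm_num))
  have c2 := (tendsto_cube l2 (fun z => (hM z).2.2) (fun z hz => (hR z hz).2.2)).rpow_const
    (p := (1 / 3 : ℝ)) (Or.inr (by norm_num))
  have tR := ((c0.const_mul 27).mul c1).mul c2
  refine le_of_tendsto_of_tendsto tL tR ?_
  -- eventually all scales are positive
  have hev : ∀ᶠ N : ℕ in atTop, ∀ i ∈ 𝓘, 1 ≤ i.1 + (N : ℤ) := by
    rw [Filter.eventually_atTop]
    refine ⟨∑ i ∈ 𝓘, ((-i.1).toNat + 1), fun N hN' i hi => ?_⟩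
    have a1 : (-i.1).toNat + 1 ≤ ∑ i ∈ 𝓘, ((-i.1).toNat + 1) :=
      Finset.single_le_sum (f := fun i : ℤ × ℕ × ℕ => (-i.1).toNat + 1)
        (fun _ _ => Nat.zero_le _) hi
    omega
  filter_upwards [hev] with N hN'
  exact apx_ineq hM hR 𝓘 N hN'

end Crest.Agent.R072.DyadicCont
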