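import Mathlib
import Crest.Prelude.Def_DyadicTriangular

/-! R072: analytic preliminaries for `DyadicCont.lean` (step functions on the dyadic grid,
dominated convergence for the local form, averages over dyadic squares). -/

set_option autoImplicit false

namespace Crest.Agent.R072.DyadicCont

open MeasureTheory Set Filter Topology Crest.AnalysisR.TriangularDyadic

/-- integral of a function of the floor over a union of `n` cells of length `h`. -/
theorem integral_floor_cells' (h : ℝ) (hh : 0 < h) (φ : ℕ → ℝ) (A n : ℕ) :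
    IntegrableOn (fun x : ℝ => φ ⌊x / h⌋₊) (Ico (h * A) (h * ((A + n : ℕ) : ℝ))) ∧
    ∫ x in Ico (h * A) (h * ((A + n : ℕ) : ℝ)), φ ⌊x / h⌋₊
      = h * ∑ i ∈ Finset.range n, φ (A + i) := by
  induction n with
  | zero => simp
  | succ n ih =>
    obtain ⟨ih1, ih2⟩ := ih
    have h1 : Ico (h * (A : ℝ)) (h * ((A + (n + 1) : ℕ) : ℝ)) =
        Ico (h * (A : ℝ)) (h * ((A + n : ℕ) : ℝ)) ∪
          Ico (h * ((A + n : ℕ) : ℝ)) (h * ((A + (n + 1) : ℕ) : ℝ)) := by
      rw [Ico_union_Ico_eq_Ico]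
      · exact mul_le_mul_of_nonneg_left (by exact_mod_cast Nat.le_add_right A n) hh.le
      · exact mul_le_mul_of_nonneg_left (by exact_mod_cast Nat.le_succ (A + n)) hh.le
    have hd : Disjoint (Ico (h * (A : ℝ)) (h * ((A + n : ℕ) : ℝ)))
        (Ico (h * ((A + n : ℕ) : ℝ)) (h * ((A + (n + 1) : ℕ) : ℝ))) := by
      rw [Set.disjoint_left]
      intro x hx hx'
      exact absurd hx.2 (not_lt.mpr hx'.1)
    have hfl : ∀ x ∈ Ico (h * ((A + n : ℕ) : ℝ)) (h * ((A + (n + 1) : ℕ) : ℝ)),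
        ⌊x / h⌋₊ = A + n := by
      intro x hx
      have hx0 : 0 ≤ x / h := by
        apply div_nonneg _ hh.le
        exact le_trans (by positivity) hx.1
      rw [Nat.floor_eq_iff hx0]
      constructor
      · rw [le_div_iff₀ hh, mul_comm]; exact hx.1
      · rw [div_lt_iff₀ hh, mul_comm]
        have := hx.2
        push_cast at this ⊢
        rw [add_assoc]; exact this
    have hc : EqOn (fun x : ℝ => φ ⌊x / h⌋₊) (fun _ => φ (A + n))
        (Ico (h * ((A + n : ℕ) : ℝ)) (h * ((A + (n + 1) : ℕ) : ℝ))) := by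
      intro x hx
      simp only
      rw [hfl x hx]
    have hi2 : IntegrableOn (fun x : ℝ => φ ⌊x / h⌋₊)
        (Ico (h * ((A + n : ℕ) : ℝ)) (h * ((A + (n + 1) : ℕ) : ℝ))) := by
      refine (integrableOn_congr_fun hc measurableSet_Ico).mpr ?_
      exact integrableOn_const (by simp)
    refine ⟨by rw [h1]; exact ih1.union hi2, ?_⟩
    rw [h1, setIntegral_union hd measurableSet_Ico ih1 hi2, ih2,
      setIntegral_congr_fun measurableSet_Ico hc, setIntegral_const,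
      Real.volume_real_Ico_of_le
        (mul_le_mul_of_nonneg_left (by exact_mod_cast Nat.le_succ (A + n)) hh.le),
      Finset.sum_range_succ, smul_eq_mul]
    push_cast
    ring

theorem integral_floor_cells (h : ℝ) (hh : 0 < h) (φ : ℕ → ℝ) (A n : ℕ) :
    ∫ x in Ico (h * A) (h * ((A + n : ℕ) : ℝ)), φ ⌊x / h⌋₊
      = h * ∑ i ∈ Finset.range n, φ (A + i) := (integral_floor_cells' h hh φ A n).2

/-- the step size -/
theorem zpow_split {k : ℤ} {N K : ℕ} (hK : k + N = K) :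
    (2 : ℝ) ^ k = (2 : ℝ) ^ (-(N : ℤ)) * 2 ^ K := by
  have : k = -(N : ℤ) + (K : ℤ) := by omega
  rw [this, zpow_add₀ (by norm_num), zpow_natCast]

theorem interval_eq {k : ℤ} {N K : ℕ} (hK : k + N = K) (n : ℕ) :
    interval k n = Ico ((2 : ℝ) ^ (-(N : ℤ)) * ((2 ^ K * n : ℕ) : ℝ))
      ((2 : ℝ) ^ (-(N : ℤ)) * ((2 ^ K * n + 2 ^ K : ℕ) : ℝ)) := by
  unfold interval
  rw [zpow_split hK]
  push_cast
  congr 1 <;> ring

/-- discrete Haar sign -/
noncomputable def hsA (K : ℕ) (i : ℕ) : ℝ := if i < 2 ^ (K - 1) then 1 else -1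

theorem haarSign_eq {k : ℤ} {N K : ℕ} (hK : k + N = K) (hK1 : 1 ≤ K) (n : ℕ) {x : ℝ}
    (hx : x ∈ interval k n) :
    haarSign k n x = hsA K (⌊x / (2 : ℝ) ^ (-(N : ℤ))⌋₊ - 2 ^ K * n) := by
  set h : ℝ := (2 : ℝ) ^ (-(N : ℤ)) with hh
  have hpos : 0 < h := by positivity
  have hx' := hx
  rw [interval_eq hK] at hx'
  rw [← hh] at hx'
  have h2k : (2 : ℝ) ^ k = h * 2 ^ K := zpow_split hK
  have h2k1 : (2 : ℝ) ^ (k - 1) = h * 2 ^ (K - 1) := by
    have : (k - 1) + (N : ℤ) = ((K - 1 : ℕ) : ℤ) := by omega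
    exact zpow_split this
  have hx0 : 0 ≤ x / h := by
    apply div_nonneg _ hpos.le
    exact le_trans (by positivity) hx'.1
  have hlow : 2 ^ K * n ≤ ⌊x / h⌋₊ := by
    rw [Nat.le_floor_iff hx0, le_div_iff₀ hpos, mul_comm]
    exact hx'.1
  unfold haarSign hsA
  rw [h2k, h2k1]
  by_cases hc : x < h * 2 ^ K * n + h * 2 ^ (K - 1)
  · have h1 : x ∈ Ico (h * 2 ^ K * n) (h * 2 ^ K * n + h * 2 ^ (K - 1)) := by
      refine ⟨?_, hc⟩
      have := hx'.1
      push_cast at this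
      rw [mul_assoc]; exact this
    have h2 : ⌊x / h⌋₊ - 2 ^ K * n < 2 ^ (K - 1) := by
      have : ⌊x / h⌋₊ < 2 ^ K * n + 2 ^ (K - 1) := by
        rw [Nat.floor_lt hx0, div_lt_iff₀ hpos]
        push_cast
        linarith
      omega
    rw [if_pos h1, if_pos h2]
  · have h1 : x ∉ Ico (h * 2 ^ K * n) (h * 2 ^ K * n + h * 2 ^ (K - 1)) := fun hm => hc hm.2
    have h1' : x ∈ Ico (h * 2 ^ K * n + h * 2 ^ (K - 1)) (h * 2 ^ K * (n + 1)) := by
      refine ⟨not_lt.mp hc, ?_⟩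
      have := hx'.2
      push_cast at this
      linarith
    have h2 : ¬ (⌊x / h⌋₊ - 2 ^ K * n < 2 ^ (K - 1)) := by
      have : 2 ^ K * n + 2 ^ (K - 1) ≤ ⌊x / h⌋₊ := by
        rw [Nat.le_floor_iff hx0, le_div_iff₀ hpos]
        push_cast
        linarith [not_lt.mp hc]
      omega
    rw [if_neg h1, if_pos h1', if_neg h2]

/-- the step function attached to an array -/
noncomputable def stepf (h : ℝ) (g : ℕ → ℕ → ℝ) (z : ℝ × ℝ) : ℝ := g ⌊z.1 / h⌋₊ ⌊z.2 / h⌋₊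

theorem measurable_stepf (h : ℝ) (g : ℕ → ℕ → ℝ) : Measurable (stepf h g) := by
  unfold stepf
  have h1 : Measurable (fun p : ℕ × ℕ => g p.1 p.2) := Measurable.of_discrete
  exact h1.comp ((measurable_fst.div_const h).nat_floor.prodMk (measurable_snd.div_const h).nat_floor)

theorem localForm_stepf {k : ℤ} {N K : ℕ} (hK : k + N = K) (hK1 : 1 ≤ K) (n0 n1 n2 : ℕ)
    (g0 g1 g2 : ℕ → ℕ → ℝ) :
    localForm k n0 n1 n2 (stepf ((2 : ℝ) ^ (-(N : ℤ))) g0) (stepf ((2 : ℝ) ^ (-(N : ℤ))) g1)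
      (stepf ((2 : ℝ) ^ (-(N : ℤ))) g2) =
    ((2 : ℝ) ^ (-(N : ℤ))) ^ 2 * ((1 / 2 ^ K : ℝ) *
      ∑ i0 ∈ Finset.range (2 ^ K), ∑ i1 ∈ Finset.range (2 ^ K), ∑ i2 ∈ Finset.range (2 ^ K),
        g0 (2 ^ K * n0 + i0) (2 ^ K * n1 + i1) * g1 (2 ^ K * n1 + i1) (2 ^ K * n2 + i2) *
        g2 (2 ^ K * n2 + i2) (2 ^ K * n0 + i0) * (hsA K i0 * hsA K i1 * hsA K i2)) := by
  set h : ℝ := (2 : ℝ) ^ (-(N : ℤ)) with hh
  have hpos : 0 < h := by positivity
  have h2k : (2 : ℝ) ^ k = h * 2 ^ K := zpow_split hK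
  -- the integrand as a function of the floors
  set Φ : ℕ → ℕ → ℕ → ℝ := fun a b c => g0 a b * g1 b c * g2 c a *
    (hsA K (a - 2 ^ K * n0) * hsA K (b - 2 ^ K * n1) * hsA K (c - 2 ^ K * n2)) with hΦ
  have e1 : ∀ x0 ∈ interval k n0, ∀ x1 ∈ interval k n1,
      (∫ x2 in interval k n2, stepf h g0 (x0, x1) * stepf h g1 (x1, x2) * stepf h g2 (x2, x0) *
        (haarSign k n0 x0 * haarSign k n1 x1 * haarSign k n2 x2)) =
      h * ∑ i2 ∈ Finset.range (2 ^ K), Φ ⌊x0 / h⌋₊ ⌊x1 / h⌋₊ (2 ^ K * n2 + i2) := by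
    intro x0 hx0 x1 hx1
    rw [← integral_floor_cells h hpos (fun c => Φ ⌊x0 / h⌋₊ ⌊x1 / h⌋₊ c) (2 ^ K * n2) (2 ^ K),
      ← interval_eq hK n2]
    refine setIntegral_congr_fun (by unfold interval; exact measurableSet_Ico) ?_
    intro x2 hx2
    simp only [stepf, hΦ]
    rw [haarSign_eq hK hK1 n0 hx0, haarSign_eq hK hK1 n1 hx1, haarSign_eq hK hK1 n2 hx2]
  have e2 : ∀ x0 ∈ interval k n0,
      (∫ x1 in interval k n1, ∫ x2 in interval k n2,
        stepf h g0 (x0, x1) * stepf h g1 (x1, x2) * stepf h g2 (x2, x0) *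
        (haarSign k n0 x0 * haarSign k n1 x1 * haarSign k n2 x2)) =
      h * ∑ i1 ∈ Finset.range (2 ^ K),
        (h * ∑ i2 ∈ Finset.range (2 ^ K), Φ ⌊x0 / h⌋₊ (2 ^ K * n1 + i1) (2 ^ K * n2 + i2)) := by
    intro x0 hx0
    rw [← integral_floor_cells h hpos
      (fun b => h * ∑ i2 ∈ Finset.range (2 ^ K), Φ ⌊x0 / h⌋₊ b (2 ^ K * n2 + i2))
      (2 ^ K * n1) (2 ^ K), ← interval_eq hK n1]
    refine setIntegral_congr_fun (by unfold interval; exact measurableSet_Ico) ?_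
    intro x1 hx1
    exact e1 x0 hx0 x1 hx1
  have e3 : (∫ x0 in interval k n0, ∫ x1 in interval k n1, ∫ x2 in interval k n2,
        stepf h g0 (x0, x1) * stepf h g1 (x1, x2) * stepf h g2 (x2, x0) *
        (haarSign k n0 x0 * haarSign k n1 x1 * haarSign k n2 x2)) =
      h * ∑ i0 ∈ Finset.range (2 ^ K), (h * ∑ i1 ∈ Finset.range (2 ^ K),
        (h * ∑ i2 ∈ Finset.range (2 ^ K),
          Φ (2 ^ K * n0 + i0) (2 ^ K * n1 + i1) (2 ^ K * n2 + i2))) := by
    rw [← integral_floor_cells h hpos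
      (fun a => h * ∑ i1 ∈ Finset.range (2 ^ K), (h * ∑ i2 ∈ Finset.range (2 ^ K),
          Φ a (2 ^ K * n1 + i1) (2 ^ K * n2 + i2)))
      (2 ^ K * n0) (2 ^ K), ← interval_eq hK n0]
    refine setIntegral_congr_fun (by unfold interval; exact measurableSet_Ico) ?_
    intro x0 hx0
    exact e2 x0 hx0
  unfold localForm
  rw [e3]
  have hz : (2 : ℝ) ^ (-k) = 1 / (h * 2 ^ K) := by
    rw [zpow_neg, h2k, one_div]
  rw [hz]
  simp only [hΦ, Nat.add_sub_cancel_left]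
  simp only [← Finset.mul_sum]
  field_simp

/-- square integral of a step function -/
theorem integral_stepf_sq (h : ℝ) (hh : 0 < h) (g : ℕ → ℕ → ℝ) (n : ℕ)
    (hint : IntegrableOn (fun z => |stepf h g z| ^ 3) (Ico 0 (h * n) ×ˢ Ico 0 (h * n))) :
    ∫ z in Ico 0 (h * n) ×ˢ Ico 0 (h * n), |stepf h g z| ^ 3 =
      h ^ 2 * ∑ x ∈ Finset.range n, ∑ y ∈ Finset.range n, |g x y| ^ 3 := by
  rw [Measure.volume_eq_prod] at hint ⊢
  rw [setIntegral_prod _ hint]
  have e1 : ∀ x : ℝ, (∫ y in Ico 0 (h * n), |stepf h g (x, y)| ^ 3) =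
      h * ∑ j ∈ Finset.range n, |g ⌊x / h⌋₊ j| ^ 3 := by
    intro x
    have := integral_floor_cells h hh (fun j => |g ⌊x / h⌋₊ j| ^ 3) 0 n
    simp only [Nat.cast_zero, mul_zero, zero_add] at this
    exact this
  simp only [e1]
  have := integral_floor_cells h hh (fun i => h * ∑ j ∈ Finset.range n, |g i j| ^ 3) 0 n
  simp only [Nat.cast_zero, mul_zero, zero_add] at this
  rw [this, ← Finset.mul_sum]
  ring

/-- iterated dominated convergence -/
theorem tendsto_triple {μ0 μ1 μ2 : Measure ℝ} [IsFiniteMeasure μ0] [IsFiniteMeasure μ1]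
    [IsFiniteMeasure μ2] (H : ℕ → ℝ → ℝ → ℝ → ℝ) (L : ℝ → ℝ → ℝ → ℝ) (M : ℝ)
    (hmeas : ∀ N, Measurable (fun p : ℝ × ℝ × ℝ => H N p.1 p.2.1 p.2.2))
    (hb : ∀ N x y z, |H N x y z| ≤ M)
    (hlim : ∀ᵐ x ∂μ0, ∀ᵐ y ∂μ1, ∀ᵐ z ∂μ2, Tendsto (fun N => H N x y z) atTop (𝓝 (L x y z))) :
    Tendsto (fun N => ∫ x, ∫ y, ∫ z, H N x y z ∂μ2 ∂μ1 ∂μ0) atTop
      (𝓝 (∫ x, ∫ y, ∫ z, L x y z ∂μ2 ∂μ1 ∂μ0)) := by
  have hM : 0 ≤ M := (abs_nonneg _).trans (hb 0 0 0 0)
  -- strong measurability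
  have hs3 : ∀ N, StronglyMeasurable (fun p : ℝ × ℝ × ℝ => H N p.1 p.2.1 p.2.2) :=
    fun N => (hmeas N).stronglyMeasurable
  have hs3' : ∀ N, StronglyMeasurable (fun p : (ℝ × ℝ) × ℝ => H N p.1.1 p.1.2 p.2) := by
    intro N
    exact ((hmeas N).comp (MeasurableEquiv.prodAssoc.measurable)).stronglyMeasurable
  have hs2 : ∀ N, StronglyMeasurable (fun q : ℝ × ℝ => ∫ z, H N q.1 q.2 z ∂μ2) := by
    intro N
    exact (hs3' N).integral_prod_right
  have hs1 : ∀ N, StronglyMeasurable (fun x : ℝ => ∫ y, ∫ z, H N x y z ∂μ2 ∂μ1) := by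
    intro N
    exact (hs2 N).integral_prod_right
  have bz : ∀ N x y, ‖∫ z, H N x y z ∂μ2‖ ≤ M * μ2.real univ := by
    intro N x y
    exact norm_integral_le_of_norm_le_const (Eventually.of_forall fun z => by
      rw [Real.norm_eq_abs]; exact hb N x y z)
  have by' : ∀ N x, ‖∫ y, ∫ z, H N x y z ∂μ2 ∂μ1‖ ≤ M * μ2.real univ * μ1.real univ := by
    intro N x
    exact norm_integral_le_of_norm_le_const (Eventually.of_forall fun y => bz N x y)
  refine tendsto_integral_of_dominated_convergence (fun _ => M * μ2.real univ * μ1.real univ)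
    (fun N => (hs1 N).aestronglyMeasurable) (integrable_const _)
    (fun N => Eventually.of_forall fun x => by' N x) ?_
  filter_upwards [hlim] with x hx
  refine tendsto_integral_of_dominated_convergence (fun _ => M * μ2.real univ)
    (fun N => ((hs2 N).comp_measurable (measurable_const.prodMk measurable_id)).aestronglyMeasurable)
    (integrable_const _) (fun N => Eventually.of_forall fun y => bz N x y) ?_
  filter_upwards [hx] with y hy
  refine tendsto_integral_of_dominated_convergence (fun _ => M)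
    (fun N => ((hmeas N).comp (measurable_const.prodMk
      (measurable_const.prodMk measurable_id))).aestronglyMeasurable)
    (integrable_const _) (fun N => Eventually.of_forall fun z => by
      rw [Real.norm_eq_abs]; exact hb N x y z) hy

end Crest.Agent.R072.DyadicCont
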