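import Crest.Prelude.Def_DyadicTriangular

/-! R072: convergence of the dyadic local forms under bounded a.e. convergence. -/

set_option autoImplicit false

namespace Crest.Agent.R072.DyadicLim

open MeasureTheory Crest.AnalysisR.TriangularDyadic Filter Topology

theorem norm_integral_le {α : Type*} [MeasurableSpace α] {μ : Measure α} [IsFiniteMeasure μ]
    {f : α → ℝ} {C : ℝ} (h : ∀ x, ‖f x‖ ≤ C) : ‖∫ x, f x ∂μ‖ ≤ C * μ.real Set.univ :=
  norm_integral_le_of_norm_le_const (Eventually.of_forall h)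

/-- iterated dominated convergence -/
theorem iter_tendsto {μ0 μ1 μ2 : Measure ℝ} [IsFiniteMeasure μ0] [IsFiniteMeasure μ1]
    [IsFiniteMeasure μ2] {Ψ : ℕ → ℝ → ℝ → ℝ → ℝ} {Φ : ℝ → ℝ → ℝ → ℝ}
    (hm : ∀ j, Measurable fun p : (ℝ × ℝ) × ℝ => Ψ j p.1.1 p.1.2 p.2) {C : ℝ}
    (hb : ∀ j x y z, ‖Ψ j x y z‖ ≤ C)
    (hl : ∀ᵐ x ∂μ0, ∀ᵐ y ∂μ1, ∀ᵐ z ∂μ2, Tendsto (fun j => Ψ j x y z) atTop (𝓝 (Φ x y z))) :
    Tendsto (fun j => ∫ x, ∫ y, ∫ z, Ψ j x y z ∂μ2 ∂μ1 ∂μ0) atTop
      (𝓝 (∫ x, ∫ y, ∫ z, Φ x y z ∂μ2 ∂μ1 ∂μ0)) := by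
  have m2 : ∀ j, StronglyMeasurable fun p : ℝ × ℝ => ∫ z, Ψ j p.1 p.2 z ∂μ2 := fun j =>
    (hm j).stronglyMeasurable.integral_prod_right
  have m1 : ∀ j, StronglyMeasurable fun x : ℝ => ∫ y, ∫ z, Ψ j x y z ∂μ2 ∂μ1 := fun j =>
    (m2 j).integral_prod_right
  have b2 : ∀ j x y, ‖∫ z, Ψ j x y z ∂μ2‖ ≤ C * μ2.real Set.univ := fun j x y =>
    norm_integral_le (hb j x y)
  have b1 : ∀ j x, ‖∫ y, ∫ z, Ψ j x y z ∂μ2 ∂μ1‖ ≤ C * μ2.real Set.univ * μ1.real Set.univ :=
    fun j x => norm_integral_le (b2 j x)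
  refine tendsto_integral_of_dominated_convergence
    (fun _ => C * μ2.real Set.univ * μ1.real Set.univ) (fun j => (m1 j).aestronglyMeasurable)
    (integrable_const _) (fun j => Eventually.of_forall (b1 j)) ?_
  filter_upwards [hl] with x hx
  refine tendsto_integral_of_dominated_convergence
    (fun _ => C * μ2.real Set.univ) (fun j => ?_)
    (integrable_const _) (fun j => Eventually.of_forall (b2 j x)) ?_
  · exact ((m2 j).comp_measurable measurable_prodMk_left).aestronglyMeasurable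
  filter_upwards [hx] with y hy
  refine tendsto_integral_of_dominated_convergence
    (fun _ => C) (fun j => ?_) (integrable_const _) (fun j => Eventually.of_forall (hb j x y)) hy
  exact ((hm j).comp (measurable_prodMk_left (x := (x, y)))).aestronglyMeasurable

theorem interval_subset (k : ℤ) (n : ℕ) : interval k n ⊆ Set.Ici 0 := by
  intro x hx
  have h : (0 : ℝ) ≤ (2 : ℝ) ^ k * n := by positivity
  exact h.trans hx.1

theorem measurable_haarSign (k : ℤ) (n : ℕ) : Measurable (haarSign k n) := by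
  unfold haarSign
  exact Measurable.ite measurableSet_Ico measurable_const
    (Measurable.ite measurableSet_Ico measurable_const measurable_const)

theorem abs_haarSign_le (k : ℤ) (n : ℕ) (x : ℝ) : |haarSign k n x| ≤ 1 := by
  unfold haarSign
  split_ifs <;> simp

/-- convergence of local forms -/
theorem localForm_tendsto (k : ℤ) (n0 n1 n2 : ℕ) {G0 G1 G2 : ℕ → ℝ × ℝ → ℝ}
    {F0 F1 F2 : ℝ × ℝ → ℝ} {M : ℝ}
    (m0 : ∀ j, Measurable (G0 j)) (m1 : ∀ j, Measurable (G1 j)) (m2 : ∀ j, Measurable (G2 j))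
    (b0 : ∀ j z, |G0 j z| ≤ M) (b1 : ∀ j z, |G1 j z| ≤ M) (b2 : ∀ j z, |G2 j z| ≤ M)
    (l0 : ∀ᵐ z ∂(volume.restrict (Set.Ici (0 : ℝ) ×ˢ Set.Ici (0 : ℝ))),
      Tendsto (fun j => G0 j z) atTop (𝓝 (F0 z)))
    (l1 : ∀ᵐ z ∂(volume.restrict (Set.Ici (0 : ℝ) ×ˢ Set.Ici (0 : ℝ))),
      Tendsto (fun j => G1 j z) atTop (𝓝 (F1 z)))
    (l2 : ∀ᵐ z ∂(volume.restrict (Set.Ici (0 : ℝ) ×ˢ Set.Ici (0 : ℝ))),
      Tendsto (fun j => G2 j z) atTop (𝓝 (F2 z))) :
    Tendsto (fun j => localForm k n0 n1 n2 (G0 j) (G1 j) (G2 j)) atTop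
      (𝓝 (localForm k n0 n1 n2 F0 F1 F2)) := by
  unfold localForm
  refine Tendsto.const_mul _ ?_
  have hfin : ∀ n : ℕ, IsFiniteMeasure (volume.restrict (interval k n)) := fun n => by
    unfold interval; infer_instance
  have := hfin n0
  have := hfin n1
  have := hfin n2
  have hM : 0 ≤ M := (abs_nonneg _).trans (b0 0 (0, 0))
  have down : ∀ {G : ℕ → ℝ × ℝ → ℝ} {F : ℝ × ℝ → ℝ} (a b : ℕ),
      (∀ᵐ z ∂(volume.restrict (Set.Ici (0 : ℝ) ×ˢ Set.Ici (0 : ℝ))),
        Tendsto (fun j => G j z) atTop (𝓝 (F z))) →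
      ∀ᵐ z ∂((volume.restrict (interval k a)).prod (volume.restrict (interval k b))),
        Tendsto (fun j => G j z) atTop (𝓝 (F z)) := by
    intro G F a b h
    rw [Measure.prod_restrict, ← Measure.volume_eq_prod]
    exact ae_restrict_of_ae_restrict_of_subset
      (Set.prod_mono (interval_subset k a) (interval_subset k b)) h
  have c0 := Measure.ae_ae_of_ae_prod (down n0 n1 l0)
  have c1 := Measure.ae_ae_of_ae_prod (down n1 n2 l1)
  have c2' := down n2 n0 l2
  have c2 : ∀ᵐ x ∂(volume.restrict (interval k n0)), ∀ᵐ z ∂(volume.restrict (interval k n2)),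
      Tendsto (fun j => G2 j (z, x)) atTop (𝓝 (F2 (z, x))) := by
    have h := (Measure.measurePreserving_swap (μ := volume.restrict (interval k n0))
      (ν := volume.restrict (interval k n2))).quasiMeasurePreserving.ae c2'
    exact Measure.ae_ae_of_ae_prod h
  refine iter_tendsto (C := M * M * M * 1) ?_ ?_ ?_
  · intro j
    have a1 : Measurable fun p : (ℝ × ℝ) × ℝ => G0 j (p.1.1, p.1.2) :=
      (m0 j).comp (by fun_prop)
    have a2 : Measurable fun p : (ℝ × ℝ) × ℝ => G1 j (p.1.2, p.2) :=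
      (m1 j).comp (by fun_prop)
    have a3 : Measurable fun p : (ℝ × ℝ) × ℝ => G2 j (p.2, p.1.1) :=
      (m2 j).comp (by fun_prop)
    have h1 : Measurable fun p : (ℝ × ℝ) × ℝ => haarSign k n0 p.1.1 :=
      (measurable_haarSign k n0).comp (by fun_prop)
    have h2 : Measurable fun p : (ℝ × ℝ) × ℝ => haarSign k n1 p.1.2 :=
      (measurable_haarSign k n1).comp (by fun_prop)
    have h3 : Measurable fun p : (ℝ × ℝ) × ℝ => haarSign k n2 p.2 :=
      (measurable_haarSign k n2).comp (by fun_prop)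
    exact ((a1.mul a2).mul a3).mul ((h1.mul h2).mul h3)
  · intro j x y z
    rw [norm_mul, norm_mul, norm_mul, norm_mul, norm_mul]
    simp only [Real.norm_eq_abs]
    have g0 := b0 j (x, y)
    have g1 := b1 j (y, z)
    have g2 := b2 j (z, x)
    have s0 := abs_haarSign_le k n0 x
    have s1 := abs_haarSign_le k n1 y
    have s2 := abs_haarSign_le k n2 z
    have t1 : |haarSign k n0 x| * |haarSign k n1 y| * |haarSign k n2 z| ≤ 1 :=
      mul_le_one₀ (mul_le_one₀ s0 (abs_nonneg _) s1) (abs_nonneg _) s2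
    have t2 : |G0 j (x, y)| * |G1 j (y, z)| * |G2 j (z, x)| ≤ M * M * M :=
      mul_le_mul (mul_le_mul g0 g1 (abs_nonneg _) hM) g2 (abs_nonneg _) (by positivity)
    exact mul_le_mul t2 t1 (by positivity) (by positivity)
  · filter_upwards [c0, c2] with x hx0 hx2
    filter_upwards [hx0, c1] with y hy0 hy1
    filter_upwards [hy1, hx2] with z hz1 hz2
    exact ((hy0.mul hz1).mul hz2).mul_const _

end Crest.Agent.R072.DyadicLim
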