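import Crest.Prelude.Def_DyadicTriangular
import Crest.Agent.R072.Dyadic

/-! R072: the dyadic form of step functions on the quarter plane is the discrete form. -/

set_option autoImplicit false

namespace Crest.Agent.R072.DyadicStep

open MeasureTheory Crest.AnalysisR.TriangularDyadic Crest.Agent.R072.Dyadic

/-- step function of mesh `2^{-j}` -/
noncomputable def stepF (j : ℕ) (g : ℕ → ℕ → ℝ) (z : ℝ × ℝ) : ℝ :=
  g ⌊(2 : ℝ) ^ j * z.1⌋₊ ⌊(2 : ℝ) ^ j * z.2⌋₊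

theorem floor_cell (j a : ℕ) {x : ℝ}
    (hx : x ∈ Set.Ico ((a : ℝ) / 2 ^ j) (((a : ℝ) + 1) / 2 ^ j)) : ⌊(2 : ℝ) ^ j * x⌋₊ = a := by
  have h2 : (0 : ℝ) < 2 ^ j := by positivity
  have h3 := (div_le_iff₀ h2).mp hx.1
  have h4 := (lt_div_iff₀ h2).mp hx.2
  rw [Nat.floor_eq_iff (by nlinarith [Nat.cast_nonneg (α := ℝ) a])]
  constructor <;> linarith

/-- integral of a function of the floor over a union of cells -/
theorem floor_int (j a L : ℕ) (φ : ℕ → ℝ) :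
    IntegrableOn (fun x : ℝ => φ ⌊(2 : ℝ) ^ j * x⌋₊)
      (Set.Ico ((a : ℝ) / 2 ^ j) (((a : ℝ) + L) / 2 ^ j)) ∧
    ∫ x in Set.Ico ((a : ℝ) / 2 ^ j) (((a : ℝ) + L) / 2 ^ j), φ ⌊(2 : ℝ) ^ j * x⌋₊ =
      (1 / 2 ^ j) * ∑ i ∈ Finset.range L, φ (a + i) := by
  have h2 : (0 : ℝ) < 2 ^ j := by positivity
  induction L with
  | zero => simp
  | succ L ih =>
    obtain ⟨ih1, ih2⟩ := ih
    have hle1 : (a : ℝ) / 2 ^ j ≤ ((a : ℝ) + L) / 2 ^ j := by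
      apply div_le_div_of_nonneg_right _ h2.le
      linarith [Nat.cast_nonneg (α := ℝ) L]
    have hle2 : ((a : ℝ) + L) / 2 ^ j ≤ ((a : ℝ) + L + 1) / 2 ^ j := by
      apply div_le_div_of_nonneg_right _ h2.le
      linarith
    have hU : Set.Ico ((a : ℝ) / 2 ^ j) (((a : ℝ) + (L + 1 : ℕ)) / 2 ^ j) =
        Set.Ico ((a : ℝ) / 2 ^ j) (((a : ℝ) + L) / 2 ^ j) ∪
          Set.Ico (((a : ℝ) + L) / 2 ^ j) (((a : ℝ) + L + 1) / 2 ^ j) := by
      rw [Set.Ico_union_Ico_eq_Ico hle1 hle2]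
      push_cast
      rw [add_assoc]
    have hD : Disjoint (Set.Ico ((a : ℝ) / 2 ^ j) (((a : ℝ) + L) / 2 ^ j))
        (Set.Ico (((a : ℝ) + L) / 2 ^ j) (((a : ℝ) + L + 1) / 2 ^ j)) := by
      rw [Set.Ico_disjoint_Ico]
      simp [hle1, hle2]
    have hc : Set.EqOn (fun x : ℝ => φ ⌊(2 : ℝ) ^ j * x⌋₊) (fun _ => φ (a + L))
        (Set.Ico (((a : ℝ) + L) / 2 ^ j) (((a : ℝ) + L + 1) / 2 ^ j)) := by
      intro x hx
      have hx' : x ∈ Set.Ico (((a + L : ℕ) : ℝ) / 2 ^ j) ((((a + L : ℕ) : ℝ) + 1) / 2 ^ j) := by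
        push_cast
        exact hx
      simp only [floor_cell j (a + L) hx']
    have i2 : IntegrableOn (fun x : ℝ => φ ⌊(2 : ℝ) ^ j * x⌋₊)
        (Set.Ico (((a : ℝ) + L) / 2 ^ j) (((a : ℝ) + L + 1) / 2 ^ j)) := by
      rw [integrableOn_congr_fun hc measurableSet_Ico]
      exact integrableOn_const (by simp) (by simp)
    rw [hU]
    refine ⟨ih1.union i2, ?_⟩
    rw [setIntegral_union hD measurableSet_Ico ih1 i2, ih2, setIntegral_congr_fun measurableSet_Ico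
      hc, setIntegral_const, Finset.sum_range_succ, mul_add]
    congr 1
    rw [Measure.real, Real.volume_Ico, ENNReal.toReal_ofReal (by linarith), smul_eq_mul]
    ring

theorem interval_eq (j k n : ℕ) :
    interval ((k + 1 : ℤ) - j) n =
      Set.Ico (((2 ^ (k + 1) * n : ℕ) : ℝ) / 2 ^ j)
        ((((2 ^ (k + 1) * n : ℕ) : ℝ) + (2 ^ (k + 1) : ℕ)) / 2 ^ j) := by
  unfold interval
  have h : (2 : ℝ) ^ ((k + 1 : ℤ) - j) = 2 ^ (k + 1) / 2 ^ j := by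
    rw [zpow_sub₀ (by norm_num)]
    norm_cast
  rw [h]
  push_cast
  congr 1 <;> ring

theorem int_interval (j k n : ℕ) (φ : ℕ → ℝ) :
    ∫ x in interval ((k + 1 : ℤ) - j) n, φ ⌊(2 : ℝ) ^ j * x⌋₊ =
      (1 / 2 ^ j) * ∑ i ∈ Finset.range (2 ^ (k + 1)), φ (2 ^ (k + 1) * n + i) := by
  rw [interval_eq, (floor_int j (2 ^ (k + 1) * n) (2 ^ (k + 1)) φ).2]

/-- Haar sign through the floor -/
theorem haarSign_eq (j k n : ℕ) {x : ℝ} (hx : x ∈ interval ((k + 1 : ℤ) - j) n) :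
    haarSign ((k + 1 : ℤ) - j) n x = hs (k + 1) (⌊(2 : ℝ) ^ j * x⌋₊ - 2 ^ (k + 1) * n) := by
  have h2 : (0 : ℝ) < 2 ^ j := by positivity
  have hx0 := hx
  rw [interval_eq] at hx
  have h3 := (div_le_iff₀ h2).mp hx.1
  have h4 := (lt_div_iff₀ h2).mp hx.2
  have hnn : (0 : ℝ) ≤ 2 ^ j * x := by
    have : (0 : ℝ) ≤ ((2 ^ (k + 1) * n : ℕ) : ℝ) := Nat.cast_nonneg _
    linarith
  have hk : (2 : ℝ) ^ ((k + 1 : ℤ) - j) = 2 ^ (k + 1) / 2 ^ j := by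
    rw [zpow_sub₀ (by norm_num)]
    norm_cast
  have hk1 : (2 : ℝ) ^ ((k + 1 : ℤ) - j - 1) = 2 ^ k / 2 ^ j := by
    rw [show (k + 1 : ℤ) - j - 1 = k - j by ring, zpow_sub₀ (by norm_num)]
    norm_cast
  have hfl : 2 ^ (k + 1) * n ≤ ⌊(2 : ℝ) ^ j * x⌋₊ := by
    rw [Nat.le_floor_iff hnn]
    linarith
  unfold haarSign hs
  rw [hk, hk1]
  have hmid : (2 : ℝ) ^ (k + 1) / 2 ^ j * n + 2 ^ k / 2 ^ j
      = ((2 ^ (k + 1) * n + 2 ^ k : ℕ) : ℝ) / 2 ^ j := by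
    push_cast
    ring
  have hleft : (2 : ℝ) ^ (k + 1) / 2 ^ j * n = ((2 ^ (k + 1) * n : ℕ) : ℝ) / 2 ^ j := by
    push_cast
    ring
  have hright : (2 : ℝ) ^ (k + 1) / 2 ^ j * (n + 1)
      = (((2 ^ (k + 1) * n : ℕ) : ℝ) + (2 ^ (k + 1) : ℕ)) / 2 ^ j := by
    push_cast
    ring
  rw [hmid, hleft, hright]
  by_cases hc : x < ((2 ^ (k + 1) * n + 2 ^ k : ℕ) : ℝ) / 2 ^ j
  · rw [if_pos ⟨hx.1, hc⟩]
    have h5 := (lt_div_iff₀ h2).mp hc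
    have h6 : ⌊(2 : ℝ) ^ j * x⌋₊ < 2 ^ (k + 1) * n + 2 ^ k := by
      rw [Nat.floor_lt hnn]
      linarith
    have h7 : ⌊(2 : ℝ) ^ j * x⌋₊ - 2 ^ (k + 1) * n < 2 ^ (k + 1 - 1) := by
      simp only [Nat.add_sub_cancel]
      omega
    rw [if_pos h7]
  · rw [if_neg (fun h => hc h.2)]
    have hc := not_lt.mp hc
    rw [if_pos ⟨hc, hx.2⟩]
    have h5 := (div_le_iff₀ h2).mp hc
    have h6 : 2 ^ (k + 1) * n + 2 ^ k ≤ ⌊(2 : ℝ) ^ j * x⌋₊ := by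
      rw [Nat.le_floor_iff hnn]
      linarith
    have h7 : ¬ ⌊(2 : ℝ) ^ j * x⌋₊ - 2 ^ (k + 1) * n < 2 ^ (k + 1 - 1) := by
      simp only [Nat.add_sub_cancel]
      omega
    rw [if_neg h7]

theorem measurableSet_interval (k : ℤ) (n : ℕ) : MeasurableSet (interval k n) :=
  measurableSet_Ico

/-- the local form of step functions -/
theorem localForm_step (j k : ℕ) (g0 g1 g2 : ℕ → ℕ → ℝ) (n0 n1 n2 : ℕ) :
    localForm ((k + 1 : ℤ) - j) n0 n1 n2 (stepF j g0) (stepF j g1) (stepF j g2) =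
      (1 / 4 ^ j) * dform g0 g1 g2 (k + 1) n0 n1 n2 := by
  set κ : ℤ := (k + 1 : ℤ) - j with hκ
  set P := 2 ^ (k + 1) with hP
  have h2 : (2 : ℝ) ^ j ≠ 0 := by positivity
  -- the integrand as a function of floors
  set Φ : ℕ → ℕ → ℕ → ℝ := fun a b c => g0 a b * g1 b c * g2 c a *
    (hs (k + 1) (a - P * n0) * hs (k + 1) (b - P * n1) * hs (k + 1) (c - P * n2)) with hΦ
  have e1 : ∀ x₀ ∈ interval κ n0, ∀ x₁ ∈ interval κ n1,
      ∫ x₂ in interval κ n2, stepF j g0 (x₀, x₁) * stepF j g1 (x₁, x₂) * stepF j g2 (x₂, x₀)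
          * (haarSign κ n0 x₀ * haarSign κ n1 x₁ * haarSign κ n2 x₂) =
        (1 / 2 ^ j) * ∑ i2 ∈ Finset.range P,
          Φ ⌊(2 : ℝ) ^ j * x₀⌋₊ ⌊(2 : ℝ) ^ j * x₁⌋₊ (P * n2 + i2) := by
    intro x₀ h₀ x₁ h₁
    rw [← int_interval j k n2 (fun c => Φ ⌊(2 : ℝ) ^ j * x₀⌋₊ ⌊(2 : ℝ) ^ j * x₁⌋₊ c)]
    refine setIntegral_congr_fun (measurableSet_interval _ _) fun x₂ h₂ => ?_
    simp only [hΦ, stepF, hκ, haarSign_eq j k n0 h₀, haarSign_eq j k n1 h₁,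
      haarSign_eq j k n2 h₂, hP]
  have e2 : ∀ x₀ ∈ interval κ n0,
      ∫ x₁ in interval κ n1, ∫ x₂ in interval κ n2,
          stepF j g0 (x₀, x₁) * stepF j g1 (x₁, x₂) * stepF j g2 (x₂, x₀)
          * (haarSign κ n0 x₀ * haarSign κ n1 x₁ * haarSign κ n2 x₂) =
        (1 / 2 ^ j) * ∑ i1 ∈ Finset.range P, (1 / 2 ^ j) * ∑ i2 ∈ Finset.range P,
          Φ ⌊(2 : ℝ) ^ j * x₀⌋₊ (P * n1 + i1) (P * n2 + i2) := by
    intro x₀ h₀
    rw [← int_interval j k n1 (fun b => (1 / 2 ^ j) * ∑ i2 ∈ Finset.range P,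
          Φ ⌊(2 : ℝ) ^ j * x₀⌋₊ b (P * n2 + i2))]
    exact setIntegral_congr_fun (measurableSet_interval _ _) fun x₁ h₁ => e1 x₀ h₀ x₁ h₁
  have e3 : ∫ x₀ in interval κ n0, ∫ x₁ in interval κ n1, ∫ x₂ in interval κ n2,
          stepF j g0 (x₀, x₁) * stepF j g1 (x₁, x₂) * stepF j g2 (x₂, x₀)
          * (haarSign κ n0 x₀ * haarSign κ n1 x₁ * haarSign κ n2 x₂) =
        (1 / 2 ^ j) * ∑ i0 ∈ Finset.range P, (1 / 2 ^ j) * ∑ i1 ∈ Finset.range P,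
          (1 / 2 ^ j) * ∑ i2 ∈ Finset.range P,
          Φ (P * n0 + i0) (P * n1 + i1) (P * n2 + i2) := by
    rw [← int_interval j k n0 (fun a => (1 / 2 ^ j) * ∑ i1 ∈ Finset.range P,
          (1 / 2 ^ j) * ∑ i2 ∈ Finset.range P, Φ a (P * n1 + i1) (P * n2 + i2))]
    exact setIntegral_congr_fun (measurableSet_interval _ _) fun x₀ h₀ => e2 x₀ h₀
  unfold localForm
  rw [e3]
  unfold dform
  have hz : (2 : ℝ) ^ (-κ) = 2 ^ j / 2 ^ (k + 1) := by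
    rw [hκ, show -((k + 1 : ℤ) - j) = j - (k + 1 : ℤ) by ring, zpow_sub₀ (by norm_num)]
    norm_cast
  rw [hz]
  have h4 : (4 : ℝ) ^ j = 2 ^ j * 2 ^ j := by rw [← mul_pow]; norm_num
  rw [h4]
  simp only [← Finset.mul_sum]
  have hsum : ∑ i0 ∈ Finset.range P, ∑ i1 ∈ Finset.range P, ∑ i2 ∈ Finset.range P,
      Φ (P * n0 + i0) (P * n1 + i1) (P * n2 + i2) =
      ∑ i0 ∈ Finset.range P, ∑ i1 ∈ Finset.range P, ∑ i2 ∈ Finset.range P,
      g0 (P * n0 + i0) (P * n1 + i1) * g1 (P * n1 + i1) (P * n2 + i2) *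
        g2 (P * n2 + i2) (P * n0 + i0) * (hs (k + 1) i0 * hs (k + 1) i1 * hs (k + 1) i2) := by
    refine Finset.sum_congr rfl fun i0 _ => Finset.sum_congr rfl fun i1 _ =>
      Finset.sum_congr rfl fun i2 _ => ?_
    simp only [hΦ, Nat.add_sub_cancel_left]
  rw [hsum]
  field_simp
  simp only [hP]

/-- the bound for finitely many nodes inside `[0, 2^m / 2^j)` and step functions of mesh `2^{-j}` -/
theorem step_bound (j m : ℕ) (g0 g1 g2 : ℕ → ℕ → ℝ) (I : Finset (ℤ × ℕ × ℕ))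
    (hI : ∀ i ∈ I, ∃ k < m, i.1 = (k + 1 : ℤ) - j ∧ i.2.1 < 2 ^ (m - (k + 1)) ∧
      i.2.2 < 2 ^ (m - (k + 1))) :
    ∑ i ∈ I, |localForm i.1 i.2.1 i.2.2 (i.2.1 ^^^ i.2.2) (stepF j g0) (stepF j g1)
      (stepF j g2)| ≤
      27 * ((1 / 4 ^ j) * ∑ x ∈ Finset.range (2 ^ m), ∑ y ∈ Finset.range (2 ^ m),
          |g0 x y| ^ 3) ^ (1 / 3 : ℝ) *
        ((1 / 4 ^ j) * ∑ x ∈ Finset.range (2 ^ m), ∑ y ∈ Finset.range (2 ^ m),
          |g1 x y| ^ 3) ^ (1 / 3 : ℝ) *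
        ((1 / 4 ^ j) * ∑ x ∈ Finset.range (2 ^ m), ∑ y ∈ Finset.range (2 ^ m),
          |g2 x y| ^ 3) ^ (1 / 3 : ℝ) := by
  classical
  set f : ℤ × ℕ × ℕ → ℝ := fun i => |localForm i.1 i.2.1 i.2.2 (i.2.1 ^^^ i.2.2) (stepF j g0)
    (stepF j g1) (stepF j g2)| with hf
  set Tk : ℕ → Finset (ℤ × ℕ × ℕ) := fun k =>
    (Finset.range (2 ^ (m - (k + 1))) ×ˢ Finset.range (2 ^ (m - (k + 1)))).image
      (fun p => ((k + 1 : ℤ) - j, p.1, p.2)) with hTk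
  have hsub : I ⊆ (Finset.range m).biUnion Tk := by
    intro i hi
    obtain ⟨k, hk, h1, h2, h3⟩ := hI i hi
    rw [Finset.mem_biUnion]
    refine ⟨k, Finset.mem_range.mpr hk, ?_⟩
    rw [hTk]
    simp only [Finset.mem_image, Finset.mem_product, Finset.mem_range]
    exact ⟨(i.2.1, i.2.2), ⟨h2, h3⟩, by rw [← h1]⟩
  have hdisj : Set.PairwiseDisjoint (↑(Finset.range m)) Tk := by
    intro k _ k' _ hne
    rw [Function.onFun, Finset.disjoint_left]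
    intro i hi hi'
    simp only [hTk, Finset.mem_image] at hi hi'
    obtain ⟨p, _, hp⟩ := hi
    obtain ⟨p', _, hp'⟩ := hi'
    apply hne
    have e : (k + 1 : ℤ) - j = (k' + 1 : ℤ) - j := by
      have e1 := congrArg Prod.fst hp
      have e2 := congrArg Prod.fst hp'
      simp only at e1 e2
      rw [e1, e2]
    have : (k : ℤ) = k' := by linarith
    exact_mod_cast this
  have hle : ∑ i ∈ I, f i ≤ (1 / 4 ^ j : ℝ) * ∑ k ∈ Finset.range m,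
      ∑ n0 ∈ Finset.range (2 ^ (m - (k + 1))), ∑ n1 ∈ Finset.range (2 ^ (m - (k + 1))),
        |dform g0 g1 g2 (k + 1) n0 n1 (n0 ^^^ n1)| := by
    refine (Finset.sum_le_sum_of_subset_of_nonneg hsub fun _ _ _ => abs_nonneg _).trans ?_
    rw [Finset.sum_biUnion hdisj, Finset.mul_sum]
    refine le_of_eq (Finset.sum_congr rfl fun k _ => ?_)
    rw [hTk]
    simp only
    rw [Finset.sum_image (by
      intro p _ q _ hpq
      have e1 := congrArg (fun z : ℤ × ℕ × ℕ => z.2.1) hpq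
      have e2 := congrArg (fun z : ℤ × ℕ × ℕ => z.2.2) hpq
      exact Prod.ext e1 e2), Finset.sum_product, Finset.mul_sum]
    refine Finset.sum_congr rfl fun n0 _ => ?_
    rw [Finset.mul_sum]
    refine Finset.sum_congr rfl fun n1 _ => ?_
    simp only [hf]
    rw [localForm_step, abs_mul, abs_of_nonneg (by positivity : (0 : ℝ) ≤ 1 / 4 ^ j)]
  refine hle.trans ?_
  have h := dyadic_discrete_homog g0 g1 g2 m
  have hS : ∀ F : ℕ → ℕ → ℝ, 0 ≤ ∑ x ∈ Finset.range (2 ^ m), ∑ y ∈ Finset.range (2 ^ m),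
      |F x y| ^ 3 :=
    fun F => Finset.sum_nonneg fun _ _ => Finset.sum_nonneg fun _ _ => by positivity
  have h0 := hS g0
  have h1 := hS g1
  have h2 := hS g2
  have hj : (0 : ℝ) ≤ 1 / 4 ^ j := by positivity
  have hcube : ((1 / 4 ^ j : ℝ) ^ (1 / 3 : ℝ)) ^ 3 = 1 / 4 ^ j := by
    rw [← Real.rpow_natCast, ← Real.rpow_mul hj]
    norm_num
  rw [Real.mul_rpow hj h0, Real.mul_rpow hj h1, Real.mul_rpow hj h2]
  set A := (∑ x ∈ Finset.range (2 ^ m), ∑ y ∈ Finset.range (2 ^ m), |g0 x y| ^ 3) ^ (1 / 3 : ℝ)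
  set B := (∑ x ∈ Finset.range (2 ^ m), ∑ y ∈ Finset.range (2 ^ m), |g1 x y| ^ 3) ^ (1 / 3 : ℝ)
  set C := (∑ x ∈ Finset.range (2 ^ m), ∑ y ∈ Finset.range (2 ^ m), |g2 x y| ^ 3) ^ (1 / 3 : ℝ)
  set t := (1 / 4 ^ j : ℝ) ^ (1 / 3 : ℝ)
  calc (1 / 4 ^ j : ℝ) * _ ≤ (1 / 4 ^ j) * (27 * A * B * C) := mul_le_mul_of_nonneg_left h hj
    _ = t ^ 3 * (27 * A * B * C) := by rw [hcube]
    _ = _ := by ring

theorem measurable_stepF (j : ℕ) (g : ℕ → ℕ → ℝ) : Measurable (stepF j g) := by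
  have h1 : Measurable fun z : ℝ × ℝ => (⌊(2 : ℝ) ^ j * z.1⌋₊, ⌊(2 : ℝ) ^ j * z.2⌋₊) :=
    (Nat.measurable_floor.comp (measurable_const.mul measurable_fst)).prodMk
      (Nat.measurable_floor.comp (measurable_const.mul measurable_snd))
  have h2 : Measurable fun p : ℕ × ℕ => g p.1 p.2 := measurable_of_countable _
  exact h2.comp h1

/-- `L³` mass of a step function -/
theorem step_int (j m : ℕ) (g : ℕ → ℕ → ℝ) :
    IntegrableOn (fun z => |stepF j g z| ^ 3)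
      (Set.Ico (0 : ℝ) (2 ^ m / 2 ^ j) ×ˢ Set.Ico (0 : ℝ) (2 ^ m / 2 ^ j)) ∧
    ∫ z in Set.Ico (0 : ℝ) (2 ^ m / 2 ^ j) ×ˢ Set.Ico (0 : ℝ) (2 ^ m / 2 ^ j),
      |stepF j g z| ^ 3 =
      (1 / 4 ^ j) * ∑ x ∈ Finset.range (2 ^ m), ∑ y ∈ Finset.range (2 ^ m), |g x y| ^ 3 := by
  set S := Set.Ico (0 : ℝ) (2 ^ m / 2 ^ j) with hS
  have hj : (0 : ℝ) < 2 ^ j := by positivity
  have hfl : ∀ x ∈ S, ⌊(2 : ℝ) ^ j * x⌋₊ < 2 ^ m := by
    intro x hx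
    have h := (lt_div_iff₀ hj).mp hx.2
    rw [Nat.floor_lt (mul_nonneg hj.le hx.1)]
    push_cast
    linarith
  have hint : IntegrableOn (fun z => |stepF j g z| ^ 3) (S ×ˢ S) := by
    refine Measure.integrableOn_of_bounded
      (M := (∑ x ∈ Finset.range (2 ^ m), ∑ y ∈ Finset.range (2 ^ m), |g x y|) ^ 3) ?_ ?_ ?_
    · rw [Measure.volume_eq_prod, Measure.prod_prod, hS, Real.volume_Ico]
      exact ENNReal.mul_ne_top ENNReal.ofReal_ne_top ENNReal.ofReal_ne_top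
    · exact ((measurable_stepF j g).abs.pow_const 3).aestronglyMeasurable
    · refine (ae_restrict_iff' (measurableSet_Ico.prod measurableSet_Ico)).mpr
        (Filter.Eventually.of_forall fun z hz => ?_)
      rw [Real.norm_eq_abs, abs_of_nonneg (by positivity)]
      refine pow_le_pow_left₀ (abs_nonneg _) ?_ 3
      have h1 := hfl z.1 hz.1
      have h2 := hfl z.2 hz.2
      unfold stepF
      refine le_trans ?_ (Finset.single_le_sum (f := fun x => ∑ y ∈ Finset.range (2 ^ m), |g x y|)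
        (fun _ _ => Finset.sum_nonneg fun _ _ => abs_nonneg _) (Finset.mem_range.mpr h1))
      exact Finset.single_le_sum (f := fun y => |g ⌊(2 : ℝ) ^ j * z.1⌋₊ y|)
        (fun _ _ => abs_nonneg _) (Finset.mem_range.mpr h2)
  refine ⟨hint, ?_⟩
  rw [Measure.volume_eq_prod] at hint ⊢
  rw [setIntegral_prod _ hint]
  have hS' : S = Set.Ico (((0 : ℕ) : ℝ) / 2 ^ j) ((((0 : ℕ) : ℝ) + (2 ^ m : ℕ)) / 2 ^ j) := by
    rw [hS]; simp
  have e1 : ∀ x : ℝ, ∫ y in S, |stepF j g (x, y)| ^ 3 =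
      (1 / 2 ^ j) * ∑ i ∈ Finset.range (2 ^ m), |g ⌊(2 : ℝ) ^ j * x⌋₊ i| ^ 3 := by
    intro x
    have := (floor_int j 0 (2 ^ m) (fun b => |g ⌊(2 : ℝ) ^ j * x⌋₊ b| ^ 3)).2
    rw [← hS'] at this
    simp only [zero_add] at this
    exact this
  simp only [e1]
  have := (floor_int j 0 (2 ^ m) (fun a => (1 / 2 ^ j) * ∑ i ∈ Finset.range (2 ^ m),
    |g a i| ^ 3)).2
  rw [← hS'] at this
  simp only [zero_add] at this
  rw [this, ← Finset.mul_sum]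
  have h4 : (4 : ℝ) ^ j = 2 ^ j * 2 ^ j := by rw [← mul_pow]; norm_num
  rw [h4]
  field_simp

end Crest.Agent.R072.DyadicStep
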