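import Mathlib

/-!
# Row 72: Frobenius norm and trace estimates for real matrices
-/

set_option autoImplicit false

open Matrix
open scoped MatrixOrder

namespace Crest.Agent.R072.Nd

variable {m n p q : Type*} [Fintype m] [Fintype n] [Fintype p] [Fintype q]

/-- squared Frobenius norm -/
def fsq (P : Matrix m n ℝ) : ℝ := ∑ i, ∑ j, P i j ^ 2

theorem fsq_nonneg (P : Matrix m n ℝ) : 0 ≤ fsq P :=
  Finset.sum_nonneg fun _ _ => Finset.sum_nonneg fun _ _ => by positivity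

theorem trace_transpose_mul_self (P : Matrix m n ℝ) : trace (Pᵀ * P) = fsq P := by
  unfold fsq
  rw [Finset.sum_comm]
  simp only [trace, diag_apply, mul_apply, transpose_apply]
  refine Finset.sum_congr rfl fun j _ => Finset.sum_congr rfl fun i _ => ?_
  ring

theorem trace_mul_transpose_self (P : Matrix m n ℝ) : trace (P * Pᵀ) = fsq P := by
  rw [trace_mul_comm, trace_transpose_mul_self]

theorem fsq_transpose (P : Matrix m n ℝ) : fsq Pᵀ = fsq P := by
  rw [← trace_transpose_mul_self, transpose_transpose, trace_mul_transpose_self]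

/-- Cauchy-Schwarz for the trace. -/
theorem abs_trace_mul_le (P : Matrix m n ℝ) (Q : Matrix n m ℝ) :
    |trace (P * Q)| ≤ √(fsq P) * √(fsq Q) := by
  have h1 : trace (P * Q) = ∑ x : m × n, P x.1 x.2 * Q x.2 x.1 := by
    rw [Fintype.sum_prod_type]
    simp only [trace, diag_apply, mul_apply]
  have h2 : fsq P = ∑ x : m × n, |P x.1 x.2| ^ 2 := by
    rw [Fintype.sum_prod_type]; simp [fsq]
  have h3 : fsq Q = ∑ x : m × n, |Q x.2 x.1| ^ 2 := by
    rw [Fintype.sum_prod_type, Finset.sum_comm]; simp [fsq]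
  rw [h1, h2, h3]
  calc |∑ x : m × n, P x.1 x.2 * Q x.2 x.1|
      ≤ ∑ x : m × n, |P x.1 x.2| * |Q x.2 x.1| := by
        refine (Finset.abs_sum_le_sum_abs _ _).trans ?_
        simp [abs_mul]
    _ ≤ _ := Real.sum_mul_le_sqrt_mul_sqrt _ _ _

theorem psd_transpose_mul_self (P : Matrix m n ℝ) : 0 ≤ Pᵀ * P := by
  have := posSemidef_conjTranspose_mul_self P
  rw [conjTranspose_eq_transpose_of_trivial] at this
  exact this.nonneg

theorem psd_mul_transpose_self (P : Matrix m n ℝ) : 0 ≤ P * Pᵀ := by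
  have := psd_transpose_mul_self Pᵀ
  rwa [transpose_transpose] at this

/-- congruence -/
theorem frob_psd_conj {P : Matrix m m ℝ} (hP : 0 ≤ P) (S : Matrix n m ℝ) : 0 ≤ S * P * Sᵀ := by
  have := (Matrix.nonneg_iff_posSemidef.mp hP).mul_mul_conjTranspose_same S
  rw [conjTranspose_eq_transpose_of_trivial] at this
  exact this.nonneg

theorem frob_psd_conjT {P : Matrix m m ℝ} (hP : 0 ≤ P) (S : Matrix m n ℝ) : 0 ≤ Sᵀ * P * S := by
  have := frob_psd_conj hP Sᵀ
  rwa [transpose_transpose] at this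

theorem le_conj {P Q : Matrix m m ℝ} (h : P ≤ Q) (S : Matrix n m ℝ) :
    S * P * Sᵀ ≤ S * Q * Sᵀ := by
  rw [← sub_nonneg]
  have : S * Q * Sᵀ - S * P * Sᵀ = S * (Q - P) * Sᵀ := by
    rw [Matrix.mul_sub, Matrix.sub_mul]
  rw [this]
  exact frob_psd_conj (sub_nonneg.mpr h) S

theorem trace_nonneg_of_psd {P : Matrix m m ℝ} (hP : 0 ≤ P) : 0 ≤ trace P :=
  (Matrix.nonneg_iff_posSemidef.mp hP).trace_nonneg

/-- trace of a product of two PSD matrices is nonnegative -/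
theorem frob_trace_mul_nonneg {P Q : Matrix m m ℝ} (hP : 0 ≤ P) (hQ : 0 ≤ Q) :
    0 ≤ trace (P * Q) := by
  classical
  obtain ⟨S, rfl⟩ := CStarAlgebra.nonneg_iff_eq_star_mul_self.mp hP
  rw [star_eq_conjTranspose, conjTranspose_eq_transpose_of_trivial, Matrix.mul_assoc,
    trace_mul_comm]
  exact trace_nonneg_of_psd (frob_psd_conj hQ S)

theorem trace_mul_mono_left {P P' Q : Matrix m m ℝ} (hP : P ≤ P') (hQ : 0 ≤ Q) :
    trace (P * Q) ≤ trace (P' * Q) := by
  have := frob_trace_mul_nonneg (sub_nonneg.mpr hP) hQ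
  rw [Matrix.sub_mul, trace_sub] at this
  linarith

theorem trace_mul_mono_right {P Q Q' : Matrix m m ℝ} (hP : 0 ≤ P) (hQ : Q ≤ Q') :
    trace (P * Q) ≤ trace (P * Q') := by
  have := frob_trace_mul_nonneg hP (sub_nonneg.mpr hQ)
  rw [Matrix.mul_sub, trace_sub] at this
  linarith

theorem fsq_mul_contraction [DecidableEq n] (Q : Matrix m n ℝ) (S : Matrix n p ℝ)
    (hS : S * Sᵀ ≤ 1) : fsq (Q * S) ≤ fsq Q := by
  have h1 : fsq (Q * S) = trace ((Qᵀ * Q) * (S * Sᵀ)) := by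
    rw [← trace_mul_transpose_self, transpose_mul]
    rw [show Q * S * (Sᵀ * Qᵀ) = Q * (S * Sᵀ * Qᵀ) by simp only [Matrix.mul_assoc],
      trace_mul_comm, Matrix.mul_assoc (S * Sᵀ), trace_mul_comm]
  have h2 : fsq Q = trace ((Qᵀ * Q) * 1) := by
    rw [Matrix.mul_one, trace_transpose_mul_self]
  rw [h1, h2]
  exact trace_mul_mono_right (psd_transpose_mul_self Q) hS

theorem abs_trace_mul_mul_le [DecidableEq n] (P : Matrix m n ℝ) (S : Matrix n n ℝ)
    (Q : Matrix n m ℝ) (hS : S * Sᵀ ≤ 1) :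
    |trace (P * S * Q)| ≤ √(fsq P) * √(fsq Q) :=
  (abs_trace_mul_le (P * S) Q).trans
    (mul_le_mul_of_nonneg_right (Real.sqrt_le_sqrt (fsq_mul_contraction P S hS)) (Real.sqrt_nonneg _))

/-- `fsq (A Y B) = tr (AᵀA · Y · BBᵀ · Yᵀ)` and monotonicity. -/
theorem fsq_sandwich_le (A : Matrix m n ℝ) (Y : Matrix n p ℝ) (B : Matrix p q ℝ)
    {M : Matrix n n ℝ} {N : Matrix p p ℝ} (hM : Aᵀ * A ≤ M) (hN : B * Bᵀ ≤ N) :
    fsq (A * Y * B) ≤ trace (M * (Y * N * Yᵀ)) := by
  have h1 : fsq (A * Y * B) = trace ((Aᵀ * A) * (Y * (B * Bᵀ) * Yᵀ)) := by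
    rw [← trace_mul_transpose_self, transpose_mul, transpose_mul]
    rw [show A * Y * B * (Bᵀ * (Yᵀ * Aᵀ)) = (A * (Y * (B * Bᵀ) * Yᵀ)) * Aᵀ by
      simp only [Matrix.mul_assoc], trace_mul_comm]
    simp only [Matrix.mul_assoc]
  have hM0 : 0 ≤ M := (psd_transpose_mul_self A).trans hM
  rw [h1]
  exact (trace_mul_mono_left hM (frob_psd_conj (psd_mul_transpose_self B) Y)).trans
    (trace_mul_mono_right hM0 (le_conj hN Y))

end Crest.Agent.R072.Nd
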