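import Crest.Agent.R072.JumpA
import Crest.Agent.R072.Maximal

/-! R072: cost of changing the first function (blueprint part 2, (C7)).
`RR`, `CC`, `YY`, `W_sub_le`, `EW_sub_le` are in `JumpA`. -/

set_option autoImplicit false

namespace Crest.Agent.R072.Jump

open Matrix Finset Crest.Agent.R072 Crest.Agent.R072.Lattice
open scoped MatrixOrder

section aux

variable {Q : ℕ}

theorem sq_le_of_abs {x h τ : ℝ} (hx : |x| ≤ τ * |h|) : x ^ 2 ≤ τ ^ 2 * h ^ 2 := by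
  have := pow_le_pow_left₀ (abs_nonneg x) hx 2
  rwa [mul_pow, sq_abs, sq_abs] at this

theorem RR_le {X H : ZMod Q → ZMod Q → ℝ} {τ : ℝ} (h : ∀ x y, |X x y| ≤ τ * |H x y|)
    (N : ℕ) (x' x : ZMod Q) : RR X N x' x ≤ τ ^ 2 * RR H N x' x := by
  unfold RR
  calc (1 / (N : ℝ)) * ∑ d ∈ Ioo (-(N : ℤ)) N, X x' (x + (d : ZMod Q)) ^ 2
      ≤ (1 / (N : ℝ)) * ∑ d ∈ Ioo (-(N : ℤ)) N, τ ^ 2 * H x' (x + (d : ZMod Q)) ^ 2 :=
        mul_le_mul_of_nonneg_left (Finset.sum_le_sum fun d _ => sq_le_of_abs (h _ _))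
          (by positivity)
    _ = _ := by rw [← Finset.mul_sum]; ring

theorem CC_le {X H : ZMod Q → ZMod Q → ℝ} {τ : ℝ} (h : ∀ x y, |X x y| ≤ τ * |H x y|)
    (N : ℕ) (x' x : ZMod Q) : CC X N x' x ≤ τ ^ 2 * CC H N x' x := by
  unfold CC
  calc (1 / (N : ℝ)) * ∑ d ∈ Ioo (-(N : ℤ)) N, X (x' + (d : ZMod Q)) x ^ 2
      ≤ (1 / (N : ℝ)) * ∑ d ∈ Ioo (-(N : ℤ)) N, τ ^ 2 * H (x' + (d : ZMod Q)) x ^ 2 :=
        mul_le_mul_of_nonneg_left (Finset.sum_le_sum fun d _ => sq_le_of_abs (h _ _))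
          (by positivity)
    _ = _ := by rw [← Finset.mul_sum]; ring

theorem window_max {f g : ZMod Q → ℝ} (hg : ∀ x, 0 ≤ g x)
    (hmax : ∀ (x : ZMod Q) (K : ℕ),
      ∑ d ∈ Finset.Icc (-(K : ℤ)) K, f (x + (d : ZMod Q)) ≤ (2 * K + 1) * g x)
    {N : ℕ} (hN : 0 < N) (x : ZMod Q) :
    (1 / (N : ℝ)) * ∑ d ∈ Ioo (-(N : ℤ)) N, f (x + (d : ZMod Q)) ≤ 2 * g x := by
  have hN' : (0 : ℝ) < N := by exact_mod_cast hN
  obtain ⟨K, rfl⟩ : ∃ K, N = K + 1 := ⟨N - 1, by omega⟩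
  have hI : Ioo (-((K + 1 : ℕ) : ℤ)) ((K + 1 : ℕ) : ℤ) = Icc (-(K : ℤ)) K := by
    ext d
    simp only [mem_Ioo, mem_Icc]
    push_cast
    omega
  rw [hI, one_div, inv_mul_le_iff₀ hN']
  refine (hmax x K).trans ?_
  push_cast
  nlinarith [hg x]

theorem window_max' {f g : ZMod Q → ℝ} (hf : ∀ x, 0 ≤ f x) (hg : ∀ x, 0 ≤ g x)
    (hmax : ∀ (x : ZMod Q) (K : ℕ),
      ∑ d ∈ Finset.Icc (-(K : ℤ)) K, f (x + (d : ZMod Q)) ≤ (2 * K + 1) * g x)
    {N : ℕ} (hN : 0 < N) (x : ZMod Q) {c : ℤ} (hc : N ≤ c) (hc' : c ≤ 2 * N) :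
    (1 / (N : ℝ)) * ∑ d ∈ Ico (0 : ℤ) (3 * N), f (x - (c : ZMod Q) + (d : ZMod Q)) ≤ 5 * g x := by
  have hN' : (0 : ℝ) < N := by exact_mod_cast hN
  have hN1 : (1 : ℝ) ≤ N := by exact_mod_cast hN
  have h1 : ∑ d ∈ Ico (0 : ℤ) (3 * N), f (x - (c : ZMod Q) + (d : ZMod Q)) ≤
      ∑ d ∈ Icc (-((2 * N : ℕ) : ℤ)) ((2 * N : ℕ) : ℤ), f (x + (d : ZMod Q)) := by
    have : ∑ d ∈ Ico (0 : ℤ) (3 * N), f (x - (c : ZMod Q) + (d : ZMod Q)) =
        ∑ d ∈ (Ico (0 : ℤ) (3 * N)).image (fun d => d - c), f (x + (d : ZMod Q)) := by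
      rw [Finset.sum_image]
      · refine Finset.sum_congr rfl fun d _ => ?_
        congr 1
        push_cast
        ring
      · intro a _ b _ hab
        simp only at hab
        omega
    rw [this]
    refine Finset.sum_le_sum_of_subset_of_nonneg ?_ fun d _ _ => hf _
    intro d hd
    simp only [mem_image, mem_Ico, mem_Icc] at hd ⊢
    obtain ⟨e, he, rfl⟩ := hd
    push_cast
    omega
  rw [one_div, inv_mul_le_iff₀ hN']
  refine h1.trans ((hmax x (2 * N)).trans ?_)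
  push_cast
  nlinarith [hg x]

theorem sqrt_core {τ R C Y a b y : ℝ} (hτ : 0 ≤ τ) (ha : 0 ≤ a) (hb : 0 ≤ b) (hy : 0 ≤ y)
    (hR : R ≤ τ ^ 2 * a) (hC : C ≤ τ ^ 2 * b) (hY : Y ≤ y) :
    Real.sqrt R * Real.sqrt (C + Y) ≤ τ * (1 + τ) * ((a + b + y) / 2) := by
  have h1 : Real.sqrt R ≤ τ * Real.sqrt a := by
    rw [← Real.sqrt_sq hτ, ← Real.sqrt_mul (sq_nonneg τ)]
    exact Real.sqrt_le_sqrt hR
  have h2 : Real.sqrt (C + Y) ≤ (1 + τ) * Real.sqrt (b + y) := by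
    rw [← Real.sqrt_sq (by linarith : 0 ≤ 1 + τ), ← Real.sqrt_mul (sq_nonneg (1 + τ))]
    apply Real.sqrt_le_sqrt
    nlinarith [mul_nonneg hτ hb, mul_nonneg hτ hy, mul_nonneg (sq_nonneg τ) hy]
  have h3 : Real.sqrt a * Real.sqrt (b + y) ≤ (a + b + y) / 2 := by
    have e1 := Real.sq_sqrt ha
    have e2 := Real.sq_sqrt (by linarith : 0 ≤ b + y)
    nlinarith [sq_nonneg (Real.sqrt a - Real.sqrt (b + y))]
  calc Real.sqrt R * Real.sqrt (C + Y) ≤ (τ * Real.sqrt a) * ((1 + τ) * Real.sqrt (b + y)) := by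
        gcongr
    _ = τ * (1 + τ) * (Real.sqrt a * Real.sqrt (b + y)) := by ring
    _ ≤ _ := by gcongr

theorem W_core [NeZero Q] {X X' Z : ZMod Q → ZMod Q → ℝ} {N : ℕ} (hN : 0 < N) {n : ZMod Q}
    {τ : ℝ} (hτ : 0 ≤ τ) (a b y G : ZMod Q → ZMod Q → ℝ) (ha : ∀ s t, 0 ≤ a s t)
    (hb : ∀ s t, 0 ≤ b s t) (hy : ∀ s t, 0 ≤ y s t)
    (hR : ∀ s t, RR X N s t ≤ τ ^ 2 * a s t) (hC : ∀ s t, CC X N s t ≤ τ ^ 2 * b s t)
    (hY : ∀ s t, YY Z N n s t ≤ y s t)
    (hG : ∀ s t, 3 / 2 * (a s t + b s t + y s t) ≤ G s t) :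
    W X Z N N n - W X' Z N N n ≤ τ * (1 + τ) * ∑ s : ZMod Q, ∑ t : ZMod Q,
      |X s t - X' s t| * G s t := by
  refine (W_sub_le X X' Z hN n).trans ?_
  simp only [Finset.mul_sum]
  refine Finset.sum_le_sum fun s _ => Finset.sum_le_sum fun t _ => ?_
  have h := sqrt_core hτ (ha s t) (hb s t) (hy s t) (hR s t) (hC s t) (hY s t)
  calc 3 * (|X s t - X' s t| * Real.sqrt (RR X N s t) * Real.sqrt (CC X N s t + YY Z N n s t))
      = 3 * |X s t - X' s t| *
          (Real.sqrt (RR X N s t) * Real.sqrt (CC X N s t + YY Z N n s t)) := by ring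
    _ ≤ 3 * |X s t - X' s t| * (τ * (1 + τ) * ((a s t + b s t + y s t) / 2)) := by gcongr
    _ = τ * (1 + τ) * (|X s t - X' s t| * (3 / 2 * (a s t + b s t + y s t))) := by ring
    _ ≤ τ * (1 + τ) * (|X s t - X' s t| * G s t) := by
        have : 0 ≤ 1 + τ := by linarith
        gcongr
        exact hG s t

theorem EW_core [NeZero Q] {X X' : ZMod Q → ZMod Q → ℝ} {N : ℕ} (hN : 0 < N)
    {τ : ℝ} (hτ : 0 ≤ τ) (a b G : ZMod Q → ZMod Q → ℝ) (ha : ∀ s t, 0 ≤ a s t)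
    (hb : ∀ s t, 0 ≤ b s t)
    (hR : ∀ s t, RR X N s t ≤ τ ^ 2 * a s t) (hC : ∀ s t, CC X N s t ≤ τ ^ 2 * b s t)
    (hG : ∀ s t, 3 / 2 * (a s t + b s t) ≤ G s t) :
    EW X N N - EW X' N N ≤ τ * (1 + τ) * ∑ s : ZMod Q, ∑ t : ZMod Q,
      |X s t - X' s t| * G s t := by
  have := W_core (X := X) (X' := X') (Z := fun _ _ => 0) (n := 0) hN hτ a b (fun _ _ => 0) G ha hb
    (fun _ _ => le_rfl) hR hC (fun s t => by simp [YY]) (fun s t => by simpa using hG s t)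
  rwa [W_zero, W_zero] at this

theorem rpow_four {a b c d : ℝ} (ha : 0 ≤ a) (hb : 0 ≤ b) (hc : 0 ≤ c) (hd : 0 ≤ d) :
    (8 * (a + b + c + d)) ^ (3 / 2 : ℝ) ≤ (32 : ℝ) ^ (3 / 2 : ℝ) *
      (a ^ (3 / 2 : ℝ) + b ^ (3 / 2 : ℝ) + c ^ (3 / 2 : ℝ) + d ^ (3 / 2 : ℝ)) := by
  set m := max (max a b) (max c d) with hm
  have ham : a ≤ m := le_trans (le_max_left _ _) (le_max_left _ _)
  have hbm : b ≤ m := le_trans (le_max_right _ _) (le_max_left _ _)
  have hcm : c ≤ m := le_trans (le_max_left _ _) (le_max_right _ _)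
  have hdm : d ≤ m := le_trans (le_max_right _ _) (le_max_right _ _)
  have hm0 : 0 ≤ m := ha.trans ham
  have h1 : (8 * (a + b + c + d)) ^ (3 / 2 : ℝ) ≤ (32 * m) ^ (3 / 2 : ℝ) :=
    Real.rpow_le_rpow (by positivity) (by linarith) (by norm_num)
  rw [Real.mul_rpow (by norm_num) hm0] at h1
  refine h1.trans ?_
  gcongr
  have pa := Real.rpow_nonneg ha (3 / 2 : ℝ)
  have pb := Real.rpow_nonneg hb (3 / 2 : ℝ)
  have pc := Real.rpow_nonneg hc (3 / 2 : ℝ)
  have pd := Real.rpow_nonneg hd (3 / 2 : ℝ)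
  rcases max_choice (max a b) (max c d) with h | h
  · rcases max_choice a b with h' | h'
    · rw [hm, h, h']; linarith
    · rw [hm, h, h']; linarith
  · rcases max_choice c d with h' | h'
    · rw [hm, h, h']; linarith
    · rw [hm, h, h']; linarith

theorem sq_rpow (x : ℝ) : (x ^ 2) ^ (3 / 2 : ℝ) = |x| ^ 3 := by
  rw [← sq_abs, ← Real.rpow_natCast, ← Real.rpow_mul (abs_nonneg x)]
  norm_num

end aux

/-- maximal function domination, uniform in `Q` -/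
theorem exists_D : ∃ C : ℝ, 0 ≤ C ∧ ∀ (Q : ℕ) [NeZero Q] (H F1 F2 : ZMod Q → ZMod Q → ℝ),
    ∑ x : ZMod Q, ∑ y : ZMod Q, |H x y| ^ 3 ≤ 1 → ∑ x : ZMod Q, ∑ y : ZMod Q, |F1 x y| ^ 3 ≤ 1 →
    ∑ x : ZMod Q, ∑ y : ZMod Q, |F2 x y| ^ 3 ≤ 1 →
    ∃ D : ZMod Q → ZMod Q → ℝ, (∀ x y, 0 ≤ D x y) ∧
      ∑ x : ZMod Q, ∑ y : ZMod Q, D x y ^ (3 / 2 : ℝ) ≤ C ∧
      ∀ (τ : ℝ), 0 ≤ τ → ∀ (X X' : ZMod Q → ZMod Q → ℝ),
        (∀ x y, |X x y| ≤ τ * |H x y|) → (∀ x y, |X' x y| ≤ τ * |H x y|) → ∀ N : ℕ, 0 < N →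
          (Vref X (fun x y => F1 y x) N - Vref X' (fun x y => F1 y x) N ≤
            τ * (1 + τ) * ∑ x : ZMod Q, ∑ y : ZMod Q, |X x y - X' x y| * D x y) ∧
          (Vref F2 (fun x y => X y x) N - Vref F2 (fun x y => X' y x) N ≤
            τ * (1 + τ) * ∑ x : ZMod Q, ∑ y : ZMod Q, |X x y - X' x y| * D x y) ∧
          (EW X N N - EW X' N N ≤
            τ * (1 + τ) * ∑ x : ZMod Q, ∑ y : ZMod Q, |X x y - X' x y| * D x y) ∧
          (EW (fun x y => X y x) N N - EW (fun x y => X' y x) N N ≤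
            τ * (1 + τ) * ∑ x : ZMod Q, ∑ y : ZMod Q, |X x y - X' x y| * D x y) := by
  obtain ⟨Cm, hCm, hmax⟩ := Maximal.exists_maximal
  refine ⟨(32 : ℝ) ^ (3 / 2 : ℝ) * (4 * Cm), by positivity, ?_⟩
  intro Q _ H F1 F2 hH hF1 hF2
  choose g1 g1nn g1max g1sum using fun a : ZMod Q =>
    hmax Q (fun y => H a y ^ 2) (fun y => sq_nonneg _)
  choose g2 g2nn g2max g2sum using fun b : ZMod Q =>
    hmax Q (fun x => H x b ^ 2) (fun y => sq_nonneg _)
  choose g3 g3nn g3max g3sum using fun b : ZMod Q =>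
    hmax Q (fun y => F1 b y ^ 2) (fun y => sq_nonneg _)
  choose g4 g4nn g4max g4sum using fun a : ZMod Q =>
    hmax Q (fun y => F2 y a ^ 2) (fun y => sq_nonneg _)
  refine ⟨fun x y => 8 * (g1 x y + g2 y x + g3 y (-x - y) + g4 x (-x - y)), ?_, ?_, ?_⟩
  · intro x y
    have := g1nn x y
    have := g2nn y x
    have := g3nn y (-x - y)
    have := g4nn x (-x - y)
    positivity
  · have s1 : ∑ x : ZMod Q, ∑ y : ZMod Q, g1 x y ^ (3 / 2 : ℝ) ≤ Cm := by
      calc ∑ x : ZMod Q, ∑ y : ZMod Q, g1 x y ^ (3 / 2 : ℝ)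
          ≤ ∑ x : ZMod Q, Cm * ∑ y : ZMod Q, (H x y ^ 2) ^ (3 / 2 : ℝ) :=
            Finset.sum_le_sum fun x _ => g1sum x
        _ = Cm * ∑ x : ZMod Q, ∑ y : ZMod Q, |H x y| ^ 3 := by
            simp only [sq_rpow, Finset.mul_sum]
        _ ≤ Cm * 1 := by gcongr
        _ = Cm := mul_one _
    have s2 : ∑ x : ZMod Q, ∑ y : ZMod Q, g2 y x ^ (3 / 2 : ℝ) ≤ Cm := by
      rw [Finset.sum_comm]
      calc ∑ y : ZMod Q, ∑ x : ZMod Q, g2 y x ^ (3 / 2 : ℝ)
          ≤ ∑ y : ZMod Q, Cm * ∑ x : ZMod Q, (H x y ^ 2) ^ (3 / 2 : ℝ) :=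
            Finset.sum_le_sum fun x _ => g2sum x
        _ = Cm * ∑ x : ZMod Q, ∑ y : ZMod Q, |H x y| ^ 3 := by
            rw [Finset.sum_comm (f := fun x y => |H x y| ^ 3)]
            simp only [sq_rpow, Finset.mul_sum]
        _ ≤ Cm * 1 := by gcongr
        _ = Cm := mul_one _
    have s3 : ∑ x : ZMod Q, ∑ y : ZMod Q, g3 y (-x - y) ^ (3 / 2 : ℝ) ≤ Cm := by
      rw [Finset.sum_comm]
      calc ∑ y : ZMod Q, ∑ x : ZMod Q, g3 y (-x - y) ^ (3 / 2 : ℝ)
          = ∑ y : ZMod Q, ∑ x : ZMod Q, g3 y x ^ (3 / 2 : ℝ) := by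
            refine Finset.sum_congr rfl fun y _ => ?_
            rw [← Equiv.sum_comp (Equiv.subLeft (-y)) (fun x => g3 y x ^ (3 / 2 : ℝ))]
            refine Finset.sum_congr rfl fun x _ => ?_
            congr 2
            simp only [Equiv.subLeft_apply]
            ring
        _ ≤ ∑ x : ZMod Q, Cm * ∑ y : ZMod Q, (F1 x y ^ 2) ^ (3 / 2 : ℝ) :=
            Finset.sum_le_sum fun x _ => g3sum x
        _ = Cm * ∑ x : ZMod Q, ∑ y : ZMod Q, |F1 x y| ^ 3 := by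
            simp only [sq_rpow, Finset.mul_sum]
        _ ≤ Cm * 1 := by gcongr
        _ = Cm := mul_one _
    have s4 : ∑ x : ZMod Q, ∑ y : ZMod Q, g4 x (-x - y) ^ (3 / 2 : ℝ) ≤ Cm := by
      calc ∑ x : ZMod Q, ∑ y : ZMod Q, g4 x (-x - y) ^ (3 / 2 : ℝ)
          = ∑ x : ZMod Q, ∑ y : ZMod Q, g4 x y ^ (3 / 2 : ℝ) := by
            refine Finset.sum_congr rfl fun x _ => ?_
            rw [← Equiv.sum_comp (Equiv.subLeft (-x)) (fun y => g4 x y ^ (3 / 2 : ℝ))]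
            refine Finset.sum_congr rfl fun y _ => ?_
            congr 2
        _ ≤ ∑ x : ZMod Q, Cm * ∑ y : ZMod Q, (F2 y x ^ 2) ^ (3 / 2 : ℝ) :=
            Finset.sum_le_sum fun x _ => g4sum x
        _ = Cm * ∑ x : ZMod Q, ∑ y : ZMod Q, |F2 x y| ^ 3 := by
            rw [Finset.sum_comm (f := fun x y => |F2 x y| ^ 3)]
            simp only [sq_rpow, Finset.mul_sum]
        _ ≤ Cm * 1 := by gcongr
        _ = Cm := mul_one _
    calc ∑ x : ZMod Q, ∑ y : ZMod Q,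
          (8 * (g1 x y + g2 y x + g3 y (-x - y) + g4 x (-x - y))) ^ (3 / 2 : ℝ)
        ≤ ∑ x : ZMod Q, ∑ y : ZMod Q, (32 : ℝ) ^ (3 / 2 : ℝ) *
          (g1 x y ^ (3 / 2 : ℝ) + g2 y x ^ (3 / 2 : ℝ) + g3 y (-x - y) ^ (3 / 2 : ℝ) +
            g4 x (-x - y) ^ (3 / 2 : ℝ)) :=
          Finset.sum_le_sum fun x _ => Finset.sum_le_sum fun y _ =>
            rpow_four (g1nn _ _) (g2nn _ _) (g3nn _ _) (g4nn _ _)
      _ = (32 : ℝ) ^ (3 / 2 : ℝ) * (∑ x : ZMod Q, ∑ y : ZMod Q, g1 x y ^ (3 / 2 : ℝ) +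
            ∑ x : ZMod Q, ∑ y : ZMod Q, g2 y x ^ (3 / 2 : ℝ) +
            ∑ x : ZMod Q, ∑ y : ZMod Q, g3 y (-x - y) ^ (3 / 2 : ℝ) +
            ∑ x : ZMod Q, ∑ y : ZMod Q, g4 x (-x - y) ^ (3 / 2 : ℝ)) := by
          simp only [← Finset.mul_sum, Finset.sum_add_distrib]
      _ ≤ (32 : ℝ) ^ (3 / 2 : ℝ) * (4 * Cm) := by
          gcongr
          linarith
  · intro τ hτ X X' hX hX' N hN
    have hXt : ∀ x y, |(fun x y => X y x) x y| ≤ τ * |(fun x y => H y x) x y| := fun x y => hX y x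
    -- bounds for the windows
    have bR : ∀ s t, RR X N s t ≤ τ ^ 2 * (2 * g1 s t) := fun s t =>
      (RR_le hX N s t).trans (by
        gcongr
        exact window_max (f := fun y => H s y ^ 2) (g1nn s) (g1max s) hN t)
    have bC : ∀ s t, CC X N s t ≤ τ ^ 2 * (2 * g2 t s) := fun s t =>
      (CC_le hX N s t).trans (by
        gcongr
        exact window_max (f := fun y => H y t ^ 2) (g2nn t) (g2max t) hN s)
    have bRt : ∀ s t, RR (fun x y => X y x) N s t ≤ τ ^ 2 * (2 * g2 s t) := fun s t =>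
      (RR_le hXt N s t).trans (by
        gcongr
        exact window_max (f := fun y => H y s ^ 2) (g2nn s) (g2max s) hN t)
    have bCt : ∀ s t, CC (fun x y => X y x) N s t ≤ τ ^ 2 * (2 * g1 t s) := fun s t =>
      (CC_le hXt N s t).trans (by
        gcongr
        exact window_max (f := fun y => H t y ^ 2) (g1nn t) (g1max t) hN s)
    have bY1 : ∀ c : ℤ, (N : ℤ) ≤ c → c ≤ 2 * N → ∀ s t,
        YY (fun x y => F1 y x) N (-(c : ZMod Q)) s t ≤ 5 * g3 t (-s - t) := by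
      intro c hc hc' s t
      have := window_max' (fun x => sq_nonneg (F1 t x)) (g3nn t) (g3max t) hN (-s - t) hc hc'
      refine le_trans (le_of_eq ?_) this
      unfold YY
      congr 1
      refine Finset.sum_congr rfl fun d _ => ?_
      congr 2
      ring
    have bY2 : ∀ c : ℤ, (N : ℤ) ≤ c → c ≤ 2 * N → ∀ s t,
        YY F2 N (-(c : ZMod Q)) s t ≤ 5 * g4 t (-s - t) := by
      intro c hc hc' s t
      have := window_max' (fun x => sq_nonneg (F2 x t)) (g4nn t) (g4max t) hN (-s - t) hc hc'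
      refine le_trans (le_of_eq ?_) this
      unfold YY
      congr 1
      refine Finset.sum_congr rfl fun d _ => ?_
      congr 2
      ring
    have w1 : ∀ c : ℤ, (N : ℤ) ≤ c → c ≤ 2 * N →
        W X (fun x y => F1 y x) N N (-(c : ZMod Q)) - W X' (fun x y => F1 y x) N N (-(c : ZMod Q)) ≤
          τ * (1 + τ) * ∑ x : ZMod Q, ∑ y : ZMod Q, |X x y - X' x y| *
            (8 * (g1 x y + g2 y x + g3 y (-x - y) + g4 x (-x - y))) := by
      intro c hc hc'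
      refine W_core hN hτ (fun s t => 2 * g1 s t) (fun s t => 2 * g2 t s)
        (fun s t => 5 * g3 t (-s - t)) _ (fun s t => ?_) (fun s t => ?_) (fun s t => ?_) bR bC
        (bY1 c hc hc') (fun s t => ?_)
      · have := g1nn s t; positivity
      · have := g2nn t s; positivity
      · have := g3nn t (-s - t); positivity
      · have := g1nn s t
        have := g2nn t s
        have := g3nn t (-s - t)
        have := g4nn s (-s - t)
        linarith
    have w2 : ∀ c : ℤ, (N : ℤ) ≤ c → c ≤ 2 * N →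
        W (fun x y => X y x) F2 N N (-(c : ZMod Q)) - W (fun x y => X' y x) F2 N N (-(c : ZMod Q)) ≤
          τ * (1 + τ) * ∑ x : ZMod Q, ∑ y : ZMod Q, |X x y - X' x y| *
            (8 * (g1 x y + g2 y x + g3 y (-x - y) + g4 x (-x - y))) := by
      intro c hc hc'
      have := W_core (X := fun x y => X y x) (X' := fun x y => X' y x) (Z := F2)
        (n := -(c : ZMod Q)) hN hτ (fun s t => 2 * g2 s t)
        (fun s t => 2 * g1 t s) (fun s t => 5 * g4 t (-s - t))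
        (fun y x => 8 * (g1 x y + g2 y x + g3 y (-x - y) + g4 x (-x - y)))
        (fun s t => ?_) (fun s t => ?_) (fun s t => ?_) bRt bCt
        (bY2 c hc hc') (fun s t => ?_)
      · refine this.trans (le_of_eq ?_)
        rw [Finset.sum_comm]
      · have := g2nn s t; positivity
      · have := g1nn t s; positivity
      · have := g4nn t (-s - t); positivity
      · have := g2nn s t
        have := g1nn t s
        have := g3nn s (-s - t)
        have := g4nn t (-s - t)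
        have e : -t - s = -s - t := by ring
        simp only [e]
        linarith
    have hN2 : ((2 * N : ℤ) : ZMod Q) = 2 * (N : ZMod Q) := by push_cast; ring
    have hN1 : ((N : ℤ) : ZMod Q) = (N : ZMod Q) := by push_cast; ring
    refine ⟨?_, ?_, ?_, ?_⟩
    · have a1 := w1 (2 * N) (by omega) le_rfl
      have a2 := w1 N le_rfl (by omega)
      rw [hN2] at a1
      rw [hN1] at a2
      unfold Vref
      linarith
    · have a1 := w2 (2 * N) (by omega) le_rfl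
      have a2 := w2 N le_rfl (by omega)
      rw [hN2] at a1
      rw [hN1] at a2
      unfold Vref
      rw [W_comm F2 (fun x y => X y x), W_comm F2 (fun x y => X' y x),
        W_comm F2 (fun x y => X y x), W_comm F2 (fun x y => X' y x)]
      linarith
    · refine EW_core hN hτ (fun s t => 2 * g1 s t) (fun s t => 2 * g2 t s) _
        (fun s t => ?_) (fun s t => ?_) bR bC (fun s t => ?_)
      · have := g1nn s t; positivity
      · have := g2nn t s; positivity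
      · have := g1nn s t
        have := g2nn t s
        have := g3nn t (-s - t)
        have := g4nn s (-s - t)
        linarith
    · have := EW_core (X := fun x y => X y x) (X' := fun x y => X' y x) hN hτ
        (fun s t => 2 * g2 s t) (fun s t => 2 * g1 t s)
        (fun y x => 8 * (g1 x y + g2 y x + g3 y (-x - y) + g4 x (-x - y)))
        (fun s t => ?_) (fun s t => ?_) bRt bCt (fun s t => ?_)
      · refine this.trans (le_of_eq ?_)
        rw [Finset.sum_comm]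
      · have := g2nn s t; positivity
      · have := g1nn t s; positivity
      · have := g2nn s t
        have := g1nn t s
        have := g3nn s (-t - s)
        have := g4nn t (-t - s)
        linarith

end Crest.Agent.R072.Jump
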