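import Crest.Agent.R072.Lattice

/-! R072: cost of changing the first function, part A: the two inequalities `W_sub_le`, `EW_sub_le`. -/

set_option autoImplicit false

namespace Crest.Agent.R072.Jump

open Matrix Finset Crest.Agent.R072 Crest.Agent.R072.Lattice
open scoped MatrixOrder

/-- the two windows used below -/
noncomputable def RR {Q : ℕ} (X : ZMod Q → ZMod Q → ℝ) (N : ℕ) (x' x : ZMod Q) : ℝ :=
  (1 / (N : ℝ)) * ∑ d ∈ Ioo (-(N : ℤ)) N, X x' (x + (d : ZMod Q)) ^ 2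

noncomputable def CC {Q : ℕ} (X : ZMod Q → ZMod Q → ℝ) (N : ℕ) (x' x : ZMod Q) : ℝ :=
  (1 / (N : ℝ)) * ∑ d ∈ Ioo (-(N : ℤ)) N, X (x' + (d : ZMod Q)) x ^ 2

noncomputable def YY {Q : ℕ} (Z : ZMod Q → ZMod Q → ℝ) (N : ℕ) (n : ZMod Q) (x' x : ZMod Q) : ℝ :=
  (1 / (N : ℝ)) * ∑ d ∈ Ico (0 : ℤ) (3 * N), Z (n - x' - x + (d : ZMod Q)) x ^ 2

section aux

variable {r : ℕ}

/-- quadratic form -/
noncomputable def quad (S : Matrix (Fin r) (Fin r) ℝ) (x : Fin r → ℝ) : ℝ :=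
  ∑ j, x j * ∑ k, S j k * x k

theorem quad_eq (S : Matrix (Fin r) (Fin r) ℝ) (x : Fin r → ℝ) : quad S x = x ⬝ᵥ (S *ᵥ x) := rfl

theorem quad_sub_le {S : Matrix (Fin r) (Fin r) ℝ} (hS : S.PosSemidef) (x y : Fin r → ℝ) :
    quad S x - quad S y ≤ 2 * ∑ j, (x j - y j) * ∑ k, S j k * x k := by
  have h := hS.dotProduct_mulVec_nonneg (x - y)
  have hsym : ∀ u v : Fin r → ℝ, u ⬝ᵥ (S *ᵥ v) = v ⬝ᵥ (S *ᵥ u) := by
    intro u v
    have hT : Sᵀ = S := by
      have := hS.isHermitian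
      rw [IsHermitian, conjTranspose_eq_transpose_of_trivial] at this
      exact this
    rw [dotProduct_mulVec, ← mulVec_transpose, hT, dotProduct_comm]
  have e : ∑ j, (x j - y j) * ∑ k, S j k * x k = (x - y) ⬝ᵥ (S *ᵥ x) := rfl
  rw [quad_eq, quad_eq, e]
  simp only [star_trivial, mulVec_sub, dotProduct_sub, sub_dotProduct] at h ⊢
  rw [hsym y x] at *
  linarith

theorem abs_mulVec_le {S M : Matrix (Fin r) (Fin r) ℝ} (hS : S.PosSemidef) (hSM : S * S = M)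
    (x : Fin r → ℝ) (j : Fin r) :
    |∑ k, S j k * x k| ≤ Real.sqrt (M j j) * Real.sqrt (∑ k, x k ^ 2) := by
  have h1 : (∑ k, S j k * x k) ^ 2 ≤ (∑ k, S j k ^ 2) * ∑ k, x k ^ 2 :=
    Finset.sum_mul_sq_le_sq_mul_sq _ _ _
  have h2 : ∑ k, S j k ^ 2 = M j j := by
    rw [← hSM, mul_apply]
    refine Finset.sum_congr rfl fun k _ => ?_
    have := hS.isHermitian.apply k j
    simp only [star_trivial] at this
    rw [sq, ← this]
  rw [h2] at h1
  have h3 : 0 ≤ M j j := by rw [← h2]; positivity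
  rw [← Real.sqrt_mul h3]
  exact Real.abs_le_sqrt h1

theorem trace_mul_sum (S A : Matrix (Fin r) (Fin r) ℝ) (c : ℝ) (s : Finset ℕ)
    (x : ℕ → Fin r → ℝ) (hA : ∀ j j', A j j' = c * ∑ i ∈ s, x i j * x i j') :
    (S * A).trace = c * ∑ i ∈ s, quad S (x i) := by
  simp only [Matrix.trace, Matrix.diag_apply, Matrix.mul_apply, quad, hA, Finset.mul_sum]
  conv_rhs => rw [Finset.sum_comm]
  refine Finset.sum_congr rfl fun j _ => ?_
  conv_rhs => rw [Finset.sum_comm]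
  refine Finset.sum_congr rfl fun k _ => ?_
  refine Finset.sum_congr rfl fun i _ => ?_
  ring

/-- local estimate: `M = ∑ x_i x_i' + Zpart`, `M' = ∑ x'_i x'_i' + Zpart` (normalised by `1/N²`). -/
theorem phi_diff_le {M M' A A' : Matrix (Fin r) (Fin r) ℝ} (hM : M.PosSemidef)
    (hM' : M'.PosSemidef) (hMM : M - M' = A - A') (c : ℝ) (hc : 0 ≤ c) (s : Finset ℕ)
    (x x' : ℕ → Fin r → ℝ)
    (hA : ∀ j j', A j j' = c * ∑ i ∈ s, x i j * x i j')
    (hA' : ∀ j j', A' j j' = c * ∑ i ∈ s, x' i j * x' i j') :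
    phi M - phi M' ≤ 3 * c * ∑ i ∈ s, ∑ j, |x i j - x' i j| *
      (Real.sqrt (M j j) * Real.sqrt (∑ k, x i k ^ 2)) := by
  have h0 := phi_sub_le hM hM'
  set S := CFC.sqrt M with hS
  have hSp : S.PosSemidef := (CFC.sqrt_nonneg M).posSemidef
  have hSM : S * S = M := CFC.sqrt_mul_sqrt_self M hM.nonneg
  rw [hMM, mul_sub, trace_sub, trace_mul_sum S A c s x hA, trace_mul_sum S A' c s x' hA'] at h0
  refine h0.trans ?_
  rw [← mul_sub, ← Finset.sum_sub_distrib]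
  have h1 : ∑ i ∈ s, (quad S (x i) - quad S (x' i)) ≤ ∑ i ∈ s, 2 * ∑ j, |x i j - x' i j| *
      (Real.sqrt (M j j) * Real.sqrt (∑ k, x i k ^ 2)) := by
    refine Finset.sum_le_sum fun i _ => ?_
    refine (quad_sub_le hSp _ _).trans ?_
    refine mul_le_mul_of_nonneg_left (Finset.sum_le_sum fun j _ => ?_) (by norm_num)
    refine (le_abs_self _).trans ?_
    rw [abs_mul]
    exact mul_le_mul_of_nonneg_left (abs_mulVec_le hSp hSM _ _) (abs_nonneg _)
  rw [← Finset.mul_sum] at h1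
  calc 3 / 2 * (c * ∑ i ∈ s, (quad S (x i) - quad S (x' i)))
      ≤ 3 / 2 * (c * (2 * ∑ i ∈ s, ∑ j, |x i j - x' i j| *
      (Real.sqrt (M j j) * Real.sqrt (∑ k, x i k ^ 2)))) := by gcongr
    _ = _ := by ring

end aux

section windows

variable {Q : ℕ}

/-- shifting a window: `∑_{j<N} f(p+j)` is at most the two-sided window around `p + j₀`. -/
theorem sum_window_le {N : ℕ} (f : ZMod Q → ℝ) (hf : ∀ x, 0 ≤ f x) (p : ZMod Q) {j₀ : ℕ}
    (hj₀ : j₀ < N) :
    ∑ j ∈ range N, f (p + (j : ZMod Q)) ≤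
      ∑ d ∈ Ioo (-(N : ℤ)) N, f (p + (j₀ : ZMod Q) + (d : ZMod Q)) := by
  have : ∑ j ∈ range N, f (p + (j : ZMod Q)) =
      ∑ d ∈ (range N).image (fun j : ℕ => (j : ℤ) - j₀), f (p + (j₀ : ZMod Q) + (d : ZMod Q)) := by
    rw [Finset.sum_image]
    · refine Finset.sum_congr rfl fun j _ => ?_
      congr 1
      push_cast
      ring
    · intro a _ b _ hab
      simp only at hab
      omega
  rw [this]
  refine Finset.sum_le_sum_of_subset_of_nonneg ?_ fun d _ _ => hf _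
  intro d hd
  simp only [mem_image, mem_range, mem_Ioo] at hd ⊢
  obtain ⟨j, hj, rfl⟩ := hd
  omega

theorem sum_window_le' {N : ℕ} (f : ZMod Q → ℝ) (hf : ∀ x, 0 ≤ f x) (p : ZMod Q) {i₀ j₀ : ℕ}
    (hi₀ : i₀ < N) (hj₀ : j₀ < N) :
    ∑ j ∈ range N, f (p + (j : ZMod Q)) ≤
      ∑ d ∈ Ico (0 : ℤ) (3 * N), f (p - (i₀ : ZMod Q) - (j₀ : ZMod Q) + (d : ZMod Q)) := by
  have : ∑ j ∈ range N, f (p + (j : ZMod Q)) =
      ∑ d ∈ (range N).image (fun j : ℕ => (j : ℤ) + i₀ + j₀),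
        f (p - (i₀ : ZMod Q) - (j₀ : ZMod Q) + (d : ZMod Q)) := by
    rw [Finset.sum_image]
    · refine Finset.sum_congr rfl fun j _ => ?_
      congr 1
      push_cast
      ring
    · intro a _ b _ hab
      simp only at hab
      omega
  rw [this]
  refine Finset.sum_le_sum_of_subset_of_nonneg ?_ fun d _ _ => hf _
  intro d hd
  simp only [mem_image, mem_range, mem_Ico] at hd ⊢
  obtain ⟨j, hj, rfl⟩ := hd
  omega

theorem sum_shift_all [NeZero Q] {N : ℕ} (g : ZMod Q → ZMod Q → ℝ) :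
    ∑ p : ZMod Q, ∑ q : ZMod Q, ∑ i ∈ range N, ∑ j : Fin N,
      g (q + (i : ZMod Q)) (p + ((j : ℕ) : ZMod Q)) = N * N * ∑ x' : ZMod Q, ∑ x : ZMod Q, g x' x := by
  have h1 : ∀ (i : ℕ) (j : Fin N), ∑ p : ZMod Q, ∑ q : ZMod Q,
      g (q + (i : ZMod Q)) (p + ((j : ℕ) : ZMod Q)) = ∑ x' : ZMod Q, ∑ x : ZMod Q, g x' x := by
    intro i j
    rw [Finset.sum_comm]
    rw [← Equiv.sum_comp (Equiv.addRight (i : ZMod Q)) (fun x' => ∑ x : ZMod Q, g x' x)]
    refine Finset.sum_congr rfl fun q _ => ?_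
    rw [← Equiv.sum_comp (Equiv.addRight ((j : ℕ) : ZMod Q)) (fun x => g _ x)]
    rfl
  calc ∑ p : ZMod Q, ∑ q : ZMod Q, ∑ i ∈ range N, ∑ j : Fin N,
      g (q + (i : ZMod Q)) (p + ((j : ℕ) : ZMod Q))
      = ∑ p : ZMod Q, ∑ i ∈ range N, ∑ q : ZMod Q, ∑ j : Fin N,
        g (q + (i : ZMod Q)) (p + ((j : ℕ) : ZMod Q)) := by
        refine Finset.sum_congr rfl fun p _ => Finset.sum_comm
    _ = ∑ i ∈ range N, ∑ p : ZMod Q, ∑ q : ZMod Q, ∑ j : Fin N,
        g (q + (i : ZMod Q)) (p + ((j : ℕ) : ZMod Q)) := Finset.sum_comm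
    _ = ∑ i ∈ range N, ∑ p : ZMod Q, ∑ j : Fin N, ∑ q : ZMod Q,
        g (q + (i : ZMod Q)) (p + ((j : ℕ) : ZMod Q)) := by
        refine Finset.sum_congr rfl fun i _ => Finset.sum_congr rfl fun p _ => Finset.sum_comm
    _ = ∑ i ∈ range N, ∑ j : Fin N, ∑ p : ZMod Q, ∑ q : ZMod Q,
        g (q + (i : ZMod Q)) (p + ((j : ℕ) : ZMod Q)) := by
        refine Finset.sum_congr rfl fun i _ => Finset.sum_comm
    _ = ∑ i ∈ range N, ∑ j : Fin N, ∑ x' : ZMod Q, ∑ x : ZMod Q, g x' x := by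
        refine Finset.sum_congr rfl fun i _ => Finset.sum_congr rfl fun j _ => h1 i j
    _ = _ := by
        simp only [Finset.sum_const, Finset.card_range, Finset.card_univ, Fintype.card_fin,
          nsmul_eq_mul]
        ring

end windows

section main

variable {Q : ℕ} [NeZero Q]

theorem YY_nonneg {Q : ℕ} (Z : ZMod Q → ZMod Q → ℝ) (N : ℕ) (n x' x : ZMod Q) : 0 ≤ YY Z N n x' x := by
  unfold YY; positivity

theorem RR_nonneg {Q : ℕ} (X : ZMod Q → ZMod Q → ℝ) (N : ℕ) (x' x : ZMod Q) : 0 ≤ RR X N x' x := by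
  unfold RR; positivity

theorem CC_nonneg {Q : ℕ} (X : ZMod Q → ZMod Q → ℝ) (N : ℕ) (x' x : ZMod Q) : 0 ≤ CC X N x' x := by
  unfold CC; positivity

theorem row_le {N : ℕ} (hN : 0 < N) (X : ZMod Q → ZMod Q → ℝ) (q p : ZMod Q) (j : Fin N) :
    ∑ k : Fin N, X q (p + ((k : ℕ) : ZMod Q)) ^ 2 ≤ N * RR X N q (p + ((j : ℕ) : ZMod Q)) := by
  have hN' : (0 : ℝ) < N := by exact_mod_cast hN
  rw [RR, ← mul_assoc, mul_one_div_cancel hN'.ne', one_mul,
    Fin.sum_univ_eq_sum_range (fun k => X q (p + (k : ZMod Q)) ^ 2) N]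
  exact sum_window_le (fun x => X q x ^ 2) (fun x => by positivity) p j.2

theorem col_le {N : ℕ} (hN : 0 < N) (X : ZMod Q → ZMod Q → ℝ) (q x : ZMod Q) {i : ℕ}
    (hi : i < N) :
    ∑ k ∈ range N, X (q + (k : ZMod Q)) x ^ 2 ≤ N * CC X N (q + (i : ZMod Q)) x := by
  have hN' : (0 : ℝ) < N := by exact_mod_cast hN
  rw [CC, ← mul_assoc, mul_one_div_cancel hN'.ne', one_mul]
  exact sum_window_le (fun y => X y x ^ 2) (fun x => by positivity) q hi

theorem yy_le {N : ℕ} (hN : 0 < N) (Z : ZMod Q → ZMod Q → ℝ) (n p q : ZMod Q) {i : ℕ}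
    (hi : i < N) (j : Fin N) :
    ∑ k ∈ range N, Z (n - p - q + (k : ZMod Q)) (p + ((j : ℕ) : ZMod Q)) ^ 2 ≤
      N * YY Z N n (q + (i : ZMod Q)) (p + ((j : ℕ) : ZMod Q)) := by
  have hN' : (0 : ℝ) < N := by exact_mod_cast hN
  rw [YY, ← mul_assoc, mul_one_div_cancel hN'.ne', one_mul]
  have := sum_window_le' (fun y => Z y (p + ((j : ℕ) : ZMod Q)) ^ 2) (fun x => by positivity)
    (n - p - q) hi j.2
  refine this.trans (le_of_eq ?_)
  refine Finset.sum_congr rfl fun d _ => ?_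
  congr 2
  ring

/-- (C7) for `W` -/
theorem W_sub_le (X X' Z : ZMod Q → ZMod Q → ℝ) {N : ℕ} (hN : 0 < N)
    (n : ZMod Q) :
    W X Z N N n - W X' Z N N n ≤
      3 * ∑ x' : ZMod Q, ∑ x : ZMod Q, |X x' x - X' x' x| * Real.sqrt (RR X N x' x) *
        Real.sqrt (CC X N x' x + YY Z N n x' x) := by
  have hN' : (0 : ℝ) < N := by exact_mod_cast hN
  set g : ZMod Q → ZMod Q → ℝ := fun x' x => |X x' x - X' x' x| * Real.sqrt (RR X N x' x) *
        Real.sqrt (CC X N x' x + YY Z N n x' x) with hg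
  have key : ∀ p q : ZMod Q,
      phi (abar X N N q p + abar Z N N (n - p - q) p) -
        phi (abar X' N N q p + abar Z N N (n - p - q) p) ≤
      3 * (1 / ((N : ℝ) * N)) * ∑ i ∈ range N, ∑ j : Fin N,
        g (q + (i : ZMod Q)) (p + ((j : ℕ) : ZMod Q)) := by
    intro p q
    have h := phi_diff_le (A := abar X N N q p) (A' := abar X' N N q p)
      ((abar_posSemidef X N N q p).add (abar_posSemidef Z N N (n - p - q) p))
      ((abar_posSemidef X' N N q p).add (abar_posSemidef Z N N (n - p - q) p))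
      (by abel) (1 / ((N : ℝ) * N)) (by positivity) (range N)
      (fun i j => X (q + (i : ZMod Q)) (p + ((j : ℕ) : ZMod Q)))
      (fun i j => X' (q + (i : ZMod Q)) (p + ((j : ℕ) : ZMod Q)))
      (fun j j' => rfl) (fun j j' => rfl)
    refine h.trans ?_
    refine mul_le_mul_of_nonneg_left ?_ (by positivity)
    refine Finset.sum_le_sum fun i hi => Finset.sum_le_sum fun j _ => ?_
    rw [hg]
    simp only
    rw [mul_assoc]
    refine mul_le_mul_of_nonneg_left ?_ (abs_nonneg _)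
    have hi' : i < N := by simpa using hi
    -- diagonal entry
    have hM : (abar X N N q p + abar Z N N (n - p - q) p) j j ≤
        (1 / N) * (CC X N (q + (i : ZMod Q)) (p + ((j : ℕ) : ZMod Q)) +
          YY Z N n (q + (i : ZMod Q)) (p + ((j : ℕ) : ZMod Q))) := by
      have e1 : (abar X N N q p + abar Z N N (n - p - q) p) j j =
          (1 / ((N : ℝ) * N)) * (∑ k ∈ range N, X (q + (k : ZMod Q)) (p + ((j : ℕ) : ZMod Q)) ^ 2 +
            ∑ k ∈ range N, Z (n - p - q + (k : ZMod Q)) (p + ((j : ℕ) : ZMod Q)) ^ 2) := by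
        simp only [Matrix.add_apply, abar]
        rw [← mul_add]
        congr 2 <;> exact Finset.sum_congr rfl fun k _ => by rw [sq]
      rw [e1]
      have c1 := col_le hN X q (p + ((j : ℕ) : ZMod Q)) hi'
      have c2 := yy_le hN Z n p q hi' j
      calc (1 / ((N : ℝ) * N)) * (∑ k ∈ range N, X (q + (k : ZMod Q)) (p + ((j : ℕ) : ZMod Q)) ^ 2 +
            ∑ k ∈ range N, Z (n - p - q + (k : ZMod Q)) (p + ((j : ℕ) : ZMod Q)) ^ 2)
          ≤ (1 / ((N : ℝ) * N)) * (N * CC X N (q + (i : ZMod Q)) (p + ((j : ℕ) : ZMod Q)) +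
            N * YY Z N n (q + (i : ZMod Q)) (p + ((j : ℕ) : ZMod Q))) := by gcongr
        _ = _ := by field_simp
    have hR := row_le hN X (q + (i : ZMod Q)) p j
    rw [← Real.sqrt_mul (RR_nonneg _ _ _ _)]
    rw [← Real.sqrt_mul ((((abar_posSemidef X N N q p).add
      (abar_posSemidef Z N N (n - p - q) p))).diag_nonneg)]
    apply Real.sqrt_le_sqrt
    have a1 : 0 ≤ RR X N (q + (i : ZMod Q)) (p + ((j : ℕ) : ZMod Q)) := RR_nonneg _ _ _ _
    have a2 : 0 ≤ CC X N (q + (i : ZMod Q)) (p + ((j : ℕ) : ZMod Q)) := CC_nonneg _ _ _ _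
    have a3 : 0 ≤ YY Z N n (q + (i : ZMod Q)) (p + ((j : ℕ) : ZMod Q)) := YY_nonneg _ _ _ _ _
    calc (abar X N N q p + abar Z N N (n - p - q) p) j j *
          ∑ k : Fin N, X (q + (i : ZMod Q)) (p + ((k : ℕ) : ZMod Q)) ^ 2
        ≤ ((1 / N) * (CC X N (q + (i : ZMod Q)) (p + ((j : ℕ) : ZMod Q)) +
          YY Z N n (q + (i : ZMod Q)) (p + ((j : ℕ) : ZMod Q)))) *
            (N * RR X N (q + (i : ZMod Q)) (p + ((j : ℕ) : ZMod Q))) := by
          apply mul_le_mul hM hR (by positivity) (by positivity)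
      _ = _ := by field_simp
  calc W X Z N N n - W X' Z N N n
      = ∑ p : ZMod Q, ∑ q : ZMod Q, (phi (abar X N N q p + abar Z N N (n - p - q) p) -
        phi (abar X' N N q p + abar Z N N (n - p - q) p)) := by
        simp only [W, Finset.sum_sub_distrib]
    _ ≤ ∑ p : ZMod Q, ∑ q : ZMod Q, 3 * (1 / ((N : ℝ) * N)) * ∑ i ∈ range N, ∑ j : Fin N,
        g (q + (i : ZMod Q)) (p + ((j : ℕ) : ZMod Q)) :=
        Finset.sum_le_sum fun p _ => Finset.sum_le_sum fun q _ => key p q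
    _ = 3 * (1 / ((N : ℝ) * N)) * ∑ p : ZMod Q, ∑ q : ZMod Q, ∑ i ∈ range N, ∑ j : Fin N,
        g (q + (i : ZMod Q)) (p + ((j : ℕ) : ZMod Q)) := by
        simp only [Finset.mul_sum]
    _ = 3 * ∑ x' : ZMod Q, ∑ x : ZMod Q, g x' x := by
        rw [sum_shift_all]
        field_simp
    _ = _ := rfl

theorem W_zero (X : ZMod Q → ZMod Q → ℝ) (a r : ℕ) (n : ZMod Q) :
    W X (fun _ _ => 0) a r n = EW X a r := by
  unfold W EW
  refine Finset.sum_congr rfl fun p _ => Finset.sum_congr rfl fun q _ => ?_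
  congr 1
  have : abar (fun _ _ : ZMod Q => (0 : ℝ)) a r (n - p - q) p = 0 := by
    ext j j'
    simp [abar]
  rw [this, add_zero]

/-- (C7) for `EW` -/
theorem EW_sub_le (X X' : ZMod Q → ZMod Q → ℝ) {N : ℕ} (hN : 0 < N) :
    EW X N N - EW X' N N ≤
      3 * ∑ x' : ZMod Q, ∑ x : ZMod Q, |X x' x - X' x' x| * Real.sqrt (RR X N x' x) *
        Real.sqrt (CC X N x' x) := by
  have h := W_sub_le X X' (fun _ _ => 0) hN 0
  rw [W_zero, W_zero] at h
  refine h.trans (le_of_eq ?_)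
  congr 1
  refine Finset.sum_congr rfl fun x' _ => Finset.sum_congr rfl fun x _ => ?_
  congr 2
  simp [YY]

end main

end Crest.Agent.R072.Jump
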