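import Crest.Agent.R072.Kernel

/-! R072: auxiliary lemmas for the kernel estimates. -/

set_option autoImplicit false

namespace Crest.Agent.R072.Kernel

open Finset Filter Topology Crest.Agent.R072

/-! ### splitting sums -/

theorem sum_range_two_mul {M : Type*} [AddCommMonoid M] (f : ℕ → M) (N : ℕ) :
    ∑ u ∈ range (2 * N), f u = ∑ v ∈ range N, (f (2 * v) + f (2 * v + 1)) := by
  induction N with
  | zero => simp
  | succ N ih =>
    rw [show 2 * (N + 1) = 2 * N + 1 + 1 by ring, sum_range_succ, sum_range_succ, ih,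
      sum_range_succ]
    rw [add_assoc]

theorem sum_Icc_symm (f : ℤ → ℝ) (K : ℕ) :
    ∑ s ∈ Icc (-(K : ℤ)) K, f s = f 0 + ∑ s ∈ range K, (f (s + 1) + f (-(s + 1))) := by
  induction K with
  | zero => simp
  | succ K ih =>
    have h : Icc (-((K + 1 : ℕ) : ℤ)) ((K + 1 : ℕ) : ℤ) =
        insert ((K : ℤ) + 1) (insert (-((K : ℤ) + 1)) (Icc (-(K : ℤ)) K)) := by
      ext x
      simp only [mem_Icc, mem_insert]
      push_cast
      omega
    rw [h, sum_insert, sum_insert, ih, sum_range_succ]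
    · ring
    · simp only [mem_Icc]; omega
    · simp only [mem_insert, mem_Icc]; omega

/-! ### taps -/

theorem theta_nonneg (m : ℕ) : 0 ≤ theta m := by
  unfold theta
  have : (1 : ℝ) / 4 ^ m ≤ 1 := by
    rw [div_le_one (by positivity)]
    exact one_le_pow₀ (by norm_num)
  linarith

theorem theta_le (m : ℕ) : theta m ≤ 1 / 4 := by
  unfold theta
  have : (0 : ℝ) ≤ 1 / 4 ^ m := by positivity
  linarith

theorem theta_diff (m : ℕ) : |theta (m + 1) - theta m| ≤ (3 / 16) * (1 / 4) ^ m := by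
  have : theta (m + 1) - theta m = (3 / 16) * (1 / 4) ^ m := by
    unfold theta
    rw [pow_succ, one_div_pow]
    field_simp
    ring
  rw [this, abs_of_nonneg (by positivity)]

theorem abs_mul_le' {a x α B : ℝ} (ha : |a| ≤ α) (hx : |x| ≤ B) : |a * x| ≤ α * B := by
  rw [abs_mul]
  exact mul_le_mul ha hx (abs_nonneg _) (le_trans (abs_nonneg _) ha)

theorem eE_bound {t : ℝ} (ht0 : 0 ≤ t) (ht : t ≤ 1 / 4) (c : ℤ → ℝ) (l : ℤ) (c0 B : ℝ)
    (h : ∀ i, l - 2 ≤ i → i ≤ l + 5 → |c i - c0| ≤ B) : |eE t c l| ≤ B := by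
  have h1 := h (l - 2) (by omega) (by omega)
  have h2 := h (l - 1) (by omega) (by omega)
  have h3 := h l (by omega) (by omega)
  have h4 := h (l + 1) (by omega) (by omega)
  have h5 := h (l + 2) (by omega) (by omega)
  have h6 := h (l + 3) (by omega) (by omega)
  have h7 := h (l + 4) (by omega) (by omega)
  have h8 := h (l + 5) (by omega) (by omega)
  have hB : 0 ≤ B := le_trans (abs_nonneg _) h1
  have e : eE t c l = (-3 / 512 - t / 128) * (c (l - 2) - c0) +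
      (-9 / 512 - 3 * t / 128) * (c (l - 1) - c0) +
      (-41 / 512 - 19 * t / 128) * (c l - c0) + (-99 / 512 - 49 * t / 128) * (c (l + 1) - c0) +
      (99 / 512 + 49 * t / 128) * (c (l + 2) - c0) + (41 / 512 + 19 * t / 128) * (c (l + 3) - c0) +
      (9 / 512 + 3 * t / 128) * (c (l + 4) - c0) + (3 / 512 + t / 128) * (c (l + 5) - c0) := by
    unfold eE; ring
  rw [e]
  have g1 := abs_mul_le' (a := -3 / 512 - t / 128) (α := 4 / 512)
    (by rw [abs_le]; constructor <;> linarith) h1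
  have g2 := abs_mul_le' (a := -9 / 512 - 3 * t / 128) (α := 12 / 512)
    (by rw [abs_le]; constructor <;> linarith) h2
  have g3 := abs_mul_le' (a := -41 / 512 - 19 * t / 128) (α := 60 / 512)
    (by rw [abs_le]; constructor <;> linarith) h3
  have g4 := abs_mul_le' (a := -99 / 512 - 49 * t / 128) (α := 148 / 512)
    (by rw [abs_le]; constructor <;> linarith) h4
  have g5 := abs_mul_le' (a := 99 / 512 + 49 * t / 128) (α := 148 / 512)
    (by rw [abs_le]; constructor <;> linarith) h5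
  have g6 := abs_mul_le' (a := 41 / 512 + 19 * t / 128) (α := 60 / 512)
    (by rw [abs_le]; constructor <;> linarith) h6
  have g7 := abs_mul_le' (a := 9 / 512 + 3 * t / 128) (α := 12 / 512)
    (by rw [abs_le]; constructor <;> linarith) h7
  have g8 := abs_mul_le' (a := 3 / 512 + t / 128) (α := 4 / 512)
    (by rw [abs_le]; constructor <;> linarith) h8
  rw [abs_le] at g1 g2 g3 g4 g5 g6 g7 g8 ⊢
  constructor <;> linarith [g1.1, g1.2, g2.1, g2.2, g3.1, g3.2, g4.1, g4.2, g5.1, g5.2, g6.1, g6.2,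
    g7.1, g7.2, g8.1, g8.2]

theorem eO_bound {t : ℝ} (ht0 : 0 ≤ t) (ht : t ≤ 1 / 4) (c : ℤ → ℝ) (l : ℤ) (c0 B : ℝ)
    (h : ∀ i, l - 2 ≤ i → i ≤ l + 5 → |c i - c0| ≤ B) : |eO t c l| ≤ B := by
  have h2 := h (l - 1) (by omega) (by omega)
  have h3 := h l (by omega) (by omega)
  have h4 := h (l + 1) (by omega) (by omega)
  have h5 := h (l + 2) (by omega) (by omega)
  have h6 := h (l + 3) (by omega) (by omega)
  have h7 := h (l + 4) (by omega) (by omega)
  have hB : 0 ≤ B := le_trans (abs_nonneg _) h2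
  have e : eO t c l = (-9 / 256 - 3 * t / 64) * (c (l - 1) - c0) +
      (-27 / 256 - 9 * t / 64) * (c l - c0) +
      (-9 / 128 - 11 * t / 32) * (c (l + 1) - c0) + (9 / 128 + 11 * t / 32) * (c (l + 2) - c0) +
      (27 / 256 + 9 * t / 64) * (c (l + 3) - c0) + (9 / 256 + 3 * t / 64) * (c (l + 4) - c0) := by
    unfold eO; ring
  rw [e]
  have g1 := abs_mul_le' (a := -9 / 256 - 3 * t / 64) (α := 12 / 256)
    (by rw [abs_le]; constructor <;> linarith) h2
  have g2 := abs_mul_le' (a := -27 / 256 - 9 * t / 64) (α := 36 / 256)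
    (by rw [abs_le]; constructor <;> linarith) h3
  have g3 := abs_mul_le' (a := -9 / 128 - 11 * t / 32) (α := 20 / 128)
    (by rw [abs_le]; constructor <;> linarith) h4
  have g4 := abs_mul_le' (a := 9 / 128 + 11 * t / 32) (α := 20 / 128)
    (by rw [abs_le]; constructor <;> linarith) h5
  have g5 := abs_mul_le' (a := 27 / 256 + 9 * t / 64) (α := 36 / 256)
    (by rw [abs_le]; constructor <;> linarith) h6
  have g6 := abs_mul_le' (a := 9 / 256 + 3 * t / 64) (α := 12 / 256)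
    (by rw [abs_le]; constructor <;> linarith) h7
  rw [abs_le] at g1 g2 g3 g4 g5 g6 ⊢
  constructor <;> linarith [g1.1, g1.2, g2.1, g2.2, g3.1, g3.2, g4.1, g4.2, g5.1, g5.2, g6.1, g6.2]

/-- derivative taps in `t` -/
theorem eE_t (t t' : ℝ) (c : ℤ → ℝ) (l : ℤ) :
    eE t c l - eE t' c l = (t - t') * (eE 1 c l - eE 0 c l) := by
  unfold eE; ring

theorem eO_t (t t' : ℝ) (c : ℤ → ℝ) (l : ℤ) :
    eO t c l - eO t' c l = (t - t') * (eO 1 c l - eO 0 c l) := by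
  unfold eO; ring

theorem eE_sub (t : ℝ) (c c' : ℤ → ℝ) (l : ℤ) :
    eE t c l - eE t c' l = eE t (fun i => c i - c' i) l := by
  unfold eE; ring

theorem eO_sub (t : ℝ) (c c' : ℤ → ℝ) (l : ℤ) :
    eO t c l - eO t c' l = eO t (fun i => c i - c' i) l := by
  unfold eO; ring

theorem eE_t_bound (c : ℤ → ℝ) (l : ℤ) (c0 B : ℝ)
    (h : ∀ i, l - 2 ≤ i → i ≤ l + 5 → |c i - c0| ≤ B) : |eE 1 c l - eE 0 c l| ≤ 8 * B := by
  have h4 : eE 1 c l - eE 0 c l = 4 * (eE (1 / 4) c l - eE 0 c l) := by unfold eE; ring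
  have a1 := eE_bound (t := 1 / 4) (by norm_num) (by norm_num) c l c0 B h
  have a2 := eE_bound (t := 0) (by norm_num) (by norm_num) c l c0 B h
  rw [h4, abs_mul]
  have := abs_sub (eE (1 / 4) c l) (eE 0 c l)
  rw [abs_of_pos (by norm_num : (0 : ℝ) < 4)]
  linarith

theorem eO_t_bound (c : ℤ → ℝ) (l : ℤ) (c0 B : ℝ)
    (h : ∀ i, l - 2 ≤ i → i ≤ l + 5 → |c i - c0| ≤ B) : |eO 1 c l - eO 0 c l| ≤ 8 * B := by
  have h4 : eO 1 c l - eO 0 c l = 4 * (eO (1 / 4) c l - eO 0 c l) := by unfold eO; ring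
  have a1 := eO_bound (t := 1 / 4) (by norm_num) (by norm_num) c l c0 B h
  have a2 := eO_bound (t := 0) (by norm_num) (by norm_num) c l c0 B h
  rw [h4, abs_mul]
  have := abs_sub (eO (1 / 4) c l) (eO 0 c l)
  rw [abs_of_pos (by norm_num : (0 : ℝ) < 4)]
  linarith

/-- general bound for `ee` -/
theorem ee_bound (κ : ℤ → ℝ) (m : ℕ) (l : ℤ) (c0 B : ℝ)
    (h : ∀ i, l - 2 ≤ i → i ≤ l + 5 → |cc κ (2 ^ m) i - c0| ≤ B) : |ee κ m l| ≤ B := by
  unfold ee
  split_ifs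
  · exact eE_bound (theta_nonneg m) (theta_le m) _ l c0 B h
  · exact eO_bound (theta_nonneg m) (theta_le m) _ l c0 B h

/-- difference of two scales -/
theorem ee_scale_diff (κ : ℤ → ℝ) (m : ℕ) (l : ℤ) (c0 B1 B2 : ℝ)
    (h1 : ∀ i, l - 2 ≤ i → i ≤ l + 5 → |cc κ (2 ^ (m + 1)) i - cc κ (2 ^ m) i| ≤ B1)
    (h2 : ∀ i, l - 2 ≤ i → i ≤ l + 5 → |cc κ (2 ^ m) i - c0| ≤ B2) :
    |ee κ (m + 1) l - ee κ m l| ≤ B1 + 2 * (1 / 4) ^ m * B2 := by
  have hB2 : 0 ≤ B2 := le_trans (abs_nonneg _) (h2 l (by omega) (by omega))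
  have hth := theta_diff m
  unfold ee
  split_ifs
  · have e : eE (theta (m + 1)) (cc κ (2 ^ (m + 1))) l - eE (theta m) (cc κ (2 ^ m)) l =
        eE (theta (m + 1)) (fun i => cc κ (2 ^ (m + 1)) i - cc κ (2 ^ m) i) l +
        (theta (m + 1) - theta m) * (eE 1 (cc κ (2 ^ m)) l - eE 0 (cc κ (2 ^ m)) l) := by
      rw [← eE_sub, ← eE_t]; ring
    rw [e]
    have a1 := eE_bound (theta_nonneg (m + 1)) (theta_le (m + 1))
      (fun i => cc κ (2 ^ (m + 1)) i - cc κ (2 ^ m) i) l 0 B1 (by simpa using h1)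
    have a2 := eE_t_bound (cc κ (2 ^ m)) l c0 B2 h2
    have a3 := abs_mul_le' hth a2
    refine le_trans (abs_add_le _ _) ?_
    have : (3 : ℝ) / 16 * (1 / 4) ^ m * (8 * B2) ≤ 2 * (1 / 4) ^ m * B2 := by
      have : 0 ≤ (1 / 4 : ℝ) ^ m * B2 := by positivity
      nlinarith
    linarith
  · have e : eO (theta (m + 1)) (cc κ (2 ^ (m + 1))) l - eO (theta m) (cc κ (2 ^ m)) l =
        eO (theta (m + 1)) (fun i => cc κ (2 ^ (m + 1)) i - cc κ (2 ^ m) i) l +
        (theta (m + 1) - theta m) * (eO 1 (cc κ (2 ^ m)) l - eO 0 (cc κ (2 ^ m)) l) := by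
      rw [← eO_sub, ← eO_t]; ring
    rw [e]
    have a1 := eO_bound (theta_nonneg (m + 1)) (theta_le (m + 1))
      (fun i => cc κ (2 ^ (m + 1)) i - cc κ (2 ^ m) i) l 0 B1 (by simpa using h1)
    have a2 := eO_t_bound (cc κ (2 ^ m)) l c0 B2 h2
    have a3 := abs_mul_le' hth a2
    refine le_trans (abs_add_le _ _) ?_
    have : (3 : ℝ) / 16 * (1 / 4) ^ m * (8 * B2) ≤ 2 * (1 / 4) ^ m * B2 := by
      have : 0 ≤ (1 / 4 : ℝ) ^ m * B2 := by positivity
      nlinarith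
    linarith

/-! ### triple sums -/

/-- the coefficient as a plain average -/
theorem cc_eq (κ : ℤ → ℝ) {N : ℕ} (hN : 0 < N) (i : ℤ) :
    cc κ N i = (1 / (N : ℝ) ^ 2) * ∑ i0 ∈ range N, ∑ i1 ∈ range N, ∑ i2 ∈ range N,
      κ (i * N + i0 + i1 + i2) := by
  unfold cc aT
  have : (N : ℝ) ≠ 0 := by positivity
  rw [← mul_assoc]
  congr 1
  field_simp

theorem triple_le (N : ℕ) (F : ℕ → ℕ → ℕ → ℝ) (B : ℝ)
    (h : ∀ i0 < N, ∀ i1 < N, ∀ i2 < N, |F i0 i1 i2| ≤ B) :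
    |∑ i0 ∈ range N, ∑ i1 ∈ range N, ∑ i2 ∈ range N, F i0 i1 i2| ≤ (N : ℝ) ^ 3 * B := by
  calc |∑ i0 ∈ range N, ∑ i1 ∈ range N, ∑ i2 ∈ range N, F i0 i1 i2|
      ≤ ∑ i0 ∈ range N, ∑ i1 ∈ range N, ∑ i2 ∈ range N, |F i0 i1 i2| := by
        refine le_trans (abs_sum_le_sum_abs _ _) (sum_le_sum fun i0 _ => ?_)
        refine le_trans (abs_sum_le_sum_abs _ _) (sum_le_sum fun i1 _ => ?_)
        exact abs_sum_le_sum_abs _ _
    _ ≤ ∑ i0 ∈ range N, ∑ i1 ∈ range N, ∑ i2 ∈ range N, B := by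
        refine sum_le_sum fun i0 h0 => sum_le_sum fun i1 h1 => sum_le_sum fun i2 h2 => ?_
        exact h i0 (mem_range.mp h0) i1 (mem_range.mp h1) i2 (mem_range.mp h2)
    _ = (N : ℝ) ^ 3 * B := by
        simp only [sum_const, card_range, nsmul_eq_mul]
        ring

theorem cc_sub_bound (κ κ' : ℤ → ℝ) {N : ℕ} (hN : 0 < N) (i j : ℤ) (B : ℝ)
    (h : ∀ i0 < N, ∀ i1 < N, ∀ i2 < N,
      |κ (i * N + (i0 : ℕ) + (i1 : ℕ) + (i2 : ℕ)) - κ' (j * N + (i0 : ℕ) + (i1 : ℕ) + (i2 : ℕ))| ≤ B) :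
    |cc κ N i - cc κ' N j| ≤ N * B := by
  have hN' : (0 : ℝ) < N := by exact_mod_cast hN
  rw [cc_eq κ hN, cc_eq κ' hN, ← mul_sub]
  simp only [← sum_sub_distrib]
  rw [abs_mul, abs_of_pos (by positivity)]
  have := triple_le N (fun i0 i1 i2 => κ (i * N + (i0 : ℕ) + (i1 : ℕ) + (i2 : ℕ)) -
    κ' (j * N + (i0 : ℕ) + (i1 : ℕ) + (i2 : ℕ))) B h
  calc 1 / (N : ℝ) ^ 2 * _ ≤ 1 / (N : ℝ) ^ 2 * ((N : ℝ) ^ 3 * B) := by
        refine mul_le_mul_of_nonneg_left this (by positivity)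
    _ = N * B := by field_simp

theorem cc_abs_bound (κ : ℤ → ℝ) {N : ℕ} (hN : 0 < N) (i : ℤ) (B : ℝ)
    (h : ∀ i0 < N, ∀ i1 < N, ∀ i2 < N, |κ (i * N + (i0 : ℕ) + (i1 : ℕ) + (i2 : ℕ))| ≤ B) :
    |cc κ N i| ≤ N * B := by
  have := cc_sub_bound κ (fun _ => 0) hN i i B (by simpa using h)
  have h0 : cc (fun _ => 0) N i = 0 := by simp [cc, aT]
  rwa [h0, sub_zero] at this

/-- window of a coefficient -/
theorem window {N : ℕ} (hN : 0 < N) {l i : ℤ} (h1 : l - 2 ≤ i) (h2 : i ≤ l + 5)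
    {i0 i1 i2 : ℕ} (h0 : i0 < N) (h1' : i1 < N) (h2' : i2 < N) :
    (l - 2) * N ≤ i * N + i0 + i1 + i2 ∧ i * N + i0 + i1 + i2 < (l + 8) * N := by
  have hN' : (0 : ℤ) < N := by exact_mod_cast hN
  have a1 : (l - 2) * N ≤ i * N := mul_le_mul_of_nonneg_right h1 hN'.le
  have a2 : i * N ≤ (l + 5) * N := mul_le_mul_of_nonneg_right h2 hN'.le
  have b0 : (i0 : ℤ) + 1 ≤ N := by exact_mod_cast h0
  have b1 : (i1 : ℤ) + 1 ≤ N := by exact_mod_cast h1'
  have b2 : (i2 : ℤ) + 1 ≤ N := by exact_mod_cast h2'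
  constructor
  · linarith [Int.natCast_nonneg i0, Int.natCast_nonneg i1, Int.natCast_nonneg i2]
  · nlinarith

theorem window_far {N : ℕ} (hN : 0 < N) {l s : ℤ} (hl : 20 ≤ |l|)
    (h1 : (l - 2) * N ≤ s) (h2 : s < (l + 8) * N) :
    (|l| - 8) * N ≤ |s| ∧ |s| ≤ (|l| + 8) * N := by
  have hN' : (0 : ℤ) < N := by exact_mod_cast hN
  rcases abs_cases l with ⟨e, _⟩ | ⟨e, _⟩
  · rw [e] at hl ⊢
    have : 0 ≤ s := by nlinarith
    rw [abs_of_nonneg this]
    constructor <;> nlinarith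
  · rw [e] at hl ⊢
    have : s < 0 := by nlinarith
    rw [abs_of_neg this]
    constructor <;> nlinarith

theorem window_near {N : ℕ} (hN : 0 < N) {l s : ℤ} (hl : |l| < 20)
    (h1 : (l - 2) * N ≤ s) (h2 : s < (l + 8) * N) : |s| ≤ 28 * N := by
  have hN' : (0 : ℤ) < N := by exact_mod_cast hN
  rw [abs_lt] at hl
  rw [abs_le]
  constructor <;> nlinarith [hl.1, hl.2]

theorem ee_congr {κ κ' : ℤ → ℝ} {m : ℕ} {l : ℤ}
    (h : ∀ s : ℤ, (l - 2) * 2 ^ m ≤ s → s < (l + 8) * 2 ^ m → κ s = κ' s) :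
    ee κ m l = ee κ' m l := by
  have hN : 0 < 2 ^ m := by positivity
  have hc : ∀ i, l - 2 ≤ i → i ≤ l + 5 → cc κ (2 ^ m) i = cc κ' (2 ^ m) i := by
    intro i hi1 hi2
    rw [cc_eq κ hN, cc_eq κ' hN]
    congr 1
    refine sum_congr rfl fun i0 h0 => sum_congr rfl fun i1 h1 => sum_congr rfl fun i2 h2 => ?_
    have := window hN hi1 hi2 (mem_range.mp h0) (mem_range.mp h1) (mem_range.mp h2)
    refine h _ ?_ ?_
    · simpa using this.1
    · simpa using this.2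
  unfold ee eE eO
  rw [hc (l - 2) (by omega) (by omega), hc (l - 1) (by omega) (by omega), hc l (by omega) (by omega),
    hc (l + 1) (by omega) (by omega), hc (l + 2) (by omega) (by omega),
    hc (l + 3) (by omega) (by omega), hc (l + 4) (by omega) (by omega),
    hc (l + 5) (by omega) (by omega)]

/-- the full kernel `1/s` -/
noncomputable def kinf (s : ℤ) : ℝ := 1 / (s : ℝ)

theorem ee_step_eq_inf {m : ℕ} {l : ℤ} {r : ℕ}
    (h : |l| * 2 ^ m + 10 * 2 ^ m < (r : ℤ)) : ee (stepK r) m l = ee kinf m l := by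
  apply ee_congr
  intro s h1 h2
  have hp : (0 : ℤ) < 2 ^ m := by positivity
  have hs : |s| ≤ r := by
    rw [abs_le]
    have := neg_abs_le l
    have := le_abs_self l
    constructor <;> nlinarith
  unfold stepK kinf
  by_cases h0 : s = 0
  · simp [h0]
  · simp [h0, hs]

theorem ee_zero (m : ℕ) (l : ℤ) : ee (fun _ => 0) m l = 0 := by
  simp [ee, eE, eO, cc, aT]

end Crest.Agent.R072.Kernel
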