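import Crest.Agent.R072.KEAux

/-! R072: kernel estimates, far positions `|l| ≥ 20`. -/

set_option autoImplicit false

namespace Crest.Agent.R072.Kernel

open Finset Filter Topology Crest.Agent.R072

theorem ee_step_zero' {m : ℕ} {l : ℤ} {r : ℕ} (h20 : 20 ≤ |l|)
    (h : (r : ℤ) < |l| * 2 ^ m - 10 * 2 ^ m) : ee (stepK r) m l = 0 := by
  rw [← ee_zero m l]
  apply ee_congr
  intro s h1 h2
  have hN : 0 < 2 ^ m := by positivity
  have hw := window_far (N := 2 ^ m) hN (l := l) (s := s) h20 (by simpa using h1) (by simpa using h2)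
  have hp : (0 : ℤ) < 2 ^ m := by positivity
  have : ¬ (|s| ≤ (r : ℤ)) := by
    push Not
    have := hw.1
    push_cast at this
    nlinarith
  unfold stepK
  simp [this]

/-- pointwise lower bound on the window -/
theorem far_lower {N : ℕ} (hN : 0 < N) {l s : ℤ} (hl : 20 ≤ |l|)
    (h1 : (l - 2) * N ≤ s) (h2 : s < (l + 8) * N) :
    (1 + |(l : ℝ)|) / 2 * N ≤ |(s : ℝ)| := by
  have hw := (window_far hN hl h1 h2).1
  have hN' : (0 : ℝ) < N := by exact_mod_cast hN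
  have hl' : (20 : ℝ) ≤ |(l : ℝ)| := by exact_mod_cast hl
  have hw' : (|(l : ℝ)| - 8) * N ≤ |(s : ℝ)| := by exact_mod_cast hw
  refine le_trans ?_ hw'
  apply mul_le_mul_of_nonneg_right _ hN'.le
  linarith

theorem inv_sub_le {a b D L : ℝ} (hL : 0 < L) (ha : L ≤ |a|) (hb : L ≤ |b|) (hd : |a - b| ≤ D) :
    |1 / a - 1 / b| ≤ D / L ^ 2 := by
  have ha0 : a ≠ 0 := by intro h; rw [h, abs_zero] at ha; linarith
  have hb0 : b ≠ 0 := by intro h; rw [h, abs_zero] at hb; linarith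
  have e : 1 / a - 1 / b = (b - a) / (a * b) := by field_simp
  rw [e, abs_div, abs_mul, abs_sub_comm]
  have hD : 0 ≤ D := le_trans (abs_nonneg _) hd
  apply div_le_div₀ hD hd (by positivity)
  rw [sq]
  exact mul_le_mul ha hb hL.le (abs_nonneg _)

/-- coefficient differences of the full kernel -/
theorem kinf_tap {m : ℕ} {l : ℤ} (h20 : 20 ≤ |l|) (i : ℤ) (h1 : l - 2 ≤ i) (h2 : i ≤ l + 5) :
    |cc kinf (2 ^ m) i - cc kinf (2 ^ m) l| ≤ 20 / (1 + |(l : ℝ)|) ^ 2 := by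
  have hN : 0 < 2 ^ m := by positivity
  have hN' : (0 : ℝ) < (2 ^ m : ℕ) := by positivity
  have hL : 0 < (1 + |(l : ℝ)|) / 2 * (2 ^ m : ℕ) := by positivity
  have key := cc_sub_bound kinf kinf hN i l
    (5 * (2 ^ m : ℕ) / ((1 + |(l : ℝ)|) / 2 * (2 ^ m : ℕ)) ^ 2) (by
      intro i0 h0 i1 h1' i2 h2'
      have w1 := window hN h1 h2 h0 h1' h2'
      have w2 := window hN (l := l) (i := l) (by omega) (by omega) h0 h1' h2'
      unfold kinf
      apply inv_sub_le hL (far_lower hN h20 w1.1 w1.2) (far_lower hN h20 w2.1 w2.2)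
      have e : (((i * (2 ^ m : ℕ) + (i0 : ℕ) + (i1 : ℕ) + (i2 : ℕ) : ℤ) : ℝ)) -
        ((l * (2 ^ m : ℕ) + (i0 : ℕ) + (i1 : ℕ) + (i2 : ℕ) : ℤ) : ℝ) =
          ((i - l : ℤ) : ℝ) * (2 ^ m : ℕ) := by push_cast; ring
      rw [e, abs_mul, abs_of_pos hN']
      apply mul_le_mul_of_nonneg_right _ hN'.le
      have : |i - l| ≤ 5 := by rw [abs_le]; constructor <;> omega
      exact_mod_cast this)
  refine le_trans key (le_of_eq ?_)
  have : (1 + |(l : ℝ)|) ≠ 0 := by positivity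
  field_simp
  ring

theorem ee_inf_far {m : ℕ} {l : ℤ} (h20 : 20 ≤ |l|) :
    |ee kinf m l| ≤ 20 / (1 + |(l : ℝ)|) ^ 2 :=
  ee_bound kinf m l _ _ (fun i h1 h2 => kinf_tap h20 i h1 h2)

/-- splitting a triple sum of side `2N` by parity -/
theorem triple_parity (f : ℤ → ℝ) (N : ℕ) (i : ℤ) :
    ∑ i0 ∈ range (2 * N), ∑ i1 ∈ range (2 * N), ∑ i2 ∈ range (2 * N),
      f (i * (2 * N : ℕ) + (i0 : ℕ) + (i1 : ℕ) + (i2 : ℕ)) =
    ∑ i0 ∈ range N, ∑ i1 ∈ range N, ∑ i2 ∈ range N,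
      (f (2 * (i * N + i0 + i1 + i2)) + 3 * f (2 * (i * N + i0 + i1 + i2) + 1) +
        3 * f (2 * (i * N + i0 + i1 + i2) + 2) + f (2 * (i * N + i0 + i1 + i2) + 3)) := by
  rw [sum_range_two_mul]
  refine sum_congr rfl fun i0 _ => ?_
  rw [← sum_add_distrib]
  rw [sum_range_two_mul]
  refine sum_congr rfl fun i1 _ => ?_
  rw [← sum_add_distrib, ← sum_add_distrib, ← sum_add_distrib]
  rw [sum_range_two_mul]
  refine sum_congr rfl fun i2 _ => ?_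
  push_cast
  have e : ∀ a : ℤ, (i * (2 * (N : ℤ)) + a) = 2 * (i * N) + a := fun a => by ring
  have e0 : i * (2 * (N : ℤ)) + 2 * i0 + 2 * i1 + 2 * i2 = 2 * (i * N + i0 + i1 + i2) := by ring
  have e1 : i * (2 * (N : ℤ)) + 2 * i0 + 2 * i1 + (2 * i2 + 1) = 2 * (i * N + i0 + i1 + i2) + 1 := by
    ring
  have e2 : i * (2 * (N : ℤ)) + (2 * i0 + 1) + 2 * i1 + 2 * i2 = 2 * (i * N + i0 + i1 + i2) + 1 := by
    ring
  have e3 : i * (2 * (N : ℤ)) + (2 * i0 + 1) + 2 * i1 + (2 * i2 + 1) =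
      2 * (i * N + i0 + i1 + i2) + 2 := by ring
  have e4 : i * (2 * (N : ℤ)) + 2 * i0 + (2 * i1 + 1) + 2 * i2 = 2 * (i * N + i0 + i1 + i2) + 1 := by
    ring
  have e5 : i * (2 * (N : ℤ)) + 2 * i0 + (2 * i1 + 1) + (2 * i2 + 1) =
      2 * (i * N + i0 + i1 + i2) + 2 := by ring
  have e6 : i * (2 * (N : ℤ)) + (2 * i0 + 1) + (2 * i1 + 1) + 2 * i2 =
      2 * (i * N + i0 + i1 + i2) + 2 := by ring
  have e7 : i * (2 * (N : ℤ)) + (2 * i0 + 1) + (2 * i1 + 1) + (2 * i2 + 1) =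
      2 * (i * N + i0 + i1 + i2) + 3 := by ring
  rw [e0, e1, e2, e3, e4, e5, e6, e7]
  ring

/-- change of scale for the full kernel, far positions -/
theorem kinf_scale {m : ℕ} {l : ℤ} (h20 : 20 ≤ |l|) (i : ℤ) (h1 : l - 2 ≤ i) (h2 : i ≤ l + 5) :
    |cc kinf (2 ^ (m + 1)) i - cc kinf (2 ^ m) i| ≤ 6 / (1 + |(l : ℝ)|) ^ 2 * (1 / 2) ^ m := by
  set N : ℕ := 2 ^ m with hNdef
  have hN : 0 < N := by positivity
  have hN2 : 0 < 2 * N := by positivity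
  have hN' : (0 : ℝ) < N := by positivity
  have hL : 0 < (1 + |(l : ℝ)|) / 2 * (2 * N : ℕ) := by positivity
  have hpow : 2 ^ (m + 1) = 2 * N := by rw [pow_succ]; ring
  rw [hpow, cc_eq kinf hN2, cc_eq kinf hN, triple_parity]
  have hk : ∀ a : ℤ, kinf a = 2 * kinf (2 * a) := by
    intro a
    unfold kinf
    by_cases ha : (a : ℝ) = 0
    · simp [ha]
    · push_cast
      field_simp
  have e : 1 / ((2 * N : ℕ) : ℝ) ^ 2 * (∑ i0 ∈ range N, ∑ i1 ∈ range N, ∑ i2 ∈ range N,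
      (kinf (2 * (i * N + i0 + i1 + i2)) + 3 * kinf (2 * (i * N + i0 + i1 + i2) + 1) +
        3 * kinf (2 * (i * N + i0 + i1 + i2) + 2) + kinf (2 * (i * N + i0 + i1 + i2) + 3))) -
      1 / (N : ℝ) ^ 2 * (∑ i0 ∈ range N, ∑ i1 ∈ range N, ∑ i2 ∈ range N,
        kinf (i * N + i0 + i1 + i2)) =
      1 / (4 * (N : ℝ) ^ 2) * ∑ i0 ∈ range N, ∑ i1 ∈ range N, ∑ i2 ∈ range N,
      (3 * (kinf (2 * (i * N + i0 + i1 + i2) + 1) - kinf (2 * (i * N + i0 + i1 + i2))) +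
        3 * (kinf (2 * (i * N + i0 + i1 + i2) + 2) - kinf (2 * (i * N + i0 + i1 + i2))) +
        (kinf (2 * (i * N + i0 + i1 + i2) + 3) - kinf (2 * (i * N + i0 + i1 + i2)))) := by
    have : 1 / (N : ℝ) ^ 2 = 1 / (4 * (N : ℝ) ^ 2) * 4 := by field_simp
    rw [this]
    have h4 : ((2 * N : ℕ) : ℝ) ^ 2 = 4 * (N : ℝ) ^ 2 := by push_cast; ring
    rw [h4, mul_assoc, ← mul_sub]
    congr 1
    simp only [mul_sum, ← sum_sub_distrib]
    refine sum_congr rfl fun i0 _ => sum_congr rfl fun i1 _ => sum_congr rfl fun i2 _ => ?_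
    rw [hk (i * N + i0 + i1 + i2)]
    ring
  rw [e, abs_mul, abs_of_pos (by positivity)]
  have key := triple_le N (fun i0 i1 i2 =>
      (3 * (kinf (2 * (i * N + i0 + i1 + i2) + 1) - kinf (2 * (i * N + i0 + i1 + i2))) +
        3 * (kinf (2 * (i * N + i0 + i1 + i2) + 2) - kinf (2 * (i * N + i0 + i1 + i2))) +
        (kinf (2 * (i * N + i0 + i1 + i2) + 3) - kinf (2 * (i * N + i0 + i1 + i2)))))
      (12 / ((1 + |(l : ℝ)|) / 2 * (2 * N : ℕ)) ^ 2) (by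
      intro i0 h0 i1 h1' i2 h2'
      set a : ℤ := i * N + i0 + i1 + i2 with ha
      have w0 := window hN2 (l := l) (i := i) h1 h2 (i0 := 2 * i0) (i1 := 2 * i1) (i2 := 2 * i2)
        (by omega) (by omega) (by omega)
      have w1 := window hN2 (l := l) (i := i) h1 h2 (i0 := 2 * i0 + 1) (i1 := 2 * i1) (i2 := 2 * i2)
        (by omega) (by omega) (by omega)
      have w2 := window hN2 (l := l) (i := i) h1 h2 (i0 := 2 * i0 + 1) (i1 := 2 * i1 + 1)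
        (i2 := 2 * i2) (by omega) (by omega) (by omega)
      have w3 := window hN2 (l := l) (i := i) h1 h2 (i0 := 2 * i0 + 1) (i1 := 2 * i1 + 1)
        (i2 := 2 * i2 + 1) (by omega) (by omega) (by omega)
      have f0 := far_lower hN2 h20 w0.1 w0.2
      have f1 := far_lower hN2 h20 w1.1 w1.2
      have f2 := far_lower hN2 h20 w2.1 w2.2
      have f3 := far_lower hN2 h20 w3.1 w3.2
      have q0 : i * ((2 * N : ℕ) : ℤ) + ((2 * i0 : ℕ) : ℤ) + ((2 * i1 : ℕ) : ℤ) +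
        ((2 * i2 : ℕ) : ℤ) = 2 * a := by rw [ha]; push_cast; ring
      have q1 : i * ((2 * N : ℕ) : ℤ) + ((2 * i0 + 1 : ℕ) : ℤ) + ((2 * i1 : ℕ) : ℤ) +
        ((2 * i2 : ℕ) : ℤ) = 2 * a + 1 := by rw [ha]; push_cast; ring
      have q2 : i * ((2 * N : ℕ) : ℤ) + ((2 * i0 + 1 : ℕ) : ℤ) + ((2 * i1 + 1 : ℕ) : ℤ) +
        ((2 * i2 : ℕ) : ℤ) = 2 * a + 2 := by rw [ha]; push_cast; ring
      have q3 : i * ((2 * N : ℕ) : ℤ) + ((2 * i0 + 1 : ℕ) : ℤ) + ((2 * i1 + 1 : ℕ) : ℤ) +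
        ((2 * i2 + 1 : ℕ) : ℤ) = 2 * a + 3 := by rw [ha]; push_cast; ring
      rw [q0] at f0
      rw [q1] at f1
      rw [q2] at f2
      rw [q3] at f3
      have d1 : |kinf (2 * a + 1) - kinf (2 * a)| ≤
          1 / ((1 + |(l : ℝ)|) / 2 * (2 * N : ℕ)) ^ 2 := by
        unfold kinf
        apply inv_sub_le hL f1 f0
        push_cast; ring_nf; norm_num
      have d2 : |kinf (2 * a + 2) - kinf (2 * a)| ≤
          2 / ((1 + |(l : ℝ)|) / 2 * (2 * N : ℕ)) ^ 2 := by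
        unfold kinf
        apply inv_sub_le hL f2 f0
        push_cast; ring_nf; norm_num
      have d3 : |kinf (2 * a + 3) - kinf (2 * a)| ≤
          3 / ((1 + |(l : ℝ)|) / 2 * (2 * N : ℕ)) ^ 2 := by
        unfold kinf
        apply inv_sub_le hL f3 f0
        push_cast; ring_nf; norm_num
      rw [abs_le] at d1 d2 d3 ⊢
      have t1 : (12 : ℝ) / ((1 + |(l : ℝ)|) / 2 * (2 * N : ℕ)) ^ 2 =
        3 * (1 / ((1 + |(l : ℝ)|) / 2 * (2 * N : ℕ)) ^ 2) +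
        3 * (2 / ((1 + |(l : ℝ)|) / 2 * (2 * N : ℕ)) ^ 2) +
        (3 / ((1 + |(l : ℝ)|) / 2 * (2 * N : ℕ)) ^ 2) := by ring
      rw [t1]
      constructor <;> linarith [d1.1, d1.2, d2.1, d2.2, d3.1, d3.2])
  calc 1 / (4 * (N : ℝ) ^ 2) * _ ≤ 1 / (4 * (N : ℝ) ^ 2) * ((N : ℝ) ^ 3 *
        (12 / ((1 + |(l : ℝ)|) / 2 * (2 * N : ℕ)) ^ 2)) :=
        mul_le_mul_of_nonneg_left key (by positivity)
    _ = 3 / (1 + |(l : ℝ)|) ^ 2 * (1 / N) := by
        push_cast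
        have : (1 + |(l : ℝ)|) ≠ 0 := by positivity
        field_simp
        ring
    _ ≤ 6 / (1 + |(l : ℝ)|) ^ 2 * (1 / 2) ^ m := by
        have : (1 : ℝ) / N = (1 / 2) ^ m := by rw [hNdef]; push_cast; rw [one_div_pow]
        rw [this]
        apply mul_le_mul_of_nonneg_right _ (by positivity)
        apply div_le_div_of_nonneg_right (by norm_num) (by positivity)

theorem ee_inf_scale_far {m : ℕ} {l : ℤ} (h20 : 20 ≤ |l|) :
    |ee kinf (m + 1) l - ee kinf m l| ≤ 46 / (1 + |(l : ℝ)|) ^ 2 * (1 / 2) ^ m := by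
  have := ee_scale_diff kinf m l (cc kinf (2 ^ m) l) _ _ (fun i h1 h2 => kinf_scale h20 i h1 h2)
    (fun i h1 h2 => kinf_tap h20 i h1 h2)
  refine le_trans this ?_
  have h4 : (1 / 4 : ℝ) ^ m ≤ (1 / 2) ^ m := pow_le_pow_left₀ (by norm_num) (by norm_num) m
  have h0 : 0 ≤ 20 / (1 + |(l : ℝ)|) ^ 2 := by positivity
  have : 2 * (1 / 4 : ℝ) ^ m * (20 / (1 + |(l : ℝ)|) ^ 2) ≤
      2 * (1 / 2 : ℝ) ^ m * (20 / (1 + |(l : ℝ)|) ^ 2) := by
    apply mul_le_mul_of_nonneg_right _ h0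
    linarith
  calc _ ≤ 6 / (1 + |(l : ℝ)|) ^ 2 * (1 / 2) ^ m + 2 * (1 / 2 : ℝ) ^ m * (20 / (1 + |(l : ℝ)|) ^ 2) := by
        linarith
    _ = 46 / (1 + |(l : ℝ)|) ^ 2 * (1 / 2) ^ m := by ring

/-- crude bound, far positions -/
theorem ee_crude_far {κ : ℤ → ℝ} (hκ : ∀ s, |κ s| ≤ 1 / |(s : ℝ)|) {m : ℕ} {l : ℤ}
    (h20 : 20 ≤ |l|) : |ee κ m l| ≤ 2 / (1 + |(l : ℝ)|) := by
  have hN : 0 < 2 ^ m := by positivity
  have hN' : (0 : ℝ) < (2 ^ m : ℕ) := by positivity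
  apply ee_bound κ m l 0
  intro i h1 h2
  rw [sub_zero]
  have := cc_abs_bound κ hN i (1 / ((1 + |(l : ℝ)|) / 2 * (2 ^ m : ℕ))) (by
    intro i0 h0 i1 h1' i2 h2'
    have w := window hN h1 h2 h0 h1' h2'
    refine le_trans (hκ _) ?_
    exact one_div_le_one_div_of_le (by positivity) (far_lower hN h20 w.1 w.2))
  refine le_trans this (le_of_eq ?_)
  have : (1 + |(l : ℝ)|) ≠ 0 := by positivity
  field_simp

end Crest.Agent.R072.Kernel
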