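import Crest.Agent.R072.KEFar

/-! R072: kernel estimates, positions `|l| < 20`. -/

set_option autoImplicit false
set_option linter.unusedTactic false
set_option linter.unreachableTactic false

namespace Crest.Agent.R072.Kernel

open Finset Filter Topology Crest.Agent.R072

/-- number of triples in `[0,N)^3` with sum `x` -/
noncomputable def w (N : ℕ) (x : ℤ) : ℝ :=
  ∑ i0 ∈ range N, ∑ i1 ∈ range N, ∑ i2 ∈ range N, if ((i0 : ℤ) + i1 + i2 = x) then 1 else 0

theorem sum_range_ite (N : ℕ) (y : ℤ) :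
    (∑ i2 ∈ range N, if ((i2 : ℤ) = y) then (1 : ℝ) else 0) = if 0 ≤ y ∧ y < N then 1 else 0 := by
  split_ifs with h
  · obtain ⟨k, hk⟩ := Int.eq_ofNat_of_zero_le h.1
    have hkN : k < N := by have := h.2; rw [hk] at this; exact_mod_cast this
    rw [sum_eq_single k]
    · simp [hk]
    · intro b _ hb
      rw [if_neg]
      rw [hk]; exact_mod_cast hb
    · intro h'; exact absurd (mem_range.mpr hkN) h'
  · apply sum_eq_zero
    intro b hb
    rw [if_neg]
    intro hby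
    apply h
    rw [← hby]
    exact ⟨by positivity, by exact_mod_cast mem_range.mp hb⟩

theorem w_step (N : ℕ) (x : ℤ) : |w N (x + 1) - w N x| ≤ N := by
  have h1 : ∀ x : ℤ, w N x = ∑ i0 ∈ range N, ∑ i1 ∈ range N,
      if 0 ≤ x - i0 - i1 ∧ x - i0 - i1 < N then 1 else 0 := by
    intro x
    unfold w
    refine sum_congr rfl fun i0 _ => sum_congr rfl fun i1 _ => ?_
    rw [← sum_range_ite]
    refine sum_congr rfl fun i2 _ => ?_
    congr 1
    apply propext
    constructor <;> intro h <;> linarith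
  rw [h1, h1, ← sum_sub_distrib]
  refine le_trans (abs_sum_le_sum_abs _ _) ?_
  have : ∀ i0 ∈ range N, |(∑ i1 ∈ range N, if 0 ≤ x + 1 - (i0 : ℤ) - i1 ∧ x + 1 - i0 - i1 < N then (1 : ℝ) else 0)
      - ∑ i1 ∈ range N, if 0 ≤ x - (i0 : ℤ) - i1 ∧ x - i0 - i1 < N then (1 : ℝ) else 0| ≤ 1 := by
    intro i0 _
    rw [← sum_sub_distrib]
    have e : ∀ i1 ∈ range N, ((if 0 ≤ x + 1 - (i0 : ℤ) - i1 ∧ x + 1 - i0 - i1 < N then (1 : ℝ) else 0)
      - if 0 ≤ x - (i0 : ℤ) - i1 ∧ x - i0 - i1 < N then (1 : ℝ) else 0) =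
        (if ((i1 : ℤ) = x + 1 - i0) then 1 else 0) - (if ((i1 : ℤ) = x + 1 - i0 - N) then 1 else 0) := by
      intro i1 hi1
      have hN : 0 < N := lt_of_le_of_lt (Nat.zero_le _) (mem_range.mp hi1)
      have hN' : (0 : ℤ) < N := by exact_mod_cast hN
      split_ifs <;> first | (exfalso; omega) | norm_num
    rw [sum_congr rfl e, sum_sub_distrib, sum_range_ite, sum_range_ite]
    split_ifs <;> norm_num
  calc _ ≤ ∑ i0 ∈ range N, (1 : ℝ) := sum_le_sum this
    _ = N := by simp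

theorem w_lip (N : ℕ) (x : ℤ) (k : ℕ) : |w N (x + k) - w N x| ≤ N * k := by
  induction k with
  | zero => simp
  | succ k ih =>
    have := w_step N (x + k)
    have e : x + ((k + 1 : ℕ) : ℤ) = x + k + 1 := by push_cast; ring
    rw [e]
    have h := abs_sub_le (w N (x + k + 1)) (w N (x + k)) (w N x)
    push_cast
    nlinarith

theorem w_lip' (N : ℕ) (x y : ℤ) {D : ℝ} (h : |((x - y : ℤ) : ℝ)| ≤ D) :
    |w N x - w N y| ≤ N * D := by
  have hN : (0 : ℝ) ≤ N := by positivity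
  rcases le_total y x with hxy | hxy
  · obtain ⟨k, hk⟩ := Int.eq_ofNat_of_zero_le (sub_nonneg.mpr hxy)
    have hx : x = y + k := by linarith [hk]
    have := w_lip N y k
    rw [← hx] at this
    refine le_trans this (mul_le_mul_of_nonneg_left ?_ hN)
    rw [hk] at h
    simpa using h
  · obtain ⟨k, hk⟩ := Int.eq_ofNat_of_zero_le (sub_nonneg.mpr hxy)
    have hy : y = x + k := by linarith [hk]
    have := w_lip N x k
    rw [← hy, abs_sub_comm] at this
    refine le_trans this (mul_le_mul_of_nonneg_left ?_ hN)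
    have e : ((x - y : ℤ) : ℝ) = -((k : ℕ) : ℝ) := by
      have : x - y = -(k : ℤ) := by linarith [hk]
      rw [this]; push_cast; ring
    rw [e] at h
    simpa using h

/-- symmetric difference of the weight -/
noncomputable def dw (N : ℕ) (i : ℤ) (s : ℤ) : ℝ := w N (s - i * N) - w N (-s - i * N)

theorem dw_le (N : ℕ) (i : ℤ) (s : ℕ) : |dw N i s| ≤ N * (2 * s) := by
  unfold dw
  apply w_lip'
  have : ((s : ℤ) - i * N - (-(s : ℤ) - i * N) : ℤ) = 2 * s := by ring
  rw [this]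
  push_cast
  rw [abs_of_nonneg (by positivity)]

/-- the coefficient through the weight -/
theorem cc_eq_w (κ : ℤ → ℝ) {N : ℕ} (hN : 0 < N) (i : ℤ) (K : ℕ) (hK : (|i| + 3) * N ≤ K) :
    cc κ N i = (1 / (N : ℝ) ^ 2) * ∑ s ∈ Icc (-(K : ℤ)) K, κ s * w N (s - i * N) := by
  have hN' : (0 : ℤ) < N := by exact_mod_cast hN
  rw [cc_eq κ hN]
  congr 1
  have : ∀ i0 ∈ range N, ∀ i1 ∈ range N, ∀ i2 ∈ range N, κ (i * N + i0 + i1 + i2) =
      ∑ s ∈ Icc (-(K : ℤ)) K, κ s * if ((i0 : ℤ) + i1 + i2 = s - i * N) then 1 else 0 := by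
    intro i0 h0 i1 h1 i2 h2
    rw [sum_eq_single (i * N + i0 + i1 + i2)]
    · rw [if_pos (by ring), mul_one]
    · intro s _ hs
      rw [if_neg, mul_zero]
      intro h
      apply hs
      linarith
    · intro h
      exfalso
      apply h
      rw [mem_Icc]
      have b0 : (i0 : ℤ) + 1 ≤ N := by exact_mod_cast mem_range.mp h0
      have b1 : (i1 : ℤ) + 1 ≤ N := by exact_mod_cast mem_range.mp h1
      have b2 : (i2 : ℤ) + 1 ≤ N := by exact_mod_cast mem_range.mp h2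
      have := neg_abs_le i
      have := le_abs_self i
      constructor <;> nlinarith [Int.natCast_nonneg i0, Int.natCast_nonneg i1,
        Int.natCast_nonneg i2]
  calc _ = ∑ i0 ∈ range N, ∑ i1 ∈ range N, ∑ i2 ∈ range N, ∑ s ∈ Icc (-(K : ℤ)) K,
        κ s * (if ((i0 : ℤ) + i1 + i2 = s - i * N) then 1 else 0) :=
        sum_congr rfl fun i0 h0 => sum_congr rfl fun i1 h1 => sum_congr rfl fun i2 h2 =>
          this i0 h0 i1 h1 i2 h2
    _ = ∑ s ∈ Icc (-(K : ℤ)) K, κ s * w N (s - i * N) := by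
        unfold w
        simp only [mul_sum]
        rw [sum_congr rfl fun i0 _ => (sum_congr rfl fun i1 _ => sum_comm).trans sum_comm]
        rw [sum_comm]


/-- odd kernels: the coefficient through `dw` -/
theorem cc_eq_dw (κ : ℤ → ℝ) (hodd : ∀ s, κ (-s) = -κ s) {N : ℕ} (hN : 0 < N) (i : ℤ) (K : ℕ)
    (hK : (|i| + 3) * N ≤ K) :
    cc κ N i = (1 / (N : ℝ) ^ 2) * ∑ s ∈ range K, κ ((s : ℤ) + 1) * dw N i (s + 1) := by
  rw [cc_eq_w κ hN i K hK, sum_Icc_symm]
  have h0 : κ 0 = 0 := by have := hodd 0; rw [neg_zero] at this; linarith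
  rw [h0, zero_mul, zero_add]
  congr 1
  refine sum_congr rfl fun s _ => ?_
  rw [hodd]
  unfold dw
  ring

theorem K_near {N : ℕ} {l i : ℤ} (hl : |l| < 20) (h1 : l - 2 ≤ i) (h2 : i ≤ l + 5) :
    (|i| + 3) * (N : ℤ) ≤ ((28 * N : ℕ) : ℤ) := by
  have : |i| ≤ 25 := by
    rw [abs_lt] at hl
    rw [abs_le]
    constructor <;> omega
  push_cast
  have hN : (0 : ℤ) ≤ N := Int.natCast_nonneg N
  nlinarith

/-- crude bound of the coefficient of an odd kernel, near positions -/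
theorem cc_near_le {κ : ℤ → ℝ} (hodd : ∀ s, κ (-s) = -κ s) {N : ℕ} (hN : 0 < N) {l i : ℤ}
    (hl : |l| < 20) (h1 : l - 2 ≤ i) (h2 : i ≤ l + 5) (f : ℕ → ℝ)
    (hκ : ∀ s : ℕ, |κ ((s : ℤ) + 1)| ≤ f s / ((s : ℝ) + 1)) :
    |cc κ N i| ≤ 2 / N * ∑ s ∈ range (28 * N), f s := by
  rw [cc_eq_dw κ hodd hN i _ (K_near hl h1 h2), abs_mul, abs_of_pos (by positivity)]
  have hN' : (0 : ℝ) < N := by exact_mod_cast hN
  have : |∑ s ∈ range (28 * N), κ ((s : ℤ) + 1) * dw N i (s + 1)| ≤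
      ∑ s ∈ range (28 * N), f s * (2 * N) := by
    refine le_trans (abs_sum_le_sum_abs _ _) (sum_le_sum fun s _ => ?_)
    rw [abs_mul]
    have hd := dw_le N i (s + 1)
    push_cast at hd
    have hf := hκ s
    calc |κ ((s : ℤ) + 1)| * |dw N i (s + 1)| ≤ f s / ((s : ℝ) + 1) * (N * (2 * (s + 1))) :=
          mul_le_mul hf hd (abs_nonneg _) (le_trans (abs_nonneg _) hf)
      _ = f s * (2 * N) := by field_simp
  calc 1 / (N : ℝ) ^ 2 * _ ≤ 1 / (N : ℝ) ^ 2 * ∑ s ∈ range (28 * N), f s * (2 * N) :=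
        mul_le_mul_of_nonneg_left this (by positivity)
    _ = 2 / N * ∑ s ∈ range (28 * N), f s := by
        rw [← sum_mul]
        field_simp

theorem ee_crude_near {κ : ℤ → ℝ} (hodd : ∀ s, κ (-s) = -κ s)
    (hκ : ∀ s : ℤ, |κ s| ≤ 1 / |(s : ℝ)|) {m : ℕ} {l : ℤ} (hl : |l| < 20) :
    |ee κ m l| ≤ 56 := by
  have hN : 0 < 2 ^ m := by positivity
  apply ee_bound κ m l 0
  intro i h1 h2
  rw [sub_zero]
  refine le_trans (cc_near_le hodd hN hl h1 h2 (fun _ => 1) ?_) ?_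
  · intro s
    have := hκ ((s : ℤ) + 1)
    push_cast at this
    rwa [abs_of_pos (by positivity : (0 : ℝ) < (s : ℝ) + 1)] at this
  · simp only [sum_const, card_range, nsmul_eq_mul, mul_one]
    have : (0 : ℝ) < (2 ^ m : ℕ) := by positivity
    push_cast
    push_cast at this
    rw [div_mul_eq_mul_div, div_le_iff₀ this]
    linarith

theorem stepK_odd (r : ℕ) (s : ℤ) : stepK r (-s) = -stepK r s := by
  unfold stepK
  simp only [ne_eq, neg_eq_zero, abs_neg]
  split_ifs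
  · push_cast; rw [div_neg]
  · simp

theorem kinf_odd (s : ℤ) : kinf (-s) = -kinf s := by
  unfold kinf; push_cast; rw [div_neg]

/-- step kernels at coarse scales -/
theorem ee_step_coarse (r m : ℕ) {l : ℤ} (hl : |l| < 20) :
    |ee (stepK r) m l| ≤ 2 * r / 2 ^ m := by
  have hN : 0 < 2 ^ m := by positivity
  apply ee_bound _ m l 0
  intro i h1 h2
  rw [sub_zero]
  refine le_trans (cc_near_le (stepK_odd r) hN hl h1 h2 (fun s => if s < r then 1 else 0) ?_) ?_
  · intro s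
    unfold stepK
    by_cases hs : s < r
    · rw [if_pos, if_pos hs]
      · push_cast
        rw [abs_of_pos (by positivity)]
      · refine ⟨by omega, ?_⟩
        rw [abs_of_nonneg (by positivity)]
        omega
    · rw [if_neg, if_neg hs]
      · simp
      · rintro ⟨_, h⟩
        rw [abs_of_nonneg (by positivity)] at h
        omega
  · have h3 : (∑ s ∈ range (28 * 2 ^ m), if s < r then (1 : ℝ) else 0) ≤ r := by
      rw [← sum_filter, sum_const, nsmul_eq_mul, mul_one]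
      have : ((range (28 * 2 ^ m)).filter (fun s => s < r)).card ≤ r := by
        calc _ ≤ (range r).card := card_le_card (by
              intro x hx
              rw [mem_filter] at hx
              exact mem_range.mpr hx.2)
          _ = r := card_range r
      exact_mod_cast this
    have hp : (0 : ℝ) < 2 ^ m := by positivity
    push_cast
    rw [div_mul_eq_mul_div]
    apply div_le_div_of_nonneg_right _ hp.le
    linarith

/-! ### change of scale for the full kernel, near positions -/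

theorem w_even (N : ℕ) (y : ℤ) : w (2 * N) (2 * y) = w N y + 3 * w N (y - 1) := by
  unfold w
  rw [sum_range_two_mul]
  simp only [mul_sum, ← sum_add_distrib]
  refine sum_congr rfl fun i0 _ => ?_
  rw [sum_range_two_mul]
  refine sum_congr rfl fun i1 _ => ?_
  rw [sum_range_two_mul, sum_range_two_mul, ← sum_add_distrib]
  refine sum_congr rfl fun i2 _ => ?_
  push_cast
  have h0 : (2 * (i0 : ℤ) + 2 * (i1 : ℤ) + 2 * (i2 : ℤ) = 2 * y) = ((i0 : ℤ) + i1 + i2 = y) := by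
    apply propext; constructor <;> intro h <;> first | omega | exact h.elim
  have h1 : (2 * (i0 : ℤ) + 2 * (i1 : ℤ) + (2 * (i2 : ℤ) + 1) = 2 * y) = False := by
    apply propext; constructor <;> intro h <;> first | omega | exact h.elim
  have h2 : (2 * (i0 : ℤ) + (2 * (i1 : ℤ) + 1) + 2 * (i2 : ℤ) = 2 * y) = False := by
    apply propext; constructor <;> intro h <;> first | omega | exact h.elim
  have h3 : (2 * (i0 : ℤ) + (2 * (i1 : ℤ) + 1) + (2 * (i2 : ℤ) + 1) = 2 * y) = ((i0 : ℤ) + i1 + i2 = y - 1) := by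
    apply propext; constructor <;> intro h <;> first | omega | exact h.elim
  have h4 : (2 * (i0 : ℤ) + 1 + 2 * (i1 : ℤ) + 2 * (i2 : ℤ) = 2 * y) = False := by
    apply propext; constructor <;> intro h <;> first | omega | exact h.elim
  have h5 : (2 * (i0 : ℤ) + 1 + 2 * (i1 : ℤ) + (2 * (i2 : ℤ) + 1) = 2 * y) = ((i0 : ℤ) + i1 + i2 = y - 1) := by
    apply propext; constructor <;> intro h <;> first | omega | exact h.elim
  have h6 : (2 * (i0 : ℤ) + 1 + (2 * (i1 : ℤ) + 1) + 2 * (i2 : ℤ) = 2 * y) = ((i0 : ℤ) + i1 + i2 = y - 1) := by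
    apply propext; constructor <;> intro h <;> first | omega | exact h.elim
  have h7 : (2 * (i0 : ℤ) + 1 + (2 * (i1 : ℤ) + 1) + (2 * (i2 : ℤ) + 1) = 2 * y) = False := by
    apply propext; constructor <;> intro h <;> first | omega | exact h.elim
  simp only [h0, h1, h2, h3, h4, h5, h6, h7, if_false]
  ring

theorem w_odd (N : ℕ) (y : ℤ) : w (2 * N) (2 * y + 1) = 3 * w N y + w N (y - 1) := by
  unfold w
  rw [sum_range_two_mul]
  simp only [mul_sum, ← sum_add_distrib]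
  refine sum_congr rfl fun i0 _ => ?_
  rw [sum_range_two_mul]
  refine sum_congr rfl fun i1 _ => ?_
  rw [sum_range_two_mul, sum_range_two_mul, ← sum_add_distrib]
  refine sum_congr rfl fun i2 _ => ?_
  push_cast
  have h0 : (2 * (i0 : ℤ) + 2 * (i1 : ℤ) + 2 * (i2 : ℤ) = 2 * y + 1) = False := by
    apply propext; constructor <;> intro h <;> first | omega | exact h.elim
  have h1 : (2 * (i0 : ℤ) + 2 * (i1 : ℤ) + (2 * (i2 : ℤ) + 1) = 2 * y + 1) = ((i0 : ℤ) + i1 + i2 = y) := by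
    apply propext; constructor <;> intro h <;> first | omega | exact h.elim
  have h2 : (2 * (i0 : ℤ) + (2 * (i1 : ℤ) + 1) + 2 * (i2 : ℤ) = 2 * y + 1) = ((i0 : ℤ) + i1 + i2 = y) := by
    apply propext; constructor <;> intro h <;> first | omega | exact h.elim
  have h3 : (2 * (i0 : ℤ) + (2 * (i1 : ℤ) + 1) + (2 * (i2 : ℤ) + 1) = 2 * y + 1) = False := by
    apply propext; constructor <;> intro h <;> first | omega | exact h.elim
  have h4 : (2 * (i0 : ℤ) + 1 + 2 * (i1 : ℤ) + 2 * (i2 : ℤ) = 2 * y + 1) = ((i0 : ℤ) + i1 + i2 = y) := by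
    apply propext; constructor <;> intro h <;> first | omega | exact h.elim
  have h5 : (2 * (i0 : ℤ) + 1 + 2 * (i1 : ℤ) + (2 * (i2 : ℤ) + 1) = 2 * y + 1) = False := by
    apply propext; constructor <;> intro h <;> first | omega | exact h.elim
  have h6 : (2 * (i0 : ℤ) + 1 + (2 * (i1 : ℤ) + 1) + 2 * (i2 : ℤ) = 2 * y + 1) = False := by
    apply propext; constructor <;> intro h <;> first | omega | exact h.elim
  have h7 : (2 * (i0 : ℤ) + 1 + (2 * (i1 : ℤ) + 1) + (2 * (i2 : ℤ) + 1) = 2 * y + 1) = ((i0 : ℤ) + i1 + i2 = y - 1) := by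
    apply propext; constructor <;> intro h <;> first | omega | exact h.elim
  simp only [h0, h1, h2, h3, h4, h5, h6, h7, if_false]
  ring

theorem dw_even (N : ℕ) (i : ℤ) (s : ℤ) : |dw (2 * N) i (2 * s) - 4 * dw N i s| ≤ 6 * N := by
  have e1 : (2 * s - i * ((2 * N : ℕ) : ℤ)) = 2 * (s - i * N) := by push_cast; ring
  have e2 : (-(2 * s) - i * ((2 * N : ℕ) : ℤ)) = 2 * (-s - i * N) := by push_cast; ring
  unfold dw
  rw [e1, e2, w_even, w_even]
  have a1 := w_lip' N (s - i * N - 1) (s - i * N) (D := 1) (by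
    rw [show s - i * N - 1 - (s - i * N) = (-1 : ℤ) by ring]; norm_num)
  have a2 := w_lip' N (-s - i * N - 1) (-s - i * N) (D := 1) (by
    rw [show -s - i * N - 1 - (-s - i * N) = (-1 : ℤ) by ring]; norm_num)
  rw [abs_le] at a1 a2 ⊢
  constructor <;> linarith [a1.1, a1.2, a2.1, a2.2]

theorem dw_odd (N : ℕ) (i : ℤ) (s : ℤ) : |dw (2 * N) i (2 * s + 1) - 4 * dw N i s| ≤ 6 * N := by
  have e1 : (2 * s + 1 - i * ((2 * N : ℕ) : ℤ)) = 2 * (s - i * N) + 1 := by push_cast; ring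
  have e2 : (-(2 * s + 1) - i * ((2 * N : ℕ) : ℤ)) = 2 * (-s - 1 - i * N) + 1 := by push_cast; ring
  unfold dw
  rw [e1, e2, w_odd, w_odd]
  have a1 := w_lip' N (s - i * N - 1) (s - i * N) (D := 1) (by
    rw [show s - i * N - 1 - (s - i * N) = (-1 : ℤ) by ring]; norm_num)
  have a2 := w_lip' N (-s - 1 - i * N) (-s - i * N) (D := 1) (by
    rw [show -s - 1 - i * N - (-s - i * N) = (-1 : ℤ) by ring]; norm_num)
  have a3 := w_lip' N (-s - 1 - i * N - 1) (-s - i * N) (D := 2) (by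
    rw [show -s - 1 - i * N - 1 - (-s - i * N) = (-2 : ℤ) by ring]; norm_num)
  rw [abs_le] at a1 a2 a3 ⊢
  constructor <;> linarith [a1.1, a1.2, a2.1, a2.2, a3.1, a3.2]

theorem harm_le (K : ℕ) : ∑ s ∈ range K, 1 / ((s : ℝ) + 1) ≤ 2 * Real.sqrt K := by
  induction K with
  | zero => simp
  | succ K ih =>
    rw [sum_range_succ]
    have h1 : Real.sqrt K ≤ Real.sqrt (K + 1 : ℕ) := Real.sqrt_le_sqrt (by push_cast; linarith)
    have h2 : Real.sqrt (K + 1 : ℕ) ^ 2 = K + 1 := by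
      rw [Real.sq_sqrt (by positivity)]; push_cast; ring
    have h3 : Real.sqrt K ^ 2 = K := Real.sq_sqrt (by positivity)
    have h4 : 1 ≤ Real.sqrt (K + 1 : ℕ) := by
      rw [Real.one_le_sqrt]; push_cast; linarith [(Nat.cast_nonneg K : (0 : ℝ) ≤ K)]
    have h5 : 0 ≤ Real.sqrt K := Real.sqrt_nonneg _
    have h6 : 1 / ((K : ℝ) + 1) ≤ 2 * Real.sqrt (K + 1 : ℕ) - 2 * Real.sqrt K := by
      rw [div_le_iff₀ (by positivity), ← h2]
      have : (Real.sqrt (K + 1 : ℕ) - Real.sqrt K) * (Real.sqrt (K + 1 : ℕ) + Real.sqrt K) = 1 := by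
        linear_combination h2 - h3
      nlinarith
    linarith

theorem dw_succ (N : ℕ) (i : ℤ) (s : ℤ) : |dw N i s - dw N i (s + 1)| ≤ 2 * N := by
  unfold dw
  have a1 := w_lip' N (s - i * N) (s + 1 - i * N) (D := 1) (by
    rw [show s - i * N - (s + 1 - i * N) = (-1 : ℤ) by ring]; norm_num)
  have a2 := w_lip' N (-s - i * N) (-(s + 1) - i * N) (D := 1) (by
    rw [show -s - i * N - (-(s + 1) - i * N) = (1 : ℤ) by ring]; norm_num)
  rw [abs_le] at a1 a2 ⊢
  constructor <;> linarith [a1.1, a1.2, a2.1, a2.2]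

theorem kinf_scale_near_aux (N : ℕ) (i : ℤ) (s : ℕ) :
    |dw (2 * N) i (2 * (s : ℤ) + 1) / (2 * (s : ℝ) + 1) +
      dw (2 * N) i (2 * ((s : ℤ) + 1)) / (2 * ((s : ℝ) + 1)) -
      4 * (dw N i ((s : ℤ) + 1) / ((s : ℝ) + 1))| ≤ 21 * N * (1 / ((s : ℝ) + 1)) := by
  set G := dw N i ((s : ℤ) + 1) with hG
  have hs : (0 : ℝ) < (s : ℝ) + 1 := by positivity
  have hs2 : (0 : ℝ) < 2 * (s : ℝ) + 1 := by positivity
  have hN : (0 : ℝ) ≤ N := by positivity
  have a1 := dw_even N i ((s : ℤ) + 1)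
  have a2 := dw_odd N i (s : ℤ)
  have a3 := dw_succ N i (s : ℤ)
  have a4 := dw_le N i (s + 1)
  push_cast at a4
  rw [← hG] at a1 a3 a4
  have b1 : |dw (2 * N) i (2 * (s : ℤ) + 1) - 4 * G| ≤ 14 * N := by
    rw [abs_le] at a2 a3 ⊢
    constructor <;> linarith [a2.1, a2.2, a3.1, a3.2]
  have e : dw (2 * N) i (2 * (s : ℤ) + 1) / (2 * (s : ℝ) + 1) +
      dw (2 * N) i (2 * ((s : ℤ) + 1)) / (2 * ((s : ℝ) + 1)) - 4 * (G / ((s : ℝ) + 1)) =
      (dw (2 * N) i (2 * (s : ℤ) + 1) - 4 * G) * (1 / (2 * (s : ℝ) + 1)) +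
      (dw (2 * N) i (2 * ((s : ℤ) + 1)) - 4 * G) * (1 / (2 * ((s : ℝ) + 1))) +
      G * (2 / ((2 * (s : ℝ) + 1) * ((s : ℝ) + 1))) := by
    field_simp
    ring
  rw [e]
  have c1 : |(dw (2 * N) i (2 * (s : ℤ) + 1) - 4 * G) * (1 / (2 * (s : ℝ) + 1))| ≤
      14 * N * (1 / ((s : ℝ) + 1)) := by
    rw [abs_mul]
    refine mul_le_mul b1 ?_ (abs_nonneg _) (by positivity)
    rw [abs_of_pos (by positivity)]
    apply one_div_le_one_div_of_le hs
    linarith [(Nat.cast_nonneg s : (0 : ℝ) ≤ s)]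
  have c2 : |(dw (2 * N) i (2 * ((s : ℤ) + 1)) - 4 * G) * (1 / (2 * ((s : ℝ) + 1)))| ≤
      3 * N * (1 / ((s : ℝ) + 1)) := by
    rw [abs_mul, abs_of_pos (by positivity : (0 : ℝ) < 1 / (2 * ((s : ℝ) + 1)))]
    calc _ ≤ 6 * N * (1 / (2 * ((s : ℝ) + 1))) :=
          mul_le_mul_of_nonneg_right a1 (by positivity)
      _ = 3 * N * (1 / ((s : ℝ) + 1)) := by field_simp; ring
  have c3 : |G * (2 / ((2 * (s : ℝ) + 1) * ((s : ℝ) + 1)))| ≤ 4 * N * (1 / ((s : ℝ) + 1)) := by
    rw [abs_mul, abs_of_pos (by positivity : (0 : ℝ) < 2 / ((2 * (s : ℝ) + 1) * ((s : ℝ) + 1)))]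
    calc _ ≤ N * (2 * ((s : ℝ) + 1)) * (2 / ((2 * (s : ℝ) + 1) * ((s : ℝ) + 1))) :=
          mul_le_mul_of_nonneg_right a4 (by positivity)
      _ = 4 * N * (1 / (2 * (s : ℝ) + 1)) := by field_simp; ring
      _ ≤ 4 * N * (1 / ((s : ℝ) + 1)) := by
          apply mul_le_mul_of_nonneg_left _ (by positivity)
          apply one_div_le_one_div_of_le hs
          linarith [(Nat.cast_nonneg s : (0 : ℝ) ≤ s)]
  refine le_trans (abs_add_le _ _) ?_
  have := abs_add_le ((dw (2 * N) i (2 * (s : ℤ) + 1) - 4 * G) * (1 / (2 * (s : ℝ) + 1)))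
    ((dw (2 * N) i (2 * ((s : ℤ) + 1)) - 4 * G) * (1 / (2 * ((s : ℝ) + 1))))
  linarith

theorem kinf_scale_near {N : ℕ} (hN : 0 < N) {l i : ℤ} (hl : |l| < 20) (h1 : l - 2 ≤ i)
    (h2 : i ≤ l + 5) : |cc kinf (2 * N) i - cc kinf N i| ≤ 56 / Real.sqrt N := by
  have hN2 : 0 < 2 * N := by positivity
  have hN' : (0 : ℝ) < N := by exact_mod_cast hN
  rw [cc_eq_dw kinf kinf_odd hN2 i _ (K_near hl h1 h2), cc_eq_dw kinf kinf_odd hN i _
    (K_near hl h1 h2)]
  rw [show 28 * (2 * N) = 2 * (28 * N) by ring, sum_range_two_mul]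
  have e : 1 / ((2 * N : ℕ) : ℝ) ^ 2 * ∑ v ∈ range (28 * N),
      (kinf (((2 * v : ℕ) : ℤ) + 1) * dw (2 * N) i (((2 * v : ℕ) : ℤ) + 1) +
        kinf (((2 * v + 1 : ℕ) : ℤ) + 1) * dw (2 * N) i (((2 * v + 1 : ℕ) : ℤ) + 1)) -
      1 / (N : ℝ) ^ 2 * ∑ s ∈ range (28 * N), kinf ((s : ℤ) + 1) * dw N i ((s : ℤ) + 1) =
      1 / (4 * (N : ℝ) ^ 2) * ∑ s ∈ range (28 * N),
        (dw (2 * N) i (2 * (s : ℤ) + 1) / (2 * (s : ℝ) + 1) +
      dw (2 * N) i (2 * ((s : ℤ) + 1)) / (2 * ((s : ℝ) + 1)) -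
      4 * (dw N i ((s : ℤ) + 1) / ((s : ℝ) + 1))) := by
    have h4 : 1 / (N : ℝ) ^ 2 = 1 / (4 * (N : ℝ) ^ 2) * 4 := by field_simp
    rw [h4]
    have h5 : ((2 * N : ℕ) : ℝ) ^ 2 = 4 * (N : ℝ) ^ 2 := by push_cast; ring
    rw [h5, mul_assoc, ← mul_sub]
    congr 1
    rw [mul_sum, ← sum_sub_distrib]
    refine sum_congr rfl fun s _ => ?_
    unfold kinf
    have q1 : (((2 * s : ℕ) : ℤ) + 1) = 2 * (s : ℤ) + 1 := by push_cast; ring
    have q2 : (((2 * s + 1 : ℕ) : ℤ) + 1) = 2 * ((s : ℤ) + 1) := by push_cast; ring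
    rw [q1, q2]
    push_cast
    ring
  rw [e, abs_mul, abs_of_pos (by positivity)]
  have key : |∑ s ∈ range (28 * N),
        (dw (2 * N) i (2 * (s : ℤ) + 1) / (2 * (s : ℝ) + 1) +
      dw (2 * N) i (2 * ((s : ℤ) + 1)) / (2 * ((s : ℝ) + 1)) -
      4 * (dw N i ((s : ℤ) + 1) / ((s : ℝ) + 1)))| ≤ 21 * N * (2 * Real.sqrt ((28 * N : ℕ))) := by
    refine le_trans (abs_sum_le_sum_abs _ _) ?_
    refine le_trans (sum_le_sum fun s _ => kinf_scale_near_aux N i s) ?_
    rw [← mul_sum]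
    exact mul_le_mul_of_nonneg_left (harm_le _) (by positivity)
  have hsq : Real.sqrt ((28 * N : ℕ)) ≤ 5.3 * Real.sqrt N := by
    push_cast
    rw [Real.sqrt_mul (by norm_num)]
    apply mul_le_mul_of_nonneg_right _ (Real.sqrt_nonneg _)
    rw [Real.sqrt_le_left (by norm_num)]
    norm_num
  have hsN : 0 < Real.sqrt N := Real.sqrt_pos.mpr hN'
  have hss : Real.sqrt N * Real.sqrt N = N := Real.mul_self_sqrt hN'.le
  calc 1 / (4 * (N : ℝ) ^ 2) * _ ≤ 1 / (4 * (N : ℝ) ^ 2) * (21 * N * (2 * Real.sqrt ((28 * N : ℕ)))) :=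
        mul_le_mul_of_nonneg_left key (by positivity)
    _ ≤ 1 / (4 * (N : ℝ) ^ 2) * (21 * N * (2 * (5.3 * Real.sqrt N))) := by
        gcongr
    _ = 55.65 / Real.sqrt N := by
        rw [eq_div_iff hsN.ne']
        have : (N : ℝ) ^ 2 = Real.sqrt N * Real.sqrt N * N := by rw [hss]; ring
        rw [this]
        field_simp
        norm_num
    _ ≤ 56 / Real.sqrt N := by
        apply div_le_div_of_nonneg_right (by norm_num) hsN.le

theorem one_div_sqrt_two_pow (m : ℕ) : 56 / Real.sqrt ((2 ^ m : ℕ) : ℝ) ≤ 56 * (3 / 4) ^ m := by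
  have h : ((4 : ℝ) / 3) ^ m ≤ Real.sqrt ((2 ^ m : ℕ) : ℝ) := by
    apply Real.le_sqrt_of_sq_le
    rw [← pow_mul, mul_comm m 2, pow_mul]
    push_cast
    apply pow_le_pow_left₀ (by positivity)
    norm_num
  rw [div_le_iff₀ (lt_of_lt_of_le (by positivity) h)]
  have : (56 : ℝ) = 56 * (3 / 4) ^ m * (4 / 3) ^ m := by
    rw [mul_assoc, ← mul_pow]; norm_num
  calc (56 : ℝ) = 56 * (3 / 4) ^ m * (4 / 3) ^ m := this
    _ ≤ _ := mul_le_mul_of_nonneg_left h (by positivity)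

theorem kinf_abs (s : ℤ) : |kinf s| ≤ 1 / |(s : ℝ)| := by
  unfold kinf; rw [abs_div, abs_one]

theorem ee_inf_scale_near {m : ℕ} {l : ℤ} (hl : |l| < 20) :
    |ee kinf (m + 1) l - ee kinf m l| ≤ 168 * (3 / 4) ^ m := by
  have hN : 0 < 2 ^ m := by positivity
  have := ee_scale_diff kinf m l 0 (56 * (3 / 4) ^ m) 56 (fun i h1 h2 => by
    rw [show 2 ^ (m + 1) = 2 * 2 ^ m by rw [pow_succ]; ring]
    exact le_trans (kinf_scale_near hN hl h1 h2) (one_div_sqrt_two_pow m)) (fun i h1 h2 => by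
    rw [sub_zero]
    refine le_trans (cc_near_le kinf_odd hN hl h1 h2 (fun _ => 1) ?_) ?_
    · intro s
      have := kinf_abs ((s : ℤ) + 1)
      push_cast at this
      rwa [abs_of_pos (by positivity : (0 : ℝ) < (s : ℝ) + 1)] at this
    · simp only [sum_const, card_range, nsmul_eq_mul, mul_one]
      have : (0 : ℝ) < (2 ^ m : ℕ) := by positivity
      push_cast
      push_cast at this
      rw [div_mul_eq_mul_div, div_le_iff₀ this]
      linarith)
  refine le_trans this ?_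
  have h4 : (1 / 4 : ℝ) ^ m ≤ (3 / 4) ^ m := pow_le_pow_left₀ (by norm_num) (by norm_num) m
  linarith

theorem ee_step_eq_inf_near {m : ℕ} {l : ℤ} {r : ℕ} (hl : |l| < 20)
    (h : 28 * 2 ^ m ≤ r) : ee (stepK r) m l = ee kinf m l := by
  apply ee_congr
  intro s h1 h2
  have hN : 0 < 2 ^ m := by positivity
  have hw := window_near (N := 2 ^ m) hN hl (by simpa using h1) (by simpa using h2)
  have hs : |s| ≤ r := le_trans hw (by exact_mod_cast h)
  unfold stepK kinf
  by_cases h0 : s = 0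
  · simp [h0]
  · simp [h0, hs]

theorem geom_tail (x : ℝ) (hx : 0 ≤ x) (M : ℕ) :
    (∑ m ∈ range M, if x < 2 ^ m then x / 2 ^ m else 0) ≤ 2 := by
  have : (∑ m ∈ range M, if x < 2 ^ m then x / 2 ^ m else 0) ≤ 2 ∧
      (x < 2 ^ M → (∑ m ∈ range M, if x < 2 ^ m then x / 2 ^ m else 0) ≤ 2 - 2 * x / 2 ^ M) := by
    induction M with
    | zero =>
      simp only [range_zero, sum_empty, pow_zero, div_one]
      constructor
      · norm_num
      · intro h; linarith
    | succ M ih =>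
      rw [sum_range_succ]
      by_cases h : x < 2 ^ M
      · rw [if_pos h]
        have h1 := ih.2 h
        have hx' : 0 ≤ x / 2 ^ M := by positivity
        have e1 : 2 * x / 2 ^ M = 2 * (x / 2 ^ M) := by ring
        have e2 : 2 * x / 2 ^ (M + 1) = x / 2 ^ M := by rw [pow_succ]; field_simp
        rw [e1] at h1
        rw [e2]
        constructor
        · linarith
        · intro _; linarith
      · rw [if_neg h, add_zero]
        have h0 : (∑ m ∈ range M, if x < 2 ^ m then x / 2 ^ m else 0) = 0 := by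
          apply sum_eq_zero
          intro m hm
          rw [if_neg]
          push Not at h ⊢
          refine le_trans ?_ h
          exact pow_le_pow_right₀ (by norm_num) (mem_range.mp hm).le
        rw [h0]
        constructor
        · norm_num
        · intro h'
          have : 2 * x / 2 ^ (M + 1) ≤ 2 := by
            rw [div_le_iff₀ (by positivity)]
            linarith
          linarith
  exact this.1

theorem geom34 (M : ℕ) : ∑ m ∈ range M, (3 / 4 : ℝ) ^ m ≤ 4 := by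
  have := geom_sum_eq (by norm_num : (3 / 4 : ℝ) ≠ 1) M
  rw [this]
  have : (0 : ℝ) ≤ (3 / 4) ^ M := by positivity
  rw [div_le_iff_of_neg (by norm_num)]
  linarith

theorem geom12 (M : ℕ) : ∑ m ∈ range M, (1 / 2 : ℝ) ^ m ≤ 2 := by
  have := geom_sum_eq (by norm_num : (1 / 2 : ℝ) ≠ 1) M
  rw [this]
  have : (0 : ℝ) ≤ (1 / 2) ^ M := by positivity
  rw [div_le_iff_of_neg (by norm_num)]
  linarith

/-- variation in `m`, near positions -/
theorem step_var_near (r M : ℕ) {l : ℤ} (hl : |l| < 20) :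
    ∑ m ∈ range M, |ee (stepK r) (m + 1) l - ee (stepK r) m l| ≤ 1008 := by
  have key : ∀ m ∈ range M, |ee (stepK r) (m + 1) l - ee (stepK r) m l| ≤
      168 * (3 / 4) ^ m + 168 * (if (r : ℝ) / 56 < 2 ^ m then (r : ℝ) / 56 / 2 ^ m else 0) := by
    intro m _
    by_cases h : 28 * 2 ^ (m + 1) ≤ r
    · have h' : 28 * 2 ^ m ≤ r := by rw [pow_succ] at h; linarith
      rw [ee_step_eq_inf_near hl h, ee_step_eq_inf_near hl h']
      refine le_trans (ee_inf_scale_near hl) ?_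
      have : 0 ≤ (if (r : ℝ) / 56 < 2 ^ m then (r : ℝ) / 56 / 2 ^ m else 0) := by
        split_ifs <;> positivity
      linarith
    · push Not at h
      have hr : (r : ℝ) / 56 < 2 ^ m := by
        rw [div_lt_iff₀ (by norm_num)]
        have : (r : ℝ) < 28 * 2 ^ (m + 1) := by exact_mod_cast h
        rw [pow_succ] at this
        linarith
      rw [if_pos hr]
      have a1 := ee_step_coarse r m hl
      have a2 := ee_step_coarse r (m + 1) hl
      have a3 : 2 * (r : ℝ) / 2 ^ (m + 1) = r / 2 ^ m := by rw [pow_succ]; field_simp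
      rw [a3] at a2
      have a4 := abs_sub (ee (stepK r) (m + 1) l) (ee (stepK r) m l)
      have a5 : 168 * ((r : ℝ) / 56 / 2 ^ m) = 3 * (r / 2 ^ m) := by ring
      have a6 : 2 * (r : ℝ) / 2 ^ m = 2 * (r / 2 ^ m) := by ring
      have a7 : (0 : ℝ) ≤ (3 / 4) ^ m := by positivity
      rw [a5]
      linarith
  refine le_trans (sum_le_sum key) ?_
  rw [sum_add_distrib, ← mul_sum, ← mul_sum]
  have g1 := geom34 M
  have g2 := geom_tail ((r : ℝ) / 56) (by positivity) M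
  linarith

end Crest.Agent.R072.Kernel
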