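import Crest.Agent.R072.KEDefs
import Crest.Agent.R072.KENear
import Crest.Agent.R072.KEFar

/-! R072: elementary kernel estimates. -/

set_option autoImplicit false

namespace Crest.Agent.R072.Kernel

open Finset Filter Topology Crest.Agent.R072

/-- outside: the step has not reached the window -/
theorem ee_step_zero {m : ℕ} {l : ℤ} {r : ℕ} (h20 : 20 ≤ |l|)
    (h : (r : ℤ) < |l| * 2 ^ m - 10 * 2 ^ m) : ee (stepK r) m l = 0 :=
  ee_step_zero' h20 h

/-- inside: the coefficient does not depend on `r` -/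
theorem ee_step_const {m : ℕ} {l : ℤ} {r r' : ℕ} (_h20 : 20 ≤ |l|)
    (h : |l| * 2 ^ m + 10 * 2 ^ m < (r : ℤ)) (h' : |l| * 2 ^ m + 10 * 2 ^ m < (r' : ℤ)) :
    ee (stepK r) m l = ee (stepK r') m l := by
  rw [ee_step_eq_inf h, ee_step_eq_inf h']

theorem ee_step_inf : ∃ C : ℝ, 0 ≤ C ∧ ∀ (m : ℕ) (l : ℤ) (r : ℕ), 20 ≤ |l| →
    |l| * 2 ^ m + 10 * 2 ^ m < (r : ℤ) → |ee (stepK r) m l| ≤ C / (1 + |(l : ℝ)|) ^ 2 := by
  refine ⟨20, by norm_num, ?_⟩
  intro m l r h20 h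
  rw [ee_step_eq_inf h]
  exact ee_inf_far h20

theorem abs_l_lt {l : ℤ} (h : |l| < 20) : 1 + |(l : ℝ)| ≤ 20 := by
  have h1 : |l| ≤ 19 := by omega
  have h2 : (|l| : ℝ) ≤ 19 := by
    have : ((|l| : ℤ) : ℝ) ≤ 19 := by exact_mod_cast h1
    simpa using this
  linarith

/-- the kernel with profile `b` -/
noncomputable def kb (b : ℕ → ℝ) (s : ℤ) : ℝ := if s = 0 then 0 else b s.natAbs / (s : ℝ)

theorem kb_odd (b : ℕ → ℝ) (s : ℤ) : kb b (-s) = -kb b s := by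
  unfold kb
  by_cases h : s = 0
  · simp [h]
  · simp only [neg_eq_zero, h, if_false, Int.natAbs_neg, Int.cast_neg]
    rw [div_neg]

theorem kb_le (b : ℕ → ℝ) (hb : ∀ s, |b s| ≤ 1) (s : ℤ) : |kb b s| ≤ 1 / |(s : ℝ)| := by
  unfold kb
  split_ifs with h
  · rw [abs_zero]; positivity
  · rw [abs_div]
    exact div_le_div_of_nonneg_right (hb _) (abs_nonneg _)

theorem ee_crude_kb {b : ℕ → ℝ} (hb : ∀ s, |b s| ≤ 1) (m : ℕ) (l : ℤ) :
    |ee (kb b) m l| ≤ 1120 / (1 + |(l : ℝ)|) := by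
  have hp : 0 < 1 + |(l : ℝ)| := by positivity
  by_cases hl : |l| < 20
  · refine le_trans (ee_crude_near (kb_odd b) (kb_le b hb) hl) ?_
    rw [le_div_iff₀ hp]
    have := abs_l_lt hl
    nlinarith
  · refine le_trans (ee_crude_far (kb_le b hb) (by omega)) ?_
    apply div_le_div_of_nonneg_right _ hp.le
    norm_num

/-- crude bound for a general kernel `κ(s) = b(|s|)/s`, `|b| ≤ 1`, finitely supported -/
theorem ee_crude : ∃ C : ℝ, 0 ≤ C ∧ ∀ (b : ℕ → ℝ), (∀ s, |b s| ≤ 1) → ∀ (m : ℕ) (l : ℤ),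
    |ee (fun s : ℤ => if s = 0 then 0 else b s.natAbs / (s : ℝ)) m l| ≤ C / (1 + |(l : ℝ)|) :=
  ⟨1120, by norm_num, fun _ hb m l => ee_crude_kb hb m l⟩

theorem ee_sub (f g : ℤ → ℝ) (m : ℕ) (l : ℤ) :
    ee (fun s => f s - g s) m l = ee f m l - ee g m l := by
  have := ee_lin (univ : Finset Bool) (fun b => if b then (1 : ℝ) else -1)
    (fun b => if b then f else g) m l
  simp only [Fintype.sum_bool, if_true] at this
  simp only [Bool.false_eq_true, if_false, one_mul, neg_mul] at this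
  simp only [← sub_eq_add_neg] at this
  exact this

/-- profile of the family of annuli -/
noncomputable def prof {n : ℕ} (σ : Fin n → ℝ) (A B : Fin n → ℕ) (t : ℕ) : ℝ :=
  ∑ j, σ j * (if A j < t ∧ t ≤ B j then 1 else 0)

theorem prof_le {n : ℕ} {σ : Fin n → ℝ} {A B : Fin n → ℕ} (hσ : ∀ j, |σ j| ≤ 1)
    (hd : ∀ i j, i ≠ j → B i ≤ A j ∨ B j ≤ A i) (t : ℕ) : |prof σ A B t| ≤ 1 := by
  unfold prof
  by_cases h : ∃ j, A j < t ∧ t ≤ B j
  · obtain ⟨j, hj⟩ := h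
    rw [sum_eq_single j]
    · rw [if_pos hj, mul_one]; exact hσ j
    · intro i _ hij
      rw [if_neg, mul_zero]
      intro hi
      rcases hd i j hij with h | h <;> omega
    · intro h; exact absurd (mem_univ j) h
  · push Not at h
    rw [sum_eq_zero]
    · simp
    · intro j _
      rw [if_neg, mul_zero]
      rintro ⟨h1, h2⟩
      exact absurd h2 (not_le.mpr (h j h1))

theorem ind_diff {a b t : ℕ} (h : a ≤ b) :
    (if t ≤ b then (1 : ℝ) else 0) - (if t ≤ a then 1 else 0) =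
      if a < t ∧ t ≤ b then 1 else 0 := by
  by_cases h1 : a < t
  · by_cases h2 : t ≤ b
    · rw [if_pos h2, if_neg (not_le.mpr h1), if_pos ⟨h1, h2⟩, sub_zero]
    · rw [if_neg h2, if_neg (not_le.mpr h1), if_neg (fun h3 => h2 h3.2), sub_zero]
  · rw [if_pos (le_trans (not_lt.mp h1) h), if_pos (not_lt.mp h1), if_neg (fun h3 => h1 h3.1),
      sub_self]

theorem kb_prof {n : ℕ} {σ : Fin n → ℝ} {A B : Fin n → ℕ} (hAB : ∀ j, A j ≤ B j) :
    kb (prof σ A B) = fun s => ∑ j, σ j * (stepK (B j) s - stepK (A j) s) := by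
  funext s
  unfold kb prof
  by_cases h : s = 0
  · subst h
    simp [stepK]
  · rw [if_neg h, sum_div]
    refine sum_congr rfl fun j _ => ?_
    rw [mul_div_assoc]
    congr 1
    have e1 : ∀ r : ℕ, stepK r s = (if s.natAbs ≤ r then 1 else 0) / (s : ℝ) := by
      intro r
      unfold stepK
      have : (s ≠ 0 ∧ |s| ≤ (r : ℤ)) ↔ s.natAbs ≤ r := by
        rw [Int.abs_eq_natAbs]
        constructor
        · rintro ⟨_, h2⟩; exact_mod_cast h2
        · intro h2; exact ⟨h, by exact_mod_cast h2⟩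
      simp only [this]
      split_ifs <;> simp
    rw [e1, e1, ← ind_diff (hAB j), sub_div]

theorem ee_kb_prof {n : ℕ} {σ : Fin n → ℝ} {A B : Fin n → ℕ} (hAB : ∀ j, A j ≤ B j)
    (m : ℕ) (l : ℤ) :
    ee (kb (prof σ A B)) m l = ∑ j, σ j * (ee (stepK (B j)) m l - ee (stepK (A j)) m l) := by
  rw [kb_prof hAB, ee_lin univ σ (fun j s => stepK (B j) s - stepK (A j) s)]
  refine sum_congr rfl fun j _ => ?_
  rw [ee_sub]

theorem ee_step_sharp {m : ℕ} {l : ℤ} {r : ℕ} (h20 : 20 ≤ |l|) (hn : ¬ near m l r) :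
    ee (stepK r) m l = (if l.natAbs * 2 ^ m ≤ r then 1 else 0) * ee kinf m l := by
  have hp : (0 : ℤ) < 2 ^ m := by positivity
  have hcast : ((l.natAbs * 2 ^ m : ℕ) : ℤ) = |l| * 2 ^ m := by
    push_cast
    rfl
  have h1 : ¬ |(r : ℤ) - |l| * 2 ^ m| ≤ 10 * 2 ^ m := fun h => hn ⟨h20, h⟩
  rw [abs_le, not_and_or, not_le, not_le] at h1
  rcases h1 with h1 | h1
  · rw [ee_step_zero h20 (by linarith), if_neg, zero_mul]
    intro h
    have : ((l.natAbs * 2 ^ m : ℕ) : ℤ) ≤ r := by exact_mod_cast h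
    rw [hcast] at this
    linarith
  · rw [ee_step_eq_inf (by linarith), if_pos, one_mul]
    have : ((l.natAbs * 2 ^ m : ℕ) : ℤ) ≤ r := by
      rw [hcast]
      linarith
    exact_mod_cast this

theorem not_near_of_nu {m : ℕ} {l : ℤ} {r : ℕ} (h : nu r l = 0) : ¬ near m l r := by
  intro hn
  unfold nu at h
  rw [card_eq_zero, filter_eq_empty_iff] at h
  exact h (mem_range.mpr (near_le hn)) hn

theorem ee_sharp {n : ℕ} {σ : Fin n → ℝ} {A B : Fin n → ℕ} (hσ : ∀ j, |σ j| ≤ 1)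
    (hAB : ∀ j, A j ≤ B j) (hd : ∀ i j, i ≠ j → B i ≤ A j ∨ B j ≤ A i) {m : ℕ} {l : ℤ}
    (h20 : 20 ≤ |l|) (hB : ∀ j, nu (B j) l = 0) (hA : ∀ j, nu (A j) l = 0) :
    |ee (kb (prof σ A B)) m l| ≤ 20 / (1 + |(l : ℝ)|) ^ 2 := by
  have e : ee (kb (prof σ A B)) m l = prof σ A B (l.natAbs * 2 ^ m) * ee kinf m l := by
    rw [ee_kb_prof hAB]
    unfold prof
    rw [sum_mul]
    refine sum_congr rfl fun j _ => ?_
    rw [ee_step_sharp h20 (not_near_of_nu (hB j)), ee_step_sharp h20 (not_near_of_nu (hA j)),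
      mul_assoc, ← sub_mul]
    rw [ind_diff (hAB j)]
  rw [e, abs_mul]
  calc _ ≤ 1 * (20 / (1 + |(l : ℝ)|) ^ 2) :=
        mul_le_mul (prof_le hσ hd _) (ee_inf_far h20) (abs_nonneg _) (by norm_num)
    _ = _ := one_mul _

/-- the limit functional -/
theorem sum_kb_prof {n : ℕ} {σ : Fin n → ℝ} {A B : Fin n → ℕ} (hAB : ∀ j, A j ≤ B j)
    (R : ℕ) (hR : ∀ j, B j ≤ R) (T : ℤ → ℝ) :
    ∑ s ∈ Icc (-(R : ℤ)) R, kb (prof σ A B) s * T s =
      ∑ j, σ j * ∑ s ∈ Ioc (A j) (B j), (T s - T (-(s : ℤ))) / (s : ℝ) := by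
  rw [sum_Icc_symm]
  have h0 : kb (prof σ A B) 0 = 0 := by simp [kb]
  rw [h0, zero_mul, zero_add]
  have e1 : ∀ s ∈ range R, (kb (prof σ A B) ((s : ℤ) + 1) * T ((s : ℤ) + 1) +
      kb (prof σ A B) (-((s : ℤ) + 1)) * T (-((s : ℤ) + 1))) =
      ∑ j, σ j * ((if A j < s + 1 ∧ s + 1 ≤ B j then 1 else 0) *
        ((T ((s + 1 : ℕ) : ℤ) - T (-((s + 1 : ℕ) : ℤ))) / ((s + 1 : ℕ) : ℝ))) := by
    intro s _
    rw [kb_odd]
    have h2 : kb (prof σ A B) ((s : ℤ) + 1) = prof σ A B (s + 1) / ((s + 1 : ℕ) : ℝ) := by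
      unfold kb
      rw [if_neg (by omega)]
      have : ((s : ℤ) + 1).natAbs = s + 1 := by omega
      rw [this]
      push_cast
      rfl
    rw [h2]
    have h3 : ((s + 1 : ℕ) : ℤ) = (s : ℤ) + 1 := by push_cast; rfl
    rw [h3]
    unfold prof
    simp only [← mul_assoc]
    rw [← sum_mul]
    ring
  rw [sum_congr rfl e1, sum_comm]
  refine sum_congr rfl fun j _ => ?_
  rw [← mul_sum]
  congr 1
  have e2 : ∀ s : ℕ, ((if A j < s + 1 ∧ s + 1 ≤ B j then (1 : ℝ) else 0) *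
        ((T ((s + 1 : ℕ) : ℤ) - T (-((s + 1 : ℕ) : ℤ))) / ((s + 1 : ℕ) : ℝ))) =
      (fun u : ℕ => if A j < u ∧ u ≤ B j then ((T (u : ℤ) - T (-(u : ℤ))) / (u : ℝ)) else 0)
        (s + 1) := by
    intro s
    simp only
    split_ifs <;> simp
  rw [sum_congr rfl fun s _ => e2 s]
  rw [← sum_image (f := fun u : ℕ => if A j < u ∧ u ≤ B j then
    ((T (u : ℤ) - T (-(u : ℤ))) / (u : ℝ)) else 0) (g := fun s => s + 1) (s := range R)
    (by intro a _ b _ h; simpa using h)]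
  rw [← sum_filter]
  apply sum_congr _ fun _ _ => rfl
  ext u
  simp only [mem_filter, mem_image, mem_range, mem_Ioc]
  constructor
  · rintro ⟨_, h⟩; exact h
  · intro h
    refine ⟨⟨u - 1, ?_, ?_⟩, h⟩
    · have := hR j; omega
    · omega

end Crest.Agent.R072.Kernel
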