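import Crest.Agent.R072.Kernel

/-! R072: near scales (definitions shared by the kernel estimate files). -/

set_option autoImplicit false

namespace Crest.Agent.R072.Kernel

open Finset Filter Topology Crest.Agent.R072

/-- scale `m` is *near* for position `l` and change point `r`:
`|l| ≥ 20` and `|r - |l| 2^m| ≤ 10 · 2^m`. -/
def near (m : ℕ) (l : ℤ) (r : ℕ) : Prop := 20 ≤ |l| ∧ |(r : ℤ) - |l| * 2 ^ m| ≤ 10 * 2 ^ m

instance (m : ℕ) (l : ℤ) (r : ℕ) : Decidable (near m l r) := by unfold near; infer_instance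

/-- number of near scales (near forces `10 * 2^m ≤ r`, so `m ≤ r` suffices) -/
def nu (r : ℕ) (l : ℤ) : ℕ := ((range (r + 1)).filter (fun m => near m l r)).card

theorem near_pow_le {m : ℕ} {l : ℤ} {r : ℕ} (h : near m l r) : 10 * 2 ^ m ≤ r := by
  obtain ⟨h1, h2⟩ := h
  have h3 := (abs_le.mp h2).1
  have h4 : (20 : ℤ) * 2 ^ m ≤ |l| * 2 ^ m := mul_le_mul_of_nonneg_right h1 (by positivity)
  have h5 : (10 : ℤ) * 2 ^ m ≤ r := by linarith
  exact_mod_cast h5

theorem near_le {m : ℕ} {l : ℤ} {r : ℕ} (h : near m l r) : m < r + 1 := by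
  have h1 := near_pow_le h
  have h2 : m < 2 ^ m := Nat.lt_two_pow_self
  omega

end Crest.Agent.R072.Kernel
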