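import Crest.Agent.R072.KEBasic

/-! R072: the kernel theorem from the variation estimate and the count of near scales. -/

set_option autoImplicit false

namespace Crest.Agent.R072.Kernel

open Finset Filter Topology Crest.Agent.R072

theorem kernel_main_of
    (hvar : ∃ C : ℝ, 0 ≤ C ∧ ∀ (r : ℕ) (l : ℤ) (M : ℕ),
      ∑ m ∈ range M, |ee (stepK r) (m + 1) l - ee (stepK r) m l| ≤
        C / (1 + |(l : ℝ)|) * (1 / (1 + |(l : ℝ)|) + nu r l))
    (hnu : ∃ C : ℝ, 0 ≤ C ∧ ∀ (r : ℕ) (Λ : ℕ),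
      ∑ l ∈ Icc (-(Λ : ℤ)) Λ, (1 + |(l : ℝ)|) ^ (-(1 / 4) : ℝ) * nu r l ≤ C) :
    ∃ C : ℝ, 0 ≤ C ∧ ∀ (n : ℕ) (σ : Fin n → ℝ) (A B : Fin n → ℕ), 1 ≤ n →
    (∀ j, |σ j| ≤ 1) → (∀ j, A j ≤ B j) → (∀ i j, i ≠ j → B i ≤ A j ∨ B j ≤ A i) →
    ∀ Λ : ℕ, (∀ j, B j + 10 ≤ Λ) →
    ∃ (e : ℕ → ℤ → ℝ) (ν : ℤ → ℝ), (∀ l, 0 ≤ ν l) ∧
      (∀ m l, |e m l| ≤ C / (1 + |(l : ℝ)|) * (1 / (1 + |(l : ℝ)|) + min 1 (ν l))) ∧
      (∀ M l, ∑ m ∈ range M, |e (m + 1) l - e m l| ≤
        C / (1 + |(l : ℝ)|) * (n / (1 + |(l : ℝ)|) + ν l)) ∧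
      (∑ l ∈ Icc (-(Λ : ℤ)) Λ, (1 + |(l : ℝ)|) ^ (-(1 / 4) : ℝ) * ν l ≤ C * n) ∧
      (∀ T : ℤ → ℝ, (∃ B', ∀ s, |T s| ≤ B') →
        Tendsto (fun M : ℕ => ∑ m ∈ range M, ∑ l ∈ Icc (-(Λ : ℤ)) Λ, e m l * psiT (2 ^ m) T l)
          atTop (𝓝 (∑ j, σ j * ∑ s ∈ Ioc (A j) (B j), (T s - T (-(s : ℤ))) / (s : ℝ)))) := by
  obtain ⟨C1, hC1, hvar⟩ := hvar
  obtain ⟨C2, hC2, hnu⟩ := hnu
  refine ⟨22400 + 2 * C1 + 2 * C2, by positivity, ?_⟩
  intro n σ A B hn hσ hAB hd Λ hΛ
  refine ⟨ee (kb (prof σ A B)), fun l => ∑ j, ((nu (B j) l : ℝ) + nu (A j) l), ?_, ?_, ?_, ?_, ?_⟩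
  · intro l
    positivity
  · intro m l
    have hp : 0 < 1 + |(l : ℝ)| := by positivity
    by_cases hl : |l| < 20
    · refine le_trans (ee_crude_near (kb_odd _) (kb_le _ (prof_le hσ hd)) hl) ?_
      have h1 := abs_l_lt hl
      have h0 : (0 : ℝ) ≤ min 1 (∑ j, ((nu (B j) l : ℝ) + nu (A j) l)) :=
        le_min (by norm_num) (by positivity)
      calc (56 : ℝ) ≤ 22400 / (1 + |(l : ℝ)|) * (1 / (1 + |(l : ℝ)|)) := by
            rw [div_mul_div_comm, mul_one, le_div_iff₀ (by positivity)]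
            nlinarith
        _ ≤ _ := by
            apply mul_le_mul
            · apply div_le_div_of_nonneg_right _ hp.le
              linarith
            · linarith
            · positivity
            · positivity
    · have hl : 20 ≤ |l| := by omega
      by_cases hν : (1 : ℝ) ≤ ∑ j, ((nu (B j) l : ℝ) + nu (A j) l)
      · rw [min_eq_left hν]
        refine le_trans (ee_crude_far (kb_le _ (prof_le hσ hd)) hl) ?_
        calc 2 / (1 + |(l : ℝ)|) = 2 / (1 + |(l : ℝ)|) * 1 := by ring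
          _ ≤ _ := by
            apply mul_le_mul
            · apply div_le_div_of_nonneg_right _ hp.le
              linarith
            · have : 0 ≤ 1 / (1 + |(l : ℝ)|) := by positivity
              linarith
            · positivity
            · positivity
      · have hsum : ∑ j, (nu (B j) l + nu (A j) l) = 0 := by
          have h1 : ((∑ j, (nu (B j) l + nu (A j) l) : ℕ) : ℝ) < 1 := by
            push_cast
            push Not at hν
            exact hν
          have h2 : ∑ j, (nu (B j) l + nu (A j) l) < 1 := by exact_mod_cast h1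
          omega
        have hz : ∀ j, nu (B j) l = 0 ∧ nu (A j) l = 0 := by
          intro j
          have := (Finset.sum_eq_zero_iff.mp hsum) j (mem_univ j)
          omega
        refine le_trans (ee_sharp hσ hAB hd hl (fun j => (hz j).1) (fun j => (hz j).2)) ?_
        have h0 : (0 : ℝ) ≤ min 1 (∑ j, ((nu (B j) l : ℝ) + nu (A j) l)) :=
          le_min (by norm_num) (by positivity)
        calc 20 / (1 + |(l : ℝ)|) ^ 2 = 20 / (1 + |(l : ℝ)|) * (1 / (1 + |(l : ℝ)|)) := by
              field_simp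
          _ ≤ _ := by
            apply mul_le_mul
            · apply div_le_div_of_nonneg_right _ hp.le
              linarith
            · linarith
            · positivity
            · positivity
  · intro M l
    have hp : 0 < 1 + |(l : ℝ)| := by positivity
    have step : ∀ m ∈ range M, |ee (kb (prof σ A B)) (m + 1) l - ee (kb (prof σ A B)) m l| ≤
        ∑ j, (|ee (stepK (B j)) (m + 1) l - ee (stepK (B j)) m l| +
          |ee (stepK (A j)) (m + 1) l - ee (stepK (A j)) m l|) := by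
      intro m _
      rw [ee_kb_prof hAB, ee_kb_prof hAB, ← sum_sub_distrib]
      refine le_trans (abs_sum_le_sum_abs _ _) (sum_le_sum fun j _ => ?_)
      have e : σ j * (ee (stepK (B j)) (m + 1) l - ee (stepK (A j)) (m + 1) l) -
          σ j * (ee (stepK (B j)) m l - ee (stepK (A j)) m l) =
          σ j * ((ee (stepK (B j)) (m + 1) l - ee (stepK (B j)) m l) -
            (ee (stepK (A j)) (m + 1) l - ee (stepK (A j)) m l)) := by ring
      rw [e, abs_mul]
      calc _ ≤ 1 * (|ee (stepK (B j)) (m + 1) l - ee (stepK (B j)) m l| +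
            |ee (stepK (A j)) (m + 1) l - ee (stepK (A j)) m l|) := by
            apply mul_le_mul (hσ j) (abs_sub _ _) (abs_nonneg _) (by norm_num)
        _ = _ := one_mul _
    refine le_trans (sum_le_sum step) ?_
    rw [sum_comm]
    calc _ ≤ ∑ j : Fin n, (C1 / (1 + |(l : ℝ)|) * (1 / (1 + |(l : ℝ)|) + nu (B j) l) +
          C1 / (1 + |(l : ℝ)|) * (1 / (1 + |(l : ℝ)|) + nu (A j) l)) := by
          refine sum_le_sum fun j _ => ?_
          rw [sum_add_distrib]
          exact add_le_add (hvar _ _ _) (hvar _ _ _)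
      _ = C1 / (1 + |(l : ℝ)|) * (2 * (n / (1 + |(l : ℝ)|)) +
            ∑ j, ((nu (B j) l : ℝ) + nu (A j) l)) := by
          have : ∀ j : Fin n, (C1 / (1 + |(l : ℝ)|) * (1 / (1 + |(l : ℝ)|) + nu (B j) l) +
              C1 / (1 + |(l : ℝ)|) * (1 / (1 + |(l : ℝ)|) + nu (A j) l)) =
              C1 / (1 + |(l : ℝ)|) * (2 * (1 / (1 + |(l : ℝ)|))) +
                C1 / (1 + |(l : ℝ)|) * ((nu (B j) l : ℝ) + nu (A j) l) := by
            intro j; ring
          rw [sum_congr rfl fun j _ => this j, sum_add_distrib, sum_const, card_univ,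
            Fintype.card_fin, ← mul_sum, nsmul_eq_mul]
          ring
      _ ≤ C1 / (1 + |(l : ℝ)|) * (2 * (n / (1 + |(l : ℝ)|)) +
            2 * ∑ j, ((nu (B j) l : ℝ) + nu (A j) l)) := by
          apply mul_le_mul_of_nonneg_left _ (by positivity)
          have : 0 ≤ ∑ j, ((nu (B j) l : ℝ) + nu (A j) l) := by positivity
          linarith
      _ = 2 * C1 / (1 + |(l : ℝ)|) * (n / (1 + |(l : ℝ)|) +
            ∑ j, ((nu (B j) l : ℝ) + nu (A j) l)) := by ring
      _ ≤ _ := by
          apply mul_le_mul_of_nonneg_right _ (by positivity)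
          apply div_le_div_of_nonneg_right _ hp.le
          linarith
  · have e : ∀ l : ℤ, (1 + |(l : ℝ)|) ^ (-(1 / 4) : ℝ) * ∑ j, ((nu (B j) l : ℝ) + nu (A j) l) =
        ∑ j, ((1 + |(l : ℝ)|) ^ (-(1 / 4) : ℝ) * nu (B j) l +
          (1 + |(l : ℝ)|) ^ (-(1 / 4) : ℝ) * nu (A j) l) := by
      intro l
      rw [mul_sum]
      exact sum_congr rfl fun j _ => mul_add _ _ _
    rw [sum_congr rfl fun l _ => e l, sum_comm]
    calc _ ≤ ∑ _j : Fin n, (C2 + C2) := by
          refine sum_le_sum fun j _ => ?_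
          rw [sum_add_distrib]
          exact add_le_add (hnu _ _) (hnu _ _)
      _ = (2 * C2) * n := by
          rw [sum_const, card_univ, Fintype.card_fin, nsmul_eq_mul]
          ring
      _ ≤ _ := by
          apply mul_le_mul_of_nonneg_right _ (by positivity)
          linarith
  · intro T hT
    have hj : 0 < n := hn
    have h10 : 10 ≤ Λ := by have := hΛ ⟨0, hj⟩; omega
    have hR : ∀ j, B j ≤ Λ - 10 := fun j => by have := hΛ j; omega
    rw [← sum_kb_prof hAB (Λ - 10) hR T]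
    apply decomp (kb (prof σ A B)) (Λ - 10) _ _ T hT Λ (by omega)
    · intro s hs
      have h2 : prof σ A B s.natAbs = 0 := by
        unfold prof
        apply sum_eq_zero
        intro j _
        rw [if_neg, mul_zero]
        rintro ⟨_, h4⟩
        have h5 := hR j
        rw [Int.abs_eq_natAbs] at hs
        have h6 : Λ - 10 < s.natAbs := by exact_mod_cast hs
        omega
      unfold kb
      rw [h2]
      simp
    · rw [sum_Icc_symm]
      have h0 : kb (prof σ A B) 0 = 0 := by simp [kb]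
      rw [h0, zero_add]
      apply sum_eq_zero
      intro s _
      rw [kb_odd]
      ring

end Crest.Agent.R072.Kernel
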