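import Crest.Agent.R072.Mat

/-! R072: kernel decomposition (blueprint part 2, "Kernel"). -/

set_option autoImplicit false

namespace Crest.Agent.R072.Kernel

open Finset Filter Topology Crest.Agent.R072

/-- `aT N T i = N^{-3} ∑_{i0,i1,i2<N} T(iN+i0+i1+i2)` (pairing of `T` with the B-spline at `iN`). -/
noncomputable def aT (N : ℕ) (T : ℤ → ℝ) (i : ℤ) : ℝ :=
  (1 / (N : ℝ) ^ 3) * ∑ i0 ∈ range N, ∑ i1 ∈ range N, ∑ i2 ∈ range N,
    T (i * N + i0 + i1 + i2)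

/-- pairing of `T` with the Haar-cube kernel of side `2N` at position `lN`, normalised by `N^{-3}`. -/
noncomputable def psiT (N : ℕ) (T : ℤ → ℝ) (l : ℤ) : ℝ :=
  (1 / (N : ℝ) ^ 3) * ∑ i0 : Fin (N + N), ∑ i1 : Fin (N + N), ∑ i2 : Fin (N + N),
    hsgn N i0 * hsgn N i1 * hsgn N i2 * T (l * N + (i0 : ℕ) + (i1 : ℕ) + (i2 : ℕ))

/-- step kernel `1_{0<|s|≤r}/s` -/
noncomputable def stepK (r : ℕ) (s : ℤ) : ℝ := if s ≠ 0 ∧ |s| ≤ r then 1 / (s : ℝ) else 0

/-- `θ_m = (1 - 4^{-m})/4`; `4 θ_{m+1} - θ_m = 3/4`. -/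
noncomputable def theta (m : ℕ) : ℝ := (1 - 1 / 4 ^ m) / 4

/-- `c_N(i) = N^{-2} ∑_s κ(s) β_N(s - iN) = N^{-2} ∑_{i0,i1,i2<N} κ(iN+i0+i1+i2) = N * aT N κ i`. -/
noncomputable def cc (κ : ℤ → ℝ) (N : ℕ) (i : ℤ) : ℝ := N * aT N κ i

/-- even filter taps (`l` even): `e(l) = ∑_k etaE k c(l+k)` -/
noncomputable def eE (t : ℝ) (c : ℤ → ℝ) (l : ℤ) : ℝ :=
  (-3 / 512 - t / 128) * c (l - 2) + (-9 / 512 - 3 * t / 128) * c (l - 1) +
  (-41 / 512 - 19 * t / 128) * c l + (-99 / 512 - 49 * t / 128) * c (l + 1) +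
  (99 / 512 + 49 * t / 128) * c (l + 2) + (41 / 512 + 19 * t / 128) * c (l + 3) +
  (9 / 512 + 3 * t / 128) * c (l + 4) + (3 / 512 + t / 128) * c (l + 5)

/-- odd filter taps (`l` odd) -/
noncomputable def eO (t : ℝ) (c : ℤ → ℝ) (l : ℤ) : ℝ :=
  (-9 / 256 - 3 * t / 64) * c (l - 1) + (-27 / 256 - 9 * t / 64) * c l +
  (-9 / 128 - 11 * t / 32) * c (l + 1) + (9 / 128 + 11 * t / 32) * c (l + 2) +
  (27 / 256 + 9 * t / 64) * c (l + 3) + (9 / 256 + 3 * t / 64) * c (l + 4)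

/-- coefficient `e_m(l)` of the kernel `κ` at scale `N = 2^m` -/
noncomputable def ee (κ : ℤ → ℝ) (m : ℕ) (l : ℤ) : ℝ :=
  if Even l then eE (theta m) (cc κ (2 ^ m)) l else eO (theta m) (cc κ (2 ^ m)) l

/-- smoothed coefficient `(q_N c_N)(i)` -/
noncomputable def qc (κ : ℤ → ℝ) (m : ℕ) (i : ℤ) : ℝ :=
  cc κ (2 ^ m) i - theta m * (cc κ (2 ^ m) (i - 1) - 2 * cc κ (2 ^ m) i + cc κ (2 ^ m) (i + 1))

/-! ### algebraic part -/

/-- window sum -/
noncomputable def Wn (N : ℕ) (T : ℤ → ℝ) (s : ℤ) : ℝ := ∑ i ∈ range N, T (s + i)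

theorem Wn_add_shift (N : ℕ) (f : ℤ → ℝ) (c : ℝ) (k s : ℤ) :
    Wn N (fun s => f s + c * f (s + k)) s = Wn N f s + c * Wn N f (s + k) := by
  unfold Wn
  rw [sum_add_distrib, mul_sum]
  congr 1
  refine sum_congr rfl fun i _ => ?_
  congr 2
  ring

theorem Wn_double (N : ℕ) (T : ℤ → ℝ) (s : ℤ) :
    Wn (N + N) T s = Wn N T s + 1 * Wn N T (s + N) := by
  unfold Wn
  rw [Finset.sum_range_add, one_mul]
  congr 1
  refine sum_congr rfl fun i _ => ?_
  congr 1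
  push_cast
  ring

theorem aT_eq (N : ℕ) (T : ℤ → ℝ) (i : ℤ) :
    aT N T i = (1 / (N : ℝ) ^ 3) * Wn N (Wn N (Wn N T)) (i * N) := rfl

theorem Wn_double_fun (N : ℕ) (T : ℤ → ℝ) :
    Wn (N + N) T = fun s => Wn N T s + 1 * Wn N T (s + N) := by
  funext s; exact Wn_double N T s

theorem S3_double (N : ℕ) (T : ℤ → ℝ) (s : ℤ) :
    Wn (N + N) (Wn (N + N) (Wn (N + N) T)) s =
      Wn N (Wn N (Wn N T)) s + 3 * Wn N (Wn N (Wn N T)) (s + N) +
      3 * Wn N (Wn N (Wn N T)) (s + 2 * N) + Wn N (Wn N (Wn N T)) (s + 3 * N) := by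
  have h1 : Wn N (Wn N (Wn (N + N) T)) =
      fun s => Wn N (Wn N (Wn N T)) s + 1 * Wn N (Wn N (Wn N T)) (s + N) := by
    have : Wn N (Wn (N + N) T) = fun s => Wn N (Wn N T) s + 1 * Wn N (Wn N T) (s + N) := by
      rw [Wn_double_fun]
      funext s
      exact Wn_add_shift N (Wn N T) 1 N s
    rw [this]
    funext s
    exact Wn_add_shift N (Wn N (Wn N T)) 1 N s
  have h2 : Wn N (Wn (N + N) (Wn (N + N) T)) = fun s => Wn N (Wn N (Wn (N + N) T)) s +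
      1 * Wn N (Wn N (Wn (N + N) T)) (s + N) := by
    rw [Wn_double_fun N (Wn (N + N) T)]
    funext s
    exact Wn_add_shift N (Wn N (Wn (N + N) T)) 1 N s
  rw [Wn_double, h2, h1]
  have e1 : s + (N : ℤ) + N = s + 2 * N := by ring
  have e2 : s + 2 * (N : ℤ) + N = s + 3 * N := by ring
  simp only [e1, e2]
  ring

theorem aT_double (T : ℤ → ℝ) {N : ℕ} (hN : 0 < N) (i : ℤ) :
    aT (N + N) T i = (1 / 8) * (aT N T (2 * i) + 3 * aT N T (2 * i + 1) + 3 * aT N T (2 * i + 2) +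
      aT N T (2 * i + 3)) := by
  have hN' : (N : ℝ) ≠ 0 := by positivity
  simp only [aT_eq, S3_double]
  have e0 : i * ((N + N : ℕ) : ℤ) = 2 * i * N := by push_cast; ring
  have e1 : 2 * i * (N : ℤ) + N = (2 * i + 1) * N := by ring
  have e2 : 2 * i * (N : ℤ) + 2 * N = (2 * i + 2) * N := by ring
  have e3 : 2 * i * (N : ℤ) + 3 * N = (2 * i + 3) * N := by ring
  rw [e0, e1, e2, e3]
  push_cast
  field_simp
  ring

/-- refinement of the B-spline coefficients: `c_{2N}(i) = ¼ ∑ binom(3,k) c_N(2i+k)`. -/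
theorem cc_double (κ : ℤ → ℝ) {N : ℕ} (hN : 0 < N) (i : ℤ) :
    cc κ (N + N) i = (1 / 4) * (cc κ N (2 * i) + 3 * cc κ N (2 * i + 1) + 3 * cc κ N (2 * i + 2) +
      cc κ N (2 * i + 3)) := by
  unfold cc
  rw [aT_double κ hN]
  push_cast
  ring

/-- difference operator -/
noncomputable def Dn (N : ℕ) (f : ℤ → ℝ) (s : ℤ) : ℝ := f s + (-1) * f (s + N)

theorem Wn_Dn (N : ℕ) (f : ℤ → ℝ) : Wn N (Dn N f) = Dn N (Wn N f) := by
  funext s
  exact Wn_add_shift N f (-1) N s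

theorem sum_fin_hsgn (N : ℕ) (g : ℤ → ℝ) (s : ℤ) :
    ∑ i : Fin (N + N), hsgn N i * g (s + (i : ℕ)) = Dn N (Wn N g) s := by
  rw [Fin.sum_univ_add]
  have h1 : ∀ i : Fin N, hsgn N (Fin.castAdd N i) = 1 := by
    intro i; unfold hsgn; simp
  have h2 : ∀ i : Fin N, hsgn N (Fin.natAdd N i) = -1 := by
    intro i; unfold hsgn; simp
  simp only [h1, h2, Fin.val_castAdd, Fin.val_natAdd, one_mul]
  unfold Dn Wn
  rw [Finset.sum_range, Finset.sum_range, mul_sum]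
  congr 1
  refine sum_congr rfl fun i _ => ?_
  congr 2
  push_cast
  ring

theorem psiT_eq (T : ℤ → ℝ) {N : ℕ} (hN : 0 < N) (l : ℤ) :
    psiT N T l = aT N T l - 3 * aT N T (l + 1) + 3 * aT N T (l + 2) - aT N T (l + 3) := by
  unfold psiT
  simp only [aT_eq]
  have h : ∀ s : ℤ, ∑ i0 : Fin (N + N), ∑ i1 : Fin (N + N), ∑ i2 : Fin (N + N),
      hsgn N i0 * hsgn N i1 * hsgn N i2 * T (s + (i0 : ℕ) + (i1 : ℕ) + (i2 : ℕ)) =
      Wn N (Wn N (Wn N T)) s - 3 * Wn N (Wn N (Wn N T)) (s + N) +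
      3 * Wn N (Wn N (Wn N T)) (s + 2 * N) - Wn N (Wn N (Wn N T)) (s + 3 * N) := by
    intro s
    have e : ∀ i0 : Fin (N + N), ∑ i1 : Fin (N + N), ∑ i2 : Fin (N + N),
      hsgn N i0 * hsgn N i1 * hsgn N i2 * T (s + (i0 : ℕ) + (i1 : ℕ) + (i2 : ℕ)) =
      hsgn N i0 * ∑ i1 : Fin (N + N), hsgn N i1 * ∑ i2 : Fin (N + N), hsgn N i2 *
        T (s + (i0 : ℕ) + (i1 : ℕ) + (i2 : ℕ)) := by
      intro i0
      rw [mul_sum]
      refine sum_congr rfl fun i1 _ => ?_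
      rw [mul_sum, mul_sum]
      refine sum_congr rfl fun i2 _ => ?_
      ring
    simp only [e]
    simp only [sum_fin_hsgn]
    simp only [Wn_Dn]
    unfold Dn
    have e1 : s + (N : ℤ) + N = s + 2 * N := by ring
    have e2 : s + 2 * (N : ℤ) + N = s + 3 * N := by ring
    simp only [e1, e2]
    ring
  rw [h]
  have e1 : l * (N : ℤ) + N = (l + 1) * N := by ring
  have e2 : l * (N : ℤ) + 2 * N = (l + 2) * N := by ring
  have e3 : l * (N : ℤ) + 3 * N = (l + 3) * N := by ring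
  rw [e1, e2, e3]
  ring

theorem cc_zero (κ : ℤ → ℝ) (R : ℕ) (hκ : ∀ s : ℤ, (R : ℤ) < |s| → κ s = 0) {N : ℕ} (hN : 0 < N)
    (j : ℤ) (hj : (R : ℤ) + 3 < |j|) : cc κ N j = 0 := by
  unfold cc aT
  have : ∑ i0 ∈ range N, ∑ i1 ∈ range N, ∑ i2 ∈ range N, κ (j * N + i0 + i1 + i2) = 0 := by
    refine sum_eq_zero fun i0 h0 => sum_eq_zero fun i1 h1 => sum_eq_zero fun i2 h2 => ?_
    rw [mem_range] at h0 h1 h2
    apply hκ
    have h0' : (i0 : ℤ) + 1 ≤ N := by exact_mod_cast h0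
    have h1' : (i1 : ℤ) + 1 ≤ N := by exact_mod_cast h1
    have h2' : (i2 : ℤ) + 1 ≤ N := by exact_mod_cast h2
    have hN' : (1 : ℤ) ≤ N := by exact_mod_cast hN
    have p0 : (0 : ℤ) ≤ i0 := by positivity
    have p1 : (0 : ℤ) ≤ i1 := by positivity
    have p2 : (0 : ℤ) ≤ i2 := by positivity
    have pR : (0 : ℤ) ≤ R := by positivity
    rcases lt_abs.mp hj with h | h
    · refine lt_abs.mpr (Or.inl ?_)
      nlinarith
    · refine lt_abs.mpr (Or.inr ?_)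
      nlinarith
  rw [this]; simp

theorem ee_eq_zero (κ : ℤ → ℝ) (R : ℕ) (hκ : ∀ s : ℤ, (R : ℤ) < |s| → κ s = 0) (m : ℕ) (l : ℤ)
    (hl : (R : ℤ) + 10 < |l|) : ee κ m l = 0 := by
  have h : ∀ k : ℤ, |k| ≤ 5 → cc κ (2 ^ m) (l + k) = 0 := by
    intro k hk
    apply cc_zero κ R hκ (by positivity)
    have := abs_sub_abs_le_abs_add l k
    linarith
  unfold ee
  have h0 := h 0 (by norm_num)
  have h1 := h 1 (by norm_num)
  have h2 := h 2 (by norm_num)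
  have h3 := h 3 (by norm_num)
  have h4 := h 4 (by norm_num)
  have h5 := h 5 (by norm_num)
  have m1 := h (-1) (by norm_num)
  have m2 := h (-2) (by norm_num)
  rw [add_zero] at h0
  rw [← sub_eq_add_neg] at m1 m2
  split
  · unfold eE; rw [h0, h1, h2, h3, h4, h5, m1, m2]; ring
  · unfold eO; rw [h0, h1, h2, h3, h4, m1]; ring

theorem Wn_lin {ι : Type*} (s : Finset ι) (c : ι → ℝ) (κ : ι → ℤ → ℝ) (N : ℕ) :
    Wn N (fun x => ∑ i ∈ s, c i * κ i x) = fun x => ∑ i ∈ s, c i * Wn N (κ i) x := by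
  funext x
  unfold Wn
  rw [sum_comm]
  refine sum_congr rfl fun i _ => ?_
  rw [mul_sum]

theorem cc_lin {ι : Type*} (s : Finset ι) (c : ι → ℝ) (κ : ι → ℤ → ℝ) (N : ℕ) (l : ℤ) :
    cc (fun x => ∑ i ∈ s, c i * κ i x) N l = ∑ i ∈ s, c i * cc (κ i) N l := by
  unfold cc
  simp only [aT_eq, Wn_lin]
  rw [mul_sum, mul_sum]
  refine sum_congr rfl fun i _ => ?_
  ring

theorem ee_lin {ι : Type*} (s : Finset ι) (c : ι → ℝ) (κ : ι → ℤ → ℝ) (m : ℕ) (l : ℤ) :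
    ee (fun x => ∑ i ∈ s, c i * κ i x) m l = ∑ i ∈ s, c i * ee (κ i) m l := by
  unfold ee
  split
  · unfold eE
    simp only [cc_lin, mul_sum, ← sum_add_distrib]
    refine sum_congr rfl fun i _ => ?_
    ring
  · unfold eO
    simp only [cc_lin, mul_sum, ← sum_add_distrib]
    refine sum_congr rfl fun i _ => ?_
    ring

/-! ### the step -/

theorem finsum_two_mul (f : ℤ → ℝ) (hf : f.support.Finite) :
    ∑ᶠ i, f i = ∑ᶠ i, (f (2 * i) + f (2 * i + 1)) := by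
  have h1 : ∑ᶠ i, f i = ∑ᶠ p : ℤ × Fin 2, f ((Int.divModEquiv 2).symm p) :=
    (finsum_comp_equiv (Int.divModEquiv 2).symm).symm
  rw [h1, finsum_curry]
  · refine finsum_congr fun i => ?_
    rw [finsum_eq_sum_of_fintype, Fin.sum_univ_two]
    congr 2
    · simp [Int.divModEquiv, mul_comm]
    · simp [Int.divModEquiv, mul_comm]
  · exact hf.preimage (f := (Int.divModEquiv 2).symm) (Equiv.injective _).injOn

theorem finsum_telescope (E : ℤ → ℝ) (hE : E.support.Finite) :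
    ∑ᶠ i, (E (i + 1) - E i) = 0 := by
  have h1 : (Function.support fun i => E (i + 1)).Finite :=
    hE.preimage (f := fun i : ℤ => i + 1) (add_left_injective 1).injOn
  rw [finsum_sub_distrib h1 hE]
  have : ∑ᶠ i, E (i + 1) = ∑ᶠ i, E i := finsum_comp_equiv (Equiv.addRight (1 : ℤ))
  rw [this, sub_self]

/-- bounded support predicate -/
def BS (L : ℤ) (f : ℤ → ℝ) : Prop := ∀ i, L < |i| → f i = 0

theorem BS.finite {L : ℤ} {f : ℤ → ℝ} (h : BS L f) : f.support.Finite := by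
  refine (Set.finite_Icc (-L) L).subset fun i hi => ?_
  by_contra hc
  apply hi
  apply h
  rw [Set.mem_Icc, ← abs_le, not_le] at hc
  exact hc

theorem BS.finsum {L : ℤ} {f : ℤ → ℝ} (h : BS L f) {Λ : ℕ} (hL : L ≤ Λ) :
    ∑ᶠ i, f i = ∑ i ∈ Icc (-(Λ : ℤ)) Λ, f i := by
  refine finsum_eq_sum_of_support_subset f fun i hi => ?_
  by_contra hc
  apply hi
  apply h
  rw [Finset.mem_coe, Finset.mem_Icc, ← abs_le, not_le] at hc
  linarith

theorem BS.comp_two {L : ℤ} {f : ℤ → ℝ} (h : BS L f) (hL : 0 ≤ L) (k : ℤ) :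
    BS (L + |k|) (fun i => f (2 * i + k)) := by
  intro i hi
  apply h
  have h1 := abs_sub_abs_le_abs_add (2 * i) k
  rw [abs_mul] at h1
  have : |(2 : ℤ)| = 2 := rfl
  rw [this] at h1
  have := abs_nonneg k
  linarith

theorem BS.comp_add {L : ℤ} {f : ℤ → ℝ} (h : BS L f) (k : ℤ) :
    BS (L + |k|) (fun i => f (i + k)) := by
  intro i hi
  apply h
  have h1 := abs_sub_abs_le_abs_add i k
  linarith

theorem BS.add {L M : ℤ} {f g : ℤ → ℝ} (h : BS L f) (h' : BS M g) :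
    BS (max L M) (fun i => f i + g i) := by
  intro i hi
  simp only
  rw [h i (lt_of_le_of_lt (le_max_left _ _) hi), h' i (lt_of_le_of_lt (le_max_right _ _) hi),
    add_zero]

theorem BS.mul_right {L : ℤ} {f : ℤ → ℝ} (h : BS L f) (g : ℤ → ℝ) :
    BS L (fun i => f i * g i) := by
  intro i hi
  simp only
  rw [h i hi, zero_mul]

theorem BS.mul_left {L : ℤ} {f : ℤ → ℝ} (h : BS L f) (g : ℤ → ℝ) :
    BS L (fun i => g i * f i) := by
  intro i hi
  simp only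
  rw [h i hi, mul_zero]

theorem BS.mono {L M : ℤ} {f : ℤ → ℝ} (h : BS L f) (hL : L ≤ M) : BS M f :=
  fun i hi => h i (lt_of_le_of_lt hL hi)

theorem BS.congr {L : ℤ} {f g : ℤ → ℝ} (h : BS L f) (hg : ∀ i, f i = g i) : BS L g :=
  fun i hi => by rw [← hg i]; exact h i hi

theorem BS_q {c : ℤ → ℝ} {L : ℤ} (hc : BS L c) (t : ℝ) :
    BS (L + 1) (fun i => c i - t * (c (i - 1) - 2 * c i + c (i + 1))) := by
  intro i hi
  have h0 : c i = 0 := hc i (by linarith)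
  have h1 : c (i + 1) = 0 := hc.comp_add 1 i (by simpa using hi)
  have h2 : c (i - 1) = 0 := by
    have := hc.comp_add (-1) i (by simpa using hi)
    simpa [sub_eq_add_neg] using this
  simp only
  rw [h0, h1, h2]; ring

theorem BS_c' {c c' : ℤ → ℝ} {L : ℤ} (hL : 0 ≤ L) (hc : BS L c)
    (hc' : ∀ i, c' i = (1 / 4) * (c (2 * i) + 3 * c (2 * i + 1) + 3 * c (2 * i + 2) +
      c (2 * i + 3))) : BS (L + 3) c' := by
  intro i hi
  have h0 : c (2 * i) = 0 := by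
    have := hc.comp_two hL 0 i (by simp; linarith)
    simpa using this
  have h1 : c (2 * i + 1) = 0 := hc.comp_two hL 1 i (by simp; linarith)
  have h2 : c (2 * i + 2) = 0 := hc.comp_two hL 2 i (by simp; linarith)
  have h3 : c (2 * i + 3) = 0 := hc.comp_two hL 3 i (by simp; linarith)
  rw [hc', h0, h1, h2, h3]; ring

theorem BS_e {c e : ℤ → ℝ} {L : ℤ} {t : ℝ} (hc : BS L c)
    (he : ∀ l, e l = if Even l then eE t c l else eO t c l) : BS (L + 5) e := by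
  intro l hl
  have h : ∀ k : ℤ, |k| ≤ 5 → c (l + k) = 0 := by
    intro k hk
    exact hc.comp_add k l (by linarith)
  have h0 := h 0 (by norm_num)
  have h1 := h 1 (by norm_num)
  have h2 := h 2 (by norm_num)
  have h3 := h 3 (by norm_num)
  have h4 := h 4 (by norm_num)
  have h5 := h 5 (by norm_num)
  have m1 := h (-1) (by norm_num)
  have m2 := h (-2) (by norm_num)
  rw [add_zero] at h0
  rw [← sub_eq_add_neg] at m1 m2
  rw [he]
  split
  · unfold eE; rw [h0, h1, h2, h3, h4, h5, m1, m2]; ring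
  · unfold eO; rw [h0, h1, h2, h3, h4, m1]; ring

theorem step_abs (c a c' a' e : ℤ → ℝ) (t t' : ℝ) (L : ℤ) (hL : 0 ≤ L)
    (hc : BS L c)
    (hc' : ∀ i, c' i = (1 / 4) * (c (2 * i) + 3 * c (2 * i + 1) + 3 * c (2 * i + 2) + c (2 * i + 3)))
    (ha' : ∀ i, a' i = (1 / 8) * (a (2 * i) + 3 * a (2 * i + 1) + 3 * a (2 * i + 2) + a (2 * i + 3)))
    (he : ∀ l, e l = if Even l then eE t c l else eO t c l)
    (ht : t' = (t + 3 / 4) / 4) :
    ∑ᶠ i, (c i - t * (c (i - 1) - 2 * c i + c (i + 1))) * a i -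
      ∑ᶠ i, (c' i - t' * (c' (i - 1) - 2 * c' i + c' (i + 1))) * a' i =
      ∑ᶠ l, e l * (a l - 3 * a (l + 1) + 3 * a (l + 2) - a (l + 3)) := by
  have even : ∀ i : ℤ, Even (2 * i) := fun i => even_two_mul i
  have odd : ∀ i : ℤ, ¬ Even (2 * i + 1) := fun i => by
    rw [Int.not_even_iff_odd]; exact odd_two_mul_add_one i
  have eev : ∀ i, e (2 * i) = eE t c (2 * i) := fun i => by rw [he, if_pos (even i)]
  have eod : ∀ i, e (2 * i + 1) = eO t c (2 * i + 1) := fun i => by rw [he, if_neg (odd i)]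
  -- the telescoping function
  set q : ℤ → ℝ := fun i => c i - t * (c (i - 1) - 2 * c i + c (i + 1)) with hq
  set q' : ℤ → ℝ := fun i => c' i - t' * (c' (i - 1) - 2 * c' i + c' (i + 1)) with hq'
  set E : ℤ → ℝ := fun i => -(q (2 * i) - q' i / 8 - e (2 * i)) * a (2 * i) -
    (q (2 * i + 1) - 3 * q' i / 8 + 3 * e (2 * i) - e (2 * i + 1)) * a (2 * i + 1) +
    e (2 * (i - 1) + 1) * a (2 * i + 2) with hE
  have key : ∀ i, (q (2 * i) * a (2 * i) + q (2 * i + 1) * a (2 * i + 1)) - q' i * a' i -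
      (e (2 * i) * (a (2 * i) - 3 * a (2 * i + 1) + 3 * a (2 * i + 2) - a (2 * i + 3)) +
       e (2 * i + 1) * (a (2 * i + 1) - 3 * a (2 * i + 1 + 1) + 3 * a (2 * i + 1 + 2) -
        a (2 * i + 1 + 3))) = E (i + 1) - E i := by
    intro i
    simp only [hE, hq, hq', eev, eod, hc', ha', eE, eO, ht]
    ring_nf
  have bq : BS (L + 1) q := BS_q hc t
  have bq' : BS (L + 3 + 1) q' := BS_q (BS_c' hL hc hc') t'
  have be : BS (L + 5) e := BS_e hc he
  have bE : BS (L + 20) E := by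
    intro i hi
    have h1 : q (2 * i) = 0 := by
      have := bq.comp_two (by linarith) 0 i (by simp; linarith)
      simpa using this
    have h2 : q (2 * i + 1) = 0 := bq.comp_two (by linarith) 1 i (by simp; linarith)
    have h3 : q' i = 0 := bq' i (by linarith)
    have h4 : e (2 * i) = 0 := by
      have := be.comp_two (by linarith) 0 i (by simp; linarith)
      simpa using this
    have h5 : e (2 * i + 1) = 0 := be.comp_two (by linarith) 1 i (by simp; linarith)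
    have h6 : e (2 * (i - 1) + 1) = 0 := by
      have e1 : 2 * (i - 1) + 1 = 2 * i + (-1) := by ring
      rw [e1]
      exact be.comp_two (by linarith) (-1) i (by simp; linarith)
    simp only [hE]
    rw [h1, h2, h3, h4, h5, h6]; ring
  have f1 : ∑ᶠ i, q i * a i = ∑ᶠ i, (q (2 * i) * a (2 * i) + q (2 * i + 1) * a (2 * i + 1)) :=
    finsum_two_mul (fun i => q i * a i) (bq.mul_right a).finite
  have f2 : ∑ᶠ l, e l * (a l - 3 * a (l + 1) + 3 * a (l + 2) - a (l + 3)) =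
      ∑ᶠ i, (e (2 * i) * (a (2 * i) - 3 * a (2 * i + 1) + 3 * a (2 * i + 2) - a (2 * i + 3)) +
       e (2 * i + 1) * (a (2 * i + 1) - 3 * a (2 * i + 1 + 1) + 3 * a (2 * i + 1 + 2) -
        a (2 * i + 1 + 3))) :=
    finsum_two_mul (fun l => e l * (a l - 3 * a (l + 1) + 3 * a (l + 2) - a (l + 3)))
      (be.mul_right _).finite
  have s1 : (Function.support fun i => q (2 * i) * a (2 * i) + q (2 * i + 1) * a (2 * i + 1)).Finite := by
    have h0 : BS (L + 1 + |0|) (fun i => q (2 * i)) :=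
      (bq.comp_two (by linarith) 0).congr (fun i => by simp)
    exact ((h0.mul_right _).add ((bq.comp_two (by linarith) 1).mul_right _)).finite
  have s2 : (Function.support fun i => q' i * a' i).Finite := (bq'.mul_right _).finite
  have s3 : (Function.support fun i => (e (2 * i) * (a (2 * i) - 3 * a (2 * i + 1) +
       3 * a (2 * i + 2) - a (2 * i + 3)) +
       e (2 * i + 1) * (a (2 * i + 1) - 3 * a (2 * i + 1 + 1) + 3 * a (2 * i + 1 + 2) -
        a (2 * i + 1 + 3)))).Finite := by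
    have h0 : BS (L + 5 + |0|) (fun i => e (2 * i)) :=
      (be.comp_two (by linarith) 0).congr (fun i => by simp)
    exact ((h0.mul_right _).add ((be.comp_two (by linarith) 1).mul_right _)).finite
  rw [f1, f2, ← sub_eq_zero, ← finsum_sub_distrib s1 s2, ← finsum_sub_distrib _ s3]
  · rw [← finsum_telescope E bE.finite]
    exact finsum_congr key
  · refine (s1.union s2).subset ?_
    exact Function.support_sub _ _

theorem theta_succ (m : ℕ) : theta (m + 1) = (theta m + 3 / 4) / 4 := by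
  unfold theta
  rw [pow_succ]
  field_simp
  ring

theorem BS_cc {κ : ℤ → ℝ} {R : ℕ} (hκ : ∀ s : ℤ, (R : ℤ) < |s| → κ s = 0) {N : ℕ} (hN : 0 < N) :
    BS ((R : ℤ) + 3) (cc κ N) := fun j hj => cc_zero κ R hκ hN j hj

theorem two_pow_succ_add (m : ℕ) : 2 ^ (m + 1) = 2 ^ m + 2 ^ m := by ring

/-- one step of the decomposition, for a kernel supported in `[-R, R]`, all sums over
`Icc (-Λ) Λ` with `Λ` large. -/
theorem step_decomp (κ : ℤ → ℝ) (R : ℕ) (hκ : ∀ s : ℤ, (R : ℤ) < |s| → κ s = 0) (T : ℤ → ℝ) (m : ℕ)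
    (Λ : ℕ) (hΛ : R + 10 ≤ Λ) :
    ∑ i ∈ Icc (-(Λ : ℤ)) Λ, qc κ m i * aT (2 ^ m) T i -
      ∑ i ∈ Icc (-(Λ : ℤ)) Λ, qc κ (m + 1) i * aT (2 ^ (m + 1)) T i =
      ∑ l ∈ Icc (-(Λ : ℤ)) Λ, ee κ m l * psiT (2 ^ m) T l := by
  have hΛ' : (R : ℤ) + 10 ≤ Λ := by exact_mod_cast hΛ
  have hp : 0 < 2 ^ m := by positivity
  have h := step_abs (cc κ (2 ^ m)) (aT (2 ^ m) T) (cc κ (2 ^ (m + 1))) (aT (2 ^ (m + 1)) T)
    (ee κ m) (theta m) (theta (m + 1)) (R + 3) (by positivity) (BS_cc hκ hp)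
    (fun i => by rw [two_pow_succ_add]; exact cc_double κ hp i)
    (fun i => by rw [two_pow_succ_add]; exact aT_double T hp i)
    (fun l => rfl) (theta_succ m)
  have b1 : BS ((R : ℤ) + 3 + 1) (fun i => qc κ m i * aT (2 ^ m) T i) :=
    (BS_q (BS_cc hκ hp) (theta m)).mul_right _
  have b2 : BS ((R : ℤ) + 3 + 1) (fun i => qc κ (m + 1) i * aT (2 ^ (m + 1)) T i) :=
    (BS_q (BS_cc hκ (by positivity)) (theta (m + 1))).mul_right _
  have b3 : BS ((R : ℤ) + 3 + 5) (fun l => ee κ m l * psiT (2 ^ m) T l) :=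
    (BS_e (BS_cc hκ hp) (fun l => rfl)).mul_right _
  rw [← b1.finsum (by linarith), ← b2.finsum (by linarith), ← b3.finsum (by linarith)]
  refine h.trans (finsum_congr fun l => ?_)
  rw [psiT_eq T hp]

/-- initial step -/
theorem init_decomp (κ : ℤ → ℝ) (R : ℕ) (hκ : ∀ s : ℤ, (R : ℤ) < |s| → κ s = 0) (T : ℤ → ℝ)
    (Λ : ℕ) (hΛ : R + 10 ≤ Λ) :
    ∑ i ∈ Icc (-(Λ : ℤ)) Λ, qc κ 0 i * aT (2 ^ 0) T i = ∑ s ∈ Icc (-(R : ℤ)) R, κ s * T s := by
  have hΛ' : (R : ℤ) + 10 ≤ Λ := by exact_mod_cast hΛ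
  have h : ∀ i, qc κ 0 i * aT (2 ^ 0) T i = κ i * T i := by
    intro i
    simp [qc, theta, cc, aT]
  simp only [h]
  have b : BS (R : ℤ) (fun i => κ i * T i) := fun i hi => by simp only; rw [hκ i hi, zero_mul]
  rw [← b.finsum (by linarith), ← b.finsum le_rfl]

/-! ### the remainder -/

theorem window_bound (Φ : ℤ → ℝ) (R : ℕ) (hΦ : BS R Φ) (N : ℕ) (y : ℤ) :
    |∑ i ∈ range N, Φ (y + i)| ≤ ∑ x ∈ Icc (-(R : ℤ)) R, |Φ x| := by
  refine (abs_sum_le_sum_abs _ _).trans ?_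
  have h1 : ∑ i ∈ range N, |Φ (y + i)| = ∑ x ∈ (range N).image (fun i : ℕ => y + (i : ℤ)), |Φ x| := by
    rw [sum_image]
    intro a _ b _ hab
    simpa using hab
  rw [h1]
  have h2 : ∑ x ∈ (range N).image (fun i : ℕ => y + (i : ℤ)), |Φ x| =
      ∑ x ∈ ((range N).image (fun i : ℕ => y + (i : ℤ))).filter (fun x => x ∈ Icc (-(R : ℤ)) R),
        |Φ x| := by
    rw [sum_filter_of_ne]
    intro x _ hx
    by_contra hc
    rw [Finset.mem_Icc, ← abs_le, not_le] at hc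
    rw [hΦ x hc] at hx
    simp at hx
  rw [h2]
  exact sum_le_sum_of_subset_of_nonneg (fun x hx => (mem_filter.mp hx).2)
    (fun x _ _ => abs_nonneg _)

theorem cc_bound (κ : ℤ → ℝ) (R : ℕ) (hκ : ∀ s : ℤ, (R : ℤ) < |s| → κ s = 0)
    (h0 : ∑ s ∈ Icc (-(R : ℤ)) R, κ s = 0) :
    ∃ K : ℝ, 0 ≤ K ∧ ∀ (N : ℕ) (i : ℤ), 0 < N → |cc κ N i| ≤ K / N := by
  set Φ : ℤ → ℝ := fun x => ∑ s ∈ Icc (-(R : ℤ)) R, if s < x then κ s else 0 with hΦ
  have hstep : ∀ x, Φ (x + 1) - Φ x = κ x := by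
    intro x
    simp only [hΦ]
    rw [← sum_sub_distrib]
    have : ∀ s ∈ Icc (-(R : ℤ)) R, ((if s < x + 1 then κ s else 0) - (if s < x then κ s else 0)) =
        if s = x then κ x else 0 := by
      intro s _
      rcases lt_trichotomy s x with h | h | h
      · rw [if_pos (by omega), if_pos h, if_neg (by omega), sub_self]
      · subst h; simp
      · rw [if_neg (by omega), if_neg (by omega), if_neg (by omega), sub_self]
    rw [sum_congr rfl this, sum_ite_eq']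
    split_ifs with hx
    · rfl
    · rw [Finset.mem_Icc, ← abs_le, not_le] at hx
      exact (hκ x hx).symm
  have hbs : BS R Φ := by
    intro x hx
    simp only [hΦ]
    rcases lt_abs.mp hx with h | h
    · rw [← h0]
      refine sum_congr rfl fun s hs => ?_
      rw [Finset.mem_Icc] at hs
      rw [if_pos (by omega)]
    · refine sum_eq_zero fun s hs => ?_
      rw [Finset.mem_Icc] at hs
      rw [if_neg (by omega)]
  have htel : ∀ (N : ℕ) (x : ℤ), ∑ i ∈ range N, κ (x + i) = Φ (x + N) - Φ x := by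
    intro N x
    induction N with
    | zero => simp
    | succ n ih =>
      rw [sum_range_succ, ih, ← hstep]
      push_cast
      have : x + ((n : ℤ) + 1) = x + n + 1 := by ring
      rw [this]; ring
  set K' := ∑ x ∈ Icc (-(R : ℤ)) R, |Φ x| with hK'
  have hK0 : 0 ≤ K' := sum_nonneg fun _ _ => abs_nonneg _
  refine ⟨2 * K', by positivity, fun N i hN => ?_⟩
  have hNr : (0 : ℝ) < N := by exact_mod_cast hN
  have hw : ∀ y : ℤ, |∑ i1 ∈ range N, ∑ i2 ∈ range N, κ (y + i1 + i2)| ≤ 2 * K' := by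
    intro y
    simp only [htel]
    rw [sum_sub_distrib]
    have e1 : ∑ x ∈ range N, Φ (y + ↑x + ↑N) = ∑ x ∈ range N, Φ ((y + N) + x) :=
      sum_congr rfl fun x _ => by congr 1; ring
    rw [e1]
    have b1 := window_bound Φ R hbs N (y + N)
    have b2 := window_bound Φ R hbs N y
    calc _ ≤ |∑ x ∈ range N, Φ ((y + N) + x)| + |∑ x ∈ range N, Φ (y + x)| := abs_sub _ _
      _ ≤ 2 * K' := by linarith
  have hs : |∑ i0 ∈ range N, ∑ i1 ∈ range N, ∑ i2 ∈ range N, κ (i * N + i0 + i1 + i2)| ≤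
      N * (2 * K') := by
    refine (abs_sum_le_sum_abs _ _).trans ?_
    calc ∑ i0 ∈ range N, |∑ i1 ∈ range N, ∑ i2 ∈ range N, κ (i * N + i0 + i1 + i2)|
        ≤ ∑ i0 ∈ range N, 2 * K' := sum_le_sum fun i0 _ => hw (i * N + i0)
      _ = N * (2 * K') := by simp
  unfold cc aT
  rw [abs_mul, abs_mul, abs_of_pos hNr, abs_of_pos (by positivity : (0 : ℝ) < 1 / (N : ℝ) ^ 3)]
  calc (N : ℝ) * (1 / (N : ℝ) ^ 3 * |∑ i0 ∈ range N, ∑ i1 ∈ range N, ∑ i2 ∈ range N,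
        κ (i * N + i0 + i1 + i2)|) ≤ (N : ℝ) * (1 / (N : ℝ) ^ 3 * (N * (2 * K'))) := by gcongr
    _ = 2 * K' / N := by field_simp

theorem theta_bd (m : ℕ) : |theta m| ≤ 1 := by
  unfold theta
  have h1 : (0 : ℝ) < 1 / 4 ^ m := by positivity
  have h2 : (1 : ℝ) / 4 ^ m ≤ 1 := by
    rw [div_le_one (by positivity)]
    exact one_le_pow₀ (by norm_num)
  rw [abs_le]
  constructor <;> linarith

theorem aT_bd (T : ℤ → ℝ) (B : ℝ) (hB : ∀ s, |T s| ≤ B) {N : ℕ} (hN : 0 < N) (i : ℤ) :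
    |aT N T i| ≤ B := by
  have hNr : (0 : ℝ) < N := by exact_mod_cast hN
  unfold aT
  rw [abs_mul, abs_of_pos (by positivity : (0 : ℝ) < 1 / (N : ℝ) ^ 3)]
  have : |∑ i0 ∈ range N, ∑ i1 ∈ range N, ∑ i2 ∈ range N, T (i * N + i0 + i1 + i2)| ≤
      N * (N * (N * B)) := by
    calc _ ≤ ∑ i0 ∈ range N, |∑ i1 ∈ range N, ∑ i2 ∈ range N, T (i * N + i0 + i1 + i2)| :=
          abs_sum_le_sum_abs _ _
      _ ≤ ∑ i0 ∈ range N, ∑ i1 ∈ range N, |∑ i2 ∈ range N, T (i * N + i0 + i1 + i2)| :=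
          sum_le_sum fun _ _ => abs_sum_le_sum_abs _ _
      _ ≤ ∑ i0 ∈ range N, ∑ i1 ∈ range N, ∑ i2 ∈ range N, |T (i * N + i0 + i1 + i2)| :=
          sum_le_sum fun _ _ => sum_le_sum fun _ _ => abs_sum_le_sum_abs _ _
      _ ≤ ∑ i0 ∈ range N, ∑ i1 ∈ range N, ∑ i2 ∈ range N, B :=
          sum_le_sum fun _ _ => sum_le_sum fun _ _ => sum_le_sum fun _ _ => hB _
      _ = N * (N * (N * B)) := by simp
  calc 1 / (N : ℝ) ^ 3 * |∑ i0 ∈ range N, ∑ i1 ∈ range N, ∑ i2 ∈ range N,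
        T (i * N + i0 + i1 + i2)| ≤ 1 / (N : ℝ) ^ 3 * (N * (N * (N * B))) := by gcongr
    _ = B := by field_simp

/-- remainder tends to zero for kernels of total sum zero and bounded `T` -/
theorem rem_tendsto (κ : ℤ → ℝ) (R : ℕ) (hκ : ∀ s : ℤ, (R : ℤ) < |s| → κ s = 0)
    (h0 : ∑ s ∈ Icc (-(R : ℤ)) R, κ s = 0) (T : ℤ → ℝ) (hT : ∃ B, ∀ s, |T s| ≤ B)
    (Λ : ℕ) (hΛ : R + 10 ≤ Λ) :
    Tendsto (fun m : ℕ => ∑ i ∈ Icc (-(Λ : ℤ)) Λ, qc κ m i * aT (2 ^ m) T i) atTop (𝓝 0) := by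
  obtain ⟨B, hB⟩ := hT
  obtain ⟨K, hK, hcc⟩ := cc_bound κ R hκ h0
  have hB0 : 0 ≤ B := (abs_nonneg _).trans (hB 0)
  have hlim : Tendsto (fun m : ℕ => (K / (2 : ℝ) ^ m)) atTop (𝓝 0) := by
    have := (tendsto_pow_atTop_nhds_zero_of_lt_one (r := (1 / 2 : ℝ)) (by norm_num)
      (by norm_num)).const_mul K
    simpa [div_eq_mul_inv] using this
  have hz : (0 : ℝ) = ∑ i ∈ Icc (-(Λ : ℤ)) Λ, (0 : ℝ) := by simp
  rw [hz]
  refine tendsto_finsetSum _ fun i _ => ?_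
  refine squeeze_zero_norm (a := fun m : ℕ => 5 * (K / (2 : ℝ) ^ m) * B) (fun m => ?_) ?_
  · rw [Real.norm_eq_abs, abs_mul]
    have hp : 0 < 2 ^ m := by positivity
    have c0 := hcc (2 ^ m) i hp
    have c1 := hcc (2 ^ m) (i - 1) hp
    have c2 := hcc (2 ^ m) (i + 1) hp
    push_cast at c0 c1 c2
    have hx : 0 ≤ K / (2 : ℝ) ^ m := by positivity
    have hq : |qc κ m i| ≤ 5 * (K / (2 : ℝ) ^ m) := by
      unfold qc
      have hin : |cc κ (2 ^ m) (i - 1) - 2 * cc κ (2 ^ m) i + cc κ (2 ^ m) (i + 1)| ≤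
          4 * (K / (2 : ℝ) ^ m) := by
        rw [abs_le] at *
        constructor <;> linarith [c0.1, c0.2, c1.1, c1.2, c2.1, c2.2]
      have hm : |theta m * (cc κ (2 ^ m) (i - 1) - 2 * cc κ (2 ^ m) i + cc κ (2 ^ m) (i + 1))| ≤
          4 * (K / (2 : ℝ) ^ m) := by
        rw [abs_mul]
        calc _ ≤ 1 * (4 * (K / (2 : ℝ) ^ m)) :=
              mul_le_mul (theta_bd m) hin (abs_nonneg _) zero_le_one
          _ = _ := one_mul _
      calc _ ≤ |cc κ (2 ^ m) i| + |theta m * (cc κ (2 ^ m) (i - 1) - 2 * cc κ (2 ^ m) i +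
            cc κ (2 ^ m) (i + 1))| := abs_sub _ _
        _ ≤ _ := by linarith
    exact mul_le_mul hq (aT_bd T B hB hp i) (abs_nonneg _) (by positivity)
  · have := (hlim.const_mul 5).mul_const B
    simpa using this

/-- full decomposition -/
theorem decomp (κ : ℤ → ℝ) (R : ℕ) (hκ : ∀ s : ℤ, (R : ℤ) < |s| → κ s = 0)
    (h0 : ∑ s ∈ Icc (-(R : ℤ)) R, κ s = 0) (T : ℤ → ℝ) (hT : ∃ B, ∀ s, |T s| ≤ B)
    (Λ : ℕ) (hΛ : R + 10 ≤ Λ) :
    Tendsto (fun M : ℕ => ∑ m ∈ range M, ∑ l ∈ Icc (-(Λ : ℤ)) Λ, ee κ m l * psiT (2 ^ m) T l)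
      atTop (𝓝 (∑ s ∈ Icc (-(R : ℤ)) R, κ s * T s)) := by
  have h : ∀ M : ℕ, ∑ m ∈ range M, ∑ l ∈ Icc (-(Λ : ℤ)) Λ, ee κ m l * psiT (2 ^ m) T l =
      ∑ s ∈ Icc (-(R : ℤ)) R, κ s * T s - ∑ i ∈ Icc (-(Λ : ℤ)) Λ, qc κ M i * aT (2 ^ M) T i := by
    intro M
    rw [← init_decomp κ R hκ T Λ hΛ]
    induction M with
    | zero => simp
    | succ n ih =>
      rw [sum_range_succ, ih, ← step_decomp κ R hκ T n Λ hΛ]
      ring
  simp only [h]
  have := (tendsto_const_nhds (x := ∑ s ∈ Icc (-(R : ℤ)) R, κ s * T s)).sub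
    (rem_tendsto κ R hκ h0 T hT Λ hΛ)
  simpa using this

end Crest.Agent.R072.Kernel
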