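import Crest.Agent.R072.Kernel

/-! R072: `ee_step_var` for `|l| < 20`. -/

set_option autoImplicit false

namespace Crest.Agent.R072.Kernel

open Finset Filter Topology Crest.Agent.R072

namespace Small

/-- telescoping -/
theorem sum_tele (F f : ℤ → ℝ) (S : ℤ) (N : ℕ) (h : ∀ a : ℕ, a < N → F (S + a + 1) - F (S + a) = f (S + a)) :
    ∑ a ∈ range N, f (S + a) = F (S + N) - F S := by
  induction N with
  | zero => simp
  | succ n ih =>
    rw [sum_range_succ, ih (fun a ha => h a (by omega)), ← h n (by omega)]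
    push_cast
    rw [show S + ((n : ℤ) + 1) = S + n + 1 by ring]
    ring

/-- parity split -/
theorem sum_two (f : ℕ → ℝ) (N : ℕ) :
    ∑ i ∈ range (2 * N), f i = ∑ a ∈ range N, (f (2 * a) + f (2 * a + 1)) := by
  induction N with
  | zero => simp
  | succ n ih =>
    rw [show 2 * (n + 1) = 2 * n + 1 + 1 by ring, sum_range_succ, sum_range_succ, ih, sum_range_succ]
    ring

/-- sum of a nonnegative function over a window of length `N`. -/
theorem sum_window_le (g : ℤ → ℝ) (hg : ∀ n, 0 ≤ g n) (S : ℤ) (N : ℕ) (L : ℤ) (h1 : -L ≤ S) (h2 : S + N ≤ L + 1) :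
    ∑ a ∈ range N, g (S + a) ≤ ∑ n ∈ Icc (-L) L, g n := by
  have hinj : Set.InjOn (fun a : ℕ => S + (a : ℤ)) (range N) := by
    intro a _ b _ hab
    simp only at hab
    omega
  rw [← sum_image (f := g) hinj]
  apply sum_le_sum_of_subset_of_nonneg
  · intro x hx
    rw [mem_image] at hx
    obtain ⟨a, ha, rfl⟩ := hx
    rw [mem_range] at ha
    rw [mem_Icc]
    constructor <;> omega
  · intro n _ _
    exact hg n

/-- the key estimate: a triple sum of a function with a small discrete antiderivative. -/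
theorem triple_le (F f : ℤ → ℝ) (S : ℤ) (N : ℕ) (L : ℤ) (h1 : -L ≤ S) (h2 : S + 3 * N ≤ L)
    (h : ∀ n : ℤ, -L ≤ n → n ≤ L → F (n + 1) - F n = f n) (B : ℝ)
    (hB : ∑ n ∈ Icc (-L) L, |F n| ≤ B) :
    |∑ i0 ∈ range N, ∑ i1 ∈ range N, ∑ i2 ∈ range N, f (S + i0 + i1 + i2)| ≤ 2 * N * B := by
  have key : ∀ i0 ∈ range N, |∑ i1 ∈ range N, ∑ i2 ∈ range N, f (S + i0 + i1 + i2)| ≤ 2 * B := by
    intro i0 hi0
    rw [mem_range] at hi0
    have e1 : ∀ i1 ∈ range N, ∑ i2 ∈ range N, f (S + i0 + i1 + i2) =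
        F (S + i0 + N + i1) - F (S + i0 + i1) := by
      intro i1 hi1
      rw [mem_range] at hi1
      rw [sum_tele F f (S + i0 + i1) N (fun a ha => h _ (by omega) (by omega))]
      rw [show S + (i0 : ℤ) + i1 + N = S + i0 + N + i1 by ring]
    rw [sum_congr rfl e1, sum_sub_distrib]
    have b1 : |∑ i1 ∈ range N, F (S + i0 + N + i1)| ≤ B := by
      refine (abs_sum_le_sum_abs _ _).trans ?_
      refine le_trans ?_ hB
      exact sum_window_le (fun n => |F n|) (fun n => abs_nonneg _) (S + i0 + N) N L (by omega) (by omega)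
    have b2 : |∑ i1 ∈ range N, F (S + i0 + i1)| ≤ B := by
      refine (abs_sum_le_sum_abs _ _).trans ?_
      refine le_trans ?_ hB
      exact sum_window_le (fun n => |F n|) (fun n => abs_nonneg _) (S + i0) N L (by omega) (by omega)
    calc |∑ i1 ∈ range N, F (S + i0 + N + i1) - ∑ i1 ∈ range N, F (S + i0 + i1)|
        ≤ |∑ i1 ∈ range N, F (S + i0 + N + i1)| + |∑ i1 ∈ range N, F (S + i0 + i1)| := abs_sub _ _
      _ ≤ 2 * B := by linarith
  refine (abs_sum_le_sum_abs _ _).trans ?_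
  refine (sum_le_sum key).trans ?_
  rw [sum_const, card_range, nsmul_eq_mul]
  linarith


/-! ### small `r`: `|cc (stepK r) N i| ≤ 4 r / N` -/

/-- discrete antiderivative of `stepK r` -/
noncomputable def KK (r : ℕ) (n : ℤ) : ℝ := - ∑ t ∈ Ico (max n (1 - n)).toNat (r + 1), 1 / (t : ℝ)

theorem KK_step (r : ℕ) (n : ℤ) : KK r (n + 1) - KK r n = stepK r n := by
  unfold KK stepK
  rcases lt_trichotomy n 0 with h | h | h
  · -- n < 0
    obtain ⟨t, rfl⟩ : ∃ t : ℕ, n = -(t : ℤ) := ⟨n.natAbs, by omega⟩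
    have ht : 1 ≤ t := by omega
    have e1 : (max (-(t : ℤ) + 1) (1 - (-(t : ℤ) + 1))).toNat = t := by omega
    have e2 : (max (-(t : ℤ)) (1 - (-(t : ℤ)))).toNat = t + 1 := by omega
    rw [e1, e2]
    by_cases hr : t ≤ r
    · rw [sum_eq_sum_Ico_succ_bot (by omega : t < r + 1)]
      rw [if_pos ⟨by omega, by rw [abs_neg, Nat.abs_cast]; omega⟩]
      push_cast
      have : (t : ℝ) ≠ 0 := by positivity
      field_simp
      ring
    · rw [Ico_eq_empty (by omega), Ico_eq_empty (by omega), if_neg]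
      · simp
      · rw [abs_neg, Nat.abs_cast]; omega
  · subst h
    simp
  · obtain ⟨t, rfl⟩ : ∃ t : ℕ, n = (t : ℤ) := ⟨n.natAbs, by omega⟩
    have ht : 1 ≤ t := by omega
    have e1 : (max ((t : ℤ) + 1) (1 - ((t : ℤ) + 1))).toNat = t + 1 := by omega
    have e2 : (max ((t : ℤ)) (1 - ((t : ℤ)))).toNat = t := by omega
    rw [e1, e2]
    by_cases hr : t ≤ r
    · rw [sum_eq_sum_Ico_succ_bot (by omega : t < r + 1)]
      rw [if_pos ⟨by omega, by rw [Nat.abs_cast]; omega⟩]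
      push_cast
      ring
    · rw [Ico_eq_empty (by omega), Ico_eq_empty (by omega), if_neg]
      · simp
      · rw [Nat.abs_cast]; omega

theorem abs_KK (r : ℕ) (n : ℤ) :
    |KK r n| = ∑ t ∈ Ico (max n (1 - n)).toNat (r + 1), 1 / (t : ℝ) := by
  unfold KK
  rw [abs_neg, abs_of_nonneg]
  exact sum_nonneg (fun t _ => by positivity)

theorem sum_KK_le (r : ℕ) (L : ℤ) : ∑ n ∈ Icc (-L) L, |KK r n| ≤ 2 * r := by
  have e : ∀ n ∈ Icc (-L) L, |KK r n| =
      ∑ t ∈ Ico 1 (r + 1), if (max n (1 - n)).toNat ≤ t then 1 / (t : ℝ) else 0 := by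
    intro n _
    rw [abs_KK, ← sum_filter]
    apply sum_congr _ (fun _ _ => rfl)
    ext t
    simp only [mem_Ico, mem_filter]
    constructor
    · rintro ⟨h1, h2⟩
      refine ⟨⟨by omega, h2⟩, h1⟩
    · rintro ⟨⟨h1, h2⟩, h3⟩
      exact ⟨h3, h2⟩
  rw [sum_congr rfl e, sum_comm]
  have b : ∀ t ∈ Ico 1 (r + 1),
      ∑ n ∈ Icc (-L) L, (if (max n (1 - n)).toNat ≤ t then 1 / (t : ℝ) else 0) ≤ 2 := by
    intro t ht
    rw [mem_Ico] at ht
    rw [← sum_filter, sum_const, nsmul_eq_mul]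
    have hc : ((Icc (-L) L).filter (fun n => (max n (1 - n)).toNat ≤ t)).card ≤ 2 * t := by
      have hs : (Icc (-L) L).filter (fun n => (max n (1 - n)).toNat ≤ t) ⊆ Icc (1 - (t : ℤ)) t := by
        intro n hn
        simp only [mem_filter, mem_Icc] at hn ⊢
        omega
      refine (card_le_card hs).trans ?_
      rw [Int.card_Icc]
      omega
    have ht' : (0 : ℝ) < t := by exact_mod_cast (by omega : 0 < t)
    have hc' : (((Icc (-L) L).filter (fun n => (max n (1 - n)).toNat ≤ t)).card : ℝ) ≤ 2 * t := by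
      exact_mod_cast hc
    calc _ ≤ (2 * (t : ℝ)) * (1 / t) := by gcongr
      _ = 2 := by field_simp
  refine (sum_le_sum b).trans ?_
  rw [sum_const, Nat.card_Ico, nsmul_eq_mul]
  simp
  linarith

theorem cc_small (r N : ℕ) (hN : 0 < N) (i : ℤ) : |cc (stepK r) N i| ≤ 4 * r / N := by
  have h := triple_le (KK r) (stepK r) (i * N) N (|i| * N + 3 * N)
    (by
      have : -|i| ≤ i := neg_abs_le i
      have hN' : (0 : ℤ) ≤ N := by omega
      nlinarith)
    (by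
      have : i ≤ |i| := le_abs_self i
      have hN' : (0 : ℤ) ≤ N := by omega
      nlinarith)
    (fun n _ _ => KK_step r n) (2 * r) (sum_KK_le r _)
  unfold cc aT
  have hN' : (0 : ℝ) < N := by exact_mod_cast hN
  rw [abs_mul, abs_mul, abs_of_pos hN', abs_of_pos (by positivity : (0 : ℝ) < 1 / (N : ℝ) ^ 3)]
  calc (N : ℝ) * (1 / (N : ℝ) ^ 3 * |∑ i0 ∈ range N, ∑ i1 ∈ range N, ∑ i2 ∈ range N,
        stepK r (i * N + i0 + i1 + i2)|) ≤ N * (1 / (N : ℝ) ^ 3 * (2 * N * (2 * r))) := by gcongr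
    _ = 4 * (r : ℝ) / N := by field_simp; ring


/-! ### large `r` -/

/-- `hh M t = ∑_{t ≤ j < M} 1/(2j(2j+1))` -/
noncomputable def hh (M t : ℕ) : ℝ := ∑ j ∈ Ico t M, 1 / (2 * (j : ℝ) * (2 * j + 1))

theorem hh_succ {M t : ℕ} (h : t < M) : hh M t = 1 / (2 * (t : ℝ) * (2 * t + 1)) + hh M (t + 1) := by
  unfold hh
  rw [sum_eq_sum_Ico_succ_bot h]

theorem hh_nonneg (M t : ℕ) : 0 ≤ hh M t := sum_nonneg (fun j _ => by positivity)

theorem hh_le (M t : ℕ) (ht : 1 ≤ t) : hh M t ≤ 1 / (2 * t) := by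
  rcases le_or_gt M t with h | h
  · unfold hh
    rw [Ico_eq_empty (by omega)]
    simp
  · have key : ∀ k : ℕ, hh (t + k) t ≤ 1 / (2 * t) - 1 / (2 * (t + k : ℕ)) := by
      intro k
      induction k with
      | zero => simp [hh]
      | succ k ih =>
        unfold hh at ih ⊢
        rw [← add_assoc, sum_Ico_succ_top (by omega)]
        have h1 : (1 : ℝ) ≤ t := by exact_mod_cast ht
        have hk : (0 : ℝ) ≤ k := by positivity
        have : 1 / (2 * ((t + k : ℕ) : ℝ) * (2 * (t + k : ℕ) + 1)) ≤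
            1 / (2 * ((t + k : ℕ) : ℝ)) - 1 / (2 * ((t + k + 1 : ℕ) : ℝ)) := by
          push_cast
          rw [div_sub_div _ _ (by positivity) (by positivity), div_le_div_iff₀ (by positivity) (by positivity)]
          nlinarith [mul_nonneg hk hk, mul_nonneg hk (by linarith : (0:ℝ) ≤ t)]
        linarith
    obtain ⟨k, rfl⟩ := Nat.exists_eq_add_of_lt h
    have := key (k + 1)
    rw [← add_assoc] at this
    refine this.trans ?_
    have : (0 : ℝ) ≤ 1 / (2 * ((t + k + 1 : ℕ) : ℝ)) := by positivity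
    linarith

noncomputable def AA (M : ℕ) (n : ℤ) : ℝ :=
  if 1 ≤ n then hh M n.toNat else hh M (1 - n).toNat - 1 / (1 - 2 * (n : ℝ))

theorem AA_step (M : ℕ) (n : ℤ) (hn : |n| < M) :
    AA M (n + 1) - AA M n = (2 * (n : ℝ) + 1)⁻¹ - (1 / 2) * (n : ℝ)⁻¹ := by
  rcases lt_trichotomy n 0 with h | h | h
  · obtain ⟨t, rfl⟩ : ∃ t : ℕ, n = -(t : ℤ) := ⟨n.natAbs, by omega⟩
    have ht : 1 ≤ t := by omega
    rw [abs_neg, Nat.abs_cast] at hn
    unfold AA
    rw [if_neg (by omega), if_neg (by omega)]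
    rw [show (1 - (-(t : ℤ) + 1)).toNat = t by omega, show (1 - (-(t : ℤ))).toNat = t + 1 by omega]
    rw [hh_succ (by omega : t < M)]
    have h1 : (1 : ℝ) ≤ t := by exact_mod_cast ht
    push_cast
    have e1 : (1 - 2 * (-(t : ℝ) + 1)) ≠ 0 := by
      have : (0 : ℝ) < 1 - 2 * (-(t : ℝ) + 1) := by linarith
      exact this.ne'
    have e2 : (2 * -(t : ℝ) + 1) ≠ 0 := by
      have : (2 * -(t : ℝ) + 1) < 0 := by linarith
      exact this.ne
    have e3 : (1 - 2 * -(t : ℝ)) ≠ 0 := by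
      have : (0 : ℝ) < 1 - 2 * -(t : ℝ) := by linarith
      exact this.ne'
    have e4 : (2 * (t : ℝ) + 1) ≠ 0 := by positivity
    have e5 : (t : ℝ) ≠ 0 := by positivity
    have e6 : (-(t : ℝ)) ≠ 0 := by simpa using e5
    have e7 : (2 * (t : ℝ) - 1) ≠ 0 := by
      have : (0 : ℝ) < 2 * (t : ℝ) - 1 := by linarith
      exact this.ne'
    rw [show (1 - 2 * (-(t : ℝ) + 1)) = 2 * t - 1 by ring, show (2 * -(t : ℝ) + 1) = -(2 * t - 1) by ring,
      show (1 - 2 * -(t : ℝ)) = 2 * t + 1 by ring]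
    rw [inv_neg, inv_neg]
    field_simp
    ring
  · subst h
    simp [AA]
  · obtain ⟨t, rfl⟩ : ∃ t : ℕ, n = (t : ℤ) := ⟨n.natAbs, by omega⟩
    have ht : 1 ≤ t := by omega
    rw [Nat.abs_cast] at hn
    unfold AA
    rw [if_pos (by omega), if_pos (by omega)]
    rw [show ((t : ℤ) + 1).toNat = t + 1 by omega, show ((t : ℤ)).toNat = t by omega]
    rw [hh_succ (by omega : t < M)]
    have h1 : (1 : ℝ) ≤ t := by exact_mod_cast ht
    push_cast
    have e5 : (t : ℝ) ≠ 0 := by positivity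
    have e4 : (2 * (t : ℝ) + 1) ≠ 0 := by positivity
    field_simp
    ring

/-- refinement defect for the infinite kernel -/
noncomputable def DD (n : ℤ) : ℝ :=
  (1 / 4) * ((2 * (n : ℝ))⁻¹ + 3 * (2 * (n : ℝ) + 1)⁻¹ + 3 * (2 * (n : ℝ) + 2)⁻¹ + (2 * (n : ℝ) + 3)⁻¹) -
    (n : ℝ)⁻¹

noncomputable def GG (M : ℕ) (n : ℤ) : ℝ := AA M n + (1 / 4) * (2 * (n : ℝ) + 1)⁻¹ + (3 / 8) * (n : ℝ)⁻¹

theorem GG_step (M : ℕ) (n : ℤ) (hn : |n| < M) : GG M (n + 1) - GG M n = DD n := by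
  have h := AA_step M n hn
  unfold GG DD
  have e1 : (2 * (n : ℝ))⁻¹ = (1 / 2) * (n : ℝ)⁻¹ := by rw [mul_inv]; norm_num
  have e2 : (2 * (n : ℝ) + 2)⁻¹ = (1 / 2) * ((n : ℝ) + 1)⁻¹ := by
    rw [show 2 * (n : ℝ) + 2 = 2 * (n + 1) by ring, mul_inv]; norm_num
  rw [e1, e2]
  push_cast
  rw [show 2 * ((n : ℝ) + 1) + 1 = 2 * n + 3 by ring]
  linear_combination h

theorem GG_le (M : ℕ) (n : ℤ) : |GG M n| ≤ 3 / (1 + |(n : ℝ)|) := by
  unfold GG
  rcases lt_trichotomy n 0 with h | h | h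
  · obtain ⟨t, rfl⟩ : ∃ t : ℕ, n = -(t : ℤ) := ⟨n.natAbs, by omega⟩
    have ht : 1 ≤ t := by omega
    have h1 : (1 : ℝ) ≤ t := by exact_mod_cast ht
    unfold AA
    rw [if_neg (by omega), show (1 - (-(t : ℤ))).toNat = t + 1 by omega]
    push_cast
    rw [abs_neg, Nat.abs_cast]
    have b1 := hh_le M (t + 1) (by omega)
    have b1' := hh_nonneg M (t + 1)
    push_cast at b1
    have e1 : 1 / (2 * ((t : ℝ) + 1)) = (1 / 2) * (1 / (1 + t)) := by field_simp; ring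
    have e2 : 1 / (1 - 2 * -(t : ℝ)) ≤ 1 / (1 + t) := by
      apply one_div_le_one_div_of_le (by positivity); linarith
    have e2' : 0 ≤ 1 / (1 - 2 * -(t : ℝ)) := by
      apply div_nonneg (by norm_num); linarith
    have e3 : |(2 * -(t : ℝ) + 1)⁻¹| ≤ 2 * (1 / (1 + t)) := by
      rw [show (2 * -(t : ℝ) + 1) = -(2 * t - 1) by ring, inv_neg, abs_neg, abs_inv,
        abs_of_pos (by linarith : (0 : ℝ) < 2 * t - 1)]
      rw [inv_eq_one_div, mul_one_div, div_le_div_iff₀ (by linarith) (by positivity)]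
      linarith
    have e4 : |(-(t : ℝ))⁻¹| ≤ 2 * (1 / (1 + t)) := by
      rw [inv_neg, abs_neg, abs_inv, Nat.abs_cast, inv_eq_one_div, mul_one_div,
        div_le_div_iff₀ (by linarith) (by positivity)]
      linarith
    have e5 : 0 ≤ 1 / (1 + (t : ℝ)) := by positivity
    rw [show 3 / (1 + (t : ℝ)) = 3 * (1 / (1 + t)) by ring]
    rw [e1] at b1
    rw [abs_le] at e3 e4 ⊢
    constructor <;> nlinarith [e3.1, e3.2, e4.1, e4.2]
  · subst h
    have b1 := hh_le M 1 le_rfl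
    have b1' := hh_nonneg M 1
    simp only [AA]
    norm_num
    norm_num at b1
    rw [abs_le]
    constructor <;> linarith
  · obtain ⟨t, rfl⟩ : ∃ t : ℕ, n = (t : ℤ) := ⟨n.natAbs, by omega⟩
    have ht : 1 ≤ t := by omega
    have h1 : (1 : ℝ) ≤ t := by exact_mod_cast ht
    unfold AA
    rw [if_pos (by omega), show ((t : ℤ)).toNat = t by omega]
    push_cast
    rw [Nat.abs_cast]
    have b1 := hh_le M t (by omega)
    have b1' := hh_nonneg M t
    have e1 : 1 / (2 * (t : ℝ)) ≤ 1 / (1 + t) := by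
      apply one_div_le_one_div_of_le (by positivity); linarith
    have e3 : (2 * (t : ℝ) + 1)⁻¹ ≤ 1 / (1 + t) := by
      rw [inv_eq_one_div]; apply one_div_le_one_div_of_le (by positivity); linarith
    have e3' : 0 ≤ (2 * (t : ℝ) + 1)⁻¹ := by positivity
    have e4 : (t : ℝ)⁻¹ ≤ 2 * (1 / (1 + t)) := by
      rw [inv_eq_one_div, mul_one_div, div_le_div_iff₀ (by linarith) (by positivity)]
      linarith
    have e4' : 0 ≤ (t : ℝ)⁻¹ := by positivity
    rw [show 3 / (1 + (t : ℝ)) = 3 * (1 / (1 + t)) by ring]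
    rw [abs_le]
    constructor <;> linarith

theorem sum_inv_le (L : ℕ) :
    ∑ n ∈ Icc (-(L : ℤ)) L, 1 / (1 + |(n : ℝ)|) ≤ 2 * ((harmonic (L + 1) : ℚ) : ℝ) := by
  induction L with
  | zero => simp [harmonic]
  | succ L ih =>
    have e : Icc (-((L + 1 : ℕ) : ℤ)) ((L + 1 : ℕ) : ℤ) =
        insert ((L + 1 : ℕ) : ℤ) (insert (-((L + 1 : ℕ) : ℤ)) (Icc (-(L : ℤ)) L)) := by
      ext n
      simp only [mem_Icc, mem_insert]
      push_cast
      omega
    rw [e, sum_insert (by simp only [mem_Icc, mem_insert]; push_cast; omega),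
      sum_insert (by simp only [mem_Icc]; push_cast; omega), harmonic_succ]
    push_cast
    have h1 : |(L : ℝ) + 1| = L + 1 := abs_of_pos (by positivity)
    rw [abs_neg, h1]
    have : 1 / (1 + ((L : ℝ) + 1)) = ((L : ℝ) + 1 + 1)⁻¹ := by rw [inv_eq_one_div]; ring_nf
    rw [this]
    linarith


noncomputable def PP (κ : ℤ → ℝ) (S : ℤ) : ℝ :=
  κ (2 * S) + 3 * κ (2 * S + 1) + 3 * κ (2 * S + 2) + κ (2 * S + 3)

theorem cc_two (κ : ℤ → ℝ) (N : ℕ) (hN : 0 < N) (i : ℤ) :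
    cc κ (2 * N) i = (1 / (4 * (N : ℝ) ^ 2)) *
      ∑ a0 ∈ range N, ∑ a1 ∈ range N, ∑ a2 ∈ range N, PP κ (i * N + a0 + a1 + a2) := by
  unfold cc aT
  simp only [sum_two]
  simp only [← sum_add_distrib]
  have hP : ∀ a0 a1 a2 : ℕ,
      κ (i * ((2 * N : ℕ) : ℤ) + ((2 * a0 : ℕ) : ℤ) + ((2 * a1 : ℕ) : ℤ) + ((2 * a2 : ℕ) : ℤ)) +
        κ (i * ((2 * N : ℕ) : ℤ) + ((2 * a0 : ℕ) : ℤ) + ((2 * a1 : ℕ) : ℤ) + ((2 * a2 + 1 : ℕ) : ℤ)) +
      (κ (i * ((2 * N : ℕ) : ℤ) + ((2 * a0 : ℕ) : ℤ) + ((2 * a1 + 1 : ℕ) : ℤ) + ((2 * a2 : ℕ) : ℤ)) +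
        κ (i * ((2 * N : ℕ) : ℤ) + ((2 * a0 : ℕ) : ℤ) + ((2 * a1 + 1 : ℕ) : ℤ) + ((2 * a2 + 1 : ℕ) : ℤ))) +
      (κ (i * ((2 * N : ℕ) : ℤ) + ((2 * a0 + 1 : ℕ) : ℤ) + ((2 * a1 : ℕ) : ℤ) + ((2 * a2 : ℕ) : ℤ)) +
        κ (i * ((2 * N : ℕ) : ℤ) + ((2 * a0 + 1 : ℕ) : ℤ) + ((2 * a1 : ℕ) : ℤ) + ((2 * a2 + 1 : ℕ) : ℤ)) +
      (κ (i * ((2 * N : ℕ) : ℤ) + ((2 * a0 + 1 : ℕ) : ℤ) + ((2 * a1 + 1 : ℕ) : ℤ) + ((2 * a2 : ℕ) : ℤ)) +
        κ (i * ((2 * N : ℕ) : ℤ) + ((2 * a0 + 1 : ℕ) : ℤ) + ((2 * a1 + 1 : ℕ) : ℤ) + ((2 * a2 + 1 : ℕ) : ℤ)))) =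
      PP κ (i * N + a0 + a1 + a2) := by
    intro a0 a1 a2
    unfold PP
    push_cast
    rw [show i * (2 * (N : ℤ)) + 2 * a0 + 2 * a1 + 2 * a2 = 2 * (i * N + a0 + a1 + a2) by ring,
      show i * (2 * (N : ℤ)) + 2 * a0 + 2 * a1 + (2 * a2 + 1) = 2 * (i * N + a0 + a1 + a2) + 1 by ring,
      show i * (2 * (N : ℤ)) + 2 * a0 + (2 * a1 + 1) + 2 * a2 = 2 * (i * N + a0 + a1 + a2) + 1 by ring,
      show i * (2 * (N : ℤ)) + 2 * a0 + (2 * a1 + 1) + (2 * a2 + 1) = 2 * (i * N + a0 + a1 + a2) + 2 by ring,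
      show i * (2 * (N : ℤ)) + (2 * a0 + 1) + 2 * a1 + 2 * a2 = 2 * (i * N + a0 + a1 + a2) + 1 by ring,
      show i * (2 * (N : ℤ)) + (2 * a0 + 1) + 2 * a1 + (2 * a2 + 1) = 2 * (i * N + a0 + a1 + a2) + 2 by ring,
      show i * (2 * (N : ℤ)) + (2 * a0 + 1) + (2 * a1 + 1) + 2 * a2 = 2 * (i * N + a0 + a1 + a2) + 2 by ring,
      show i * (2 * (N : ℤ)) + (2 * a0 + 1) + (2 * a1 + 1) + (2 * a2 + 1) = 2 * (i * N + a0 + a1 + a2) + 3 by ring]
    ring
  simp only [hP]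
  have hN' : (N : ℝ) ≠ 0 := by positivity
  push_cast
  field_simp
  ring

theorem stepK_eq {r : ℕ} {s : ℤ} (h : |s| ≤ r) : stepK r s = (s : ℝ)⁻¹ := by
  unfold stepK
  by_cases h0 : s = 0
  · subst h0; simp
  · rw [if_pos ⟨h0, h⟩, one_div]

theorem abs_stepK_le (r : ℕ) (s : ℤ) : |stepK r s| ≤ 1 := by
  unfold stepK
  split_ifs with h
  · rw [abs_div, abs_one, ← Int.cast_abs]
    have : (1 : ℝ) ≤ ((|s| : ℤ) : ℝ) := by
      have : 1 ≤ |s| := Int.one_le_abs h.1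
      exact_mod_cast this
    rw [div_le_one (by linarith)]
    exact this
  · simp

theorem abs_cc_le (r N : ℕ) (hN : 0 < N) (i : ℤ) : |cc (stepK r) N i| ≤ N := by
  unfold cc aT
  have hN' : (0 : ℝ) < N := by exact_mod_cast hN
  rw [abs_mul, abs_mul, abs_of_pos hN', abs_of_pos (by positivity : (0 : ℝ) < 1 / (N : ℝ) ^ 3)]
  have h : |∑ i0 ∈ range N, ∑ i1 ∈ range N, ∑ i2 ∈ range N, stepK r (i * N + i0 + i1 + i2)| ≤
      (N : ℝ) ^ 3 := by
    refine (abs_sum_le_sum_abs _ _).trans ?_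
    have : ∀ i0 ∈ range N, |∑ i1 ∈ range N, ∑ i2 ∈ range N, stepK r (i * N + i0 + i1 + i2)| ≤ (N : ℝ) ^ 2 := by
      intro i0 _
      refine (abs_sum_le_sum_abs _ _).trans ?_
      have : ∀ i1 ∈ range N, |∑ i2 ∈ range N, stepK r (i * N + i0 + i1 + i2)| ≤ (N : ℝ) := by
        intro i1 _
        refine (abs_sum_le_sum_abs _ _).trans ?_
        refine (sum_le_sum (fun i2 _ => abs_stepK_le r _)).trans ?_
        simp
      refine (sum_le_sum this).trans ?_
      simp [pow_two]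
    refine (sum_le_sum this).trans ?_
    simp
    nlinarith
  calc (N : ℝ) * (1 / (N : ℝ) ^ 3 * |∑ i0 ∈ range N, ∑ i1 ∈ range N, ∑ i2 ∈ range N,
        stepK r (i * N + i0 + i1 + i2)|) ≤ N * (1 / (N : ℝ) ^ 3 * (N : ℝ) ^ 3) := by gcongr
    _ = (N : ℝ) := by field_simp

theorem cc_diff (r m : ℕ) (hr : 64 * 2 ^ m ≤ r) (i : ℤ) (hi : |i| ≤ 24) :
    |cc (stepK r) (2 ^ (m + 1)) i - cc (stepK r) (2 ^ m) i| ≤ 60 * (m + 1) / 2 ^ m := by
  set N : ℕ := 2 ^ m with hNdef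
  have hN : 0 < N := by positivity
  have hN1 : (1 : ℤ) ≤ N := by exact_mod_cast hN
  have hN' : (0 : ℝ) < N := by exact_mod_cast hN
  rw [show 2 ^ (m + 1) = 2 * N by rw [pow_succ, mul_comm]]
  have hr' : (64 : ℤ) * N ≤ r := by exact_mod_cast hr
  have hB : ∑ n ∈ Icc (-(27 * N : ℤ)) (27 * N), |GG (28 * N) n| ≤ 30 * (m + 1) := by
    have h1 : ∑ n ∈ Icc (-(27 * N : ℤ)) (27 * N), |GG (28 * N) n| ≤
        ∑ n ∈ Icc (-((27 * N : ℕ) : ℤ)) ((27 * N : ℕ) : ℤ), 3 * (1 / (1 + |(n : ℝ)|)) := by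
      push_cast
      refine sum_le_sum (fun n _ => ?_)
      have := GG_le (28 * N) n
      rw [mul_one_div]
      exact this
    refine h1.trans ?_
    rw [← mul_sum]
    have h2 := sum_inv_le (27 * N)
    have h3 := harmonic_le_one_add_log (27 * N + 1)
    have h4 : Real.log ((27 * N + 1 : ℕ) : ℝ) ≤ 4 + m := by
      have a1 : ((27 * N + 1 : ℕ) : ℝ) ≤ 28 * 2 ^ m := by
        rw [hNdef]
        push_cast
        have : (1 : ℝ) ≤ 2 ^ m := one_le_pow₀ (by norm_num)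
        linarith
      have a2 : Real.log ((27 * N + 1 : ℕ) : ℝ) ≤ Real.log (28 * 2 ^ m) :=
        Real.log_le_log (by positivity) a1
      rw [Real.log_mul (by norm_num) (by positivity), Real.log_pow] at a2
      have a3 : Real.log 2 ≤ 1 := by
        have := Real.log_two_lt_d9
        linarith
      have a4 : Real.log 28 ≤ 4 := by
        rw [Real.log_le_iff_le_exp (by norm_num)]
        have e1 : (2.7 : ℝ) ≤ Real.exp 1 := by
          have := Real.exp_one_gt_d9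
          linarith
        calc (28 : ℝ) ≤ 2.7 ^ 4 := by norm_num
          _ ≤ (Real.exp 1) ^ 4 := by gcongr
          _ = Real.exp 4 := by rw [← Real.exp_nat_mul]; norm_num
      have a5 : (m : ℝ) * Real.log 2 ≤ m := by
        have : (0 : ℝ) ≤ m := by positivity
        nlinarith
      linarith
    have hm : (0 : ℝ) ≤ m := by positivity
    nlinarith
  have h := triple_le (GG (28 * N)) (fun n => (1 / 4) * PP (stepK r) n - stepK r n) (i * N) N (27 * N)
    (by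
      have : -24 ≤ i := (abs_le.mp hi).1
      nlinarith)
    (by
      have : i ≤ 24 := (abs_le.mp hi).2
      nlinarith)
    (by
      intro n h1 h2
      have habs : |n| ≤ 27 * N := abs_le.mpr ⟨h1, h2⟩
      rw [GG_step (28 * N) n (by push_cast; omega)]
      unfold DD PP
      rw [stepK_eq (by rw [abs_le]; constructor <;> omega : |2 * n| ≤ (r : ℤ)),
        stepK_eq (by rw [abs_le]; constructor <;> omega : |2 * n + 1| ≤ (r : ℤ)),
        stepK_eq (by rw [abs_le]; constructor <;> omega : |2 * n + 2| ≤ (r : ℤ)),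
        stepK_eq (by rw [abs_le]; constructor <;> omega : |2 * n + 3| ≤ (r : ℤ)),
        stepK_eq (by rw [abs_le]; constructor <;> omega : |n| ≤ (r : ℤ))]
      push_cast
      ring)
    _ hB
  have e : cc (stepK r) (2 * N) i - cc (stepK r) N i = (1 / (N : ℝ) ^ 2) *
      ∑ a0 ∈ range N, ∑ a1 ∈ range N, ∑ a2 ∈ range N,
        ((1 / 4) * PP (stepK r) (i * N + a0 + a1 + a2) - stepK r (i * N + a0 + a1 + a2)) := by
    rw [cc_two _ _ hN]
    unfold cc aT
    simp only [sum_sub_distrib, ← mul_sum]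
    field_simp
  rw [e, abs_mul, abs_of_pos (by positivity : (0 : ℝ) < 1 / (N : ℝ) ^ 2)]
  calc 1 / (N : ℝ) ^ 2 * |∑ a0 ∈ range N, ∑ a1 ∈ range N, ∑ a2 ∈ range N,
        ((1 / 4) * PP (stepK r) (i * N + a0 + a1 + a2) - stepK r (i * N + a0 + a1 + a2))|
      ≤ 1 / (N : ℝ) ^ 2 * (2 * N * (30 * (m + 1))) := by gcongr
    _ = 60 * ((m : ℝ) + 1) / (N : ℝ) := by field_simp; ring
    _ = 60 * ((m : ℝ) + 1) / 2 ^ m := by rw [hNdef]; push_cast; ring

/-! ### filters -/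

theorem theta_mem (m : ℕ) : 0 ≤ theta m ∧ theta m ≤ 1 / 4 := by
  unfold theta
  have h1 : (0 : ℝ) < 1 / 4 ^ m := by positivity
  have h2 : (1 : ℝ) / 4 ^ m ≤ 1 := by
    rw [div_le_one (by positivity)]
    exact one_le_pow₀ (by norm_num)
  constructor <;> linarith

theorem theta_diff (m : ℕ) : |theta (m + 1) - theta m| ≤ (1 / 4) * (1 / 2 ^ m) * (1 / 2 ^ m) := by
  unfold theta
  have : (4 : ℝ) ^ m = 2 ^ m * 2 ^ m := by rw [← mul_pow]; norm_num
  rw [pow_succ, this]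
  have h2 : (0 : ℝ) < 2 ^ m := by positivity
  rw [show (1 - 1 / (2 ^ m * 2 ^ m * 4)) / 4 - (1 - 1 / (2 ^ m * 2 ^ m)) / 4 =
    (3 / 16) * (1 / 2 ^ m * (1 / (2 : ℝ) ^ m)) by field_simp; ring]
  rw [abs_of_pos (by positivity)]
  have : 0 < 1 / (2 : ℝ) ^ m * (1 / 2 ^ m) := by positivity
  linarith

theorem eE_le {t B : ℝ} (ht : 0 ≤ t ∧ t ≤ 1 / 4) (x : ℤ → ℝ) (l : ℤ)
    (h : ∀ i, l - 2 ≤ i → i ≤ l + 5 → |x i| ≤ B) : |eE t x l| ≤ B := by
  have a1 := abs_le.mp (h (l - 2) (by omega) (by omega))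
  have a2 := abs_le.mp (h (l - 1) (by omega) (by omega))
  have a3 := abs_le.mp (h l (by omega) (by omega))
  have a4 := abs_le.mp (h (l + 1) (by omega) (by omega))
  have a5 := abs_le.mp (h (l + 2) (by omega) (by omega))
  have a6 := abs_le.mp (h (l + 3) (by omega) (by omega))
  have a7 := abs_le.mp (h (l + 4) (by omega) (by omega))
  have a8 := abs_le.mp (h (l + 5) (by omega) (by omega))
  have hB : 0 ≤ B := (abs_nonneg _).trans (h l (by omega) (by omega))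
  set e0 : ℝ := (-3 / 512) * x (l - 2) + (-9 / 512) * x (l - 1) + (-41 / 512) * x l +
    (-99 / 512) * x (l + 1) + (99 / 512) * x (l + 2) + (41 / 512) * x (l + 3) + (9 / 512) * x (l + 4) +
    (3 / 512) * x (l + 5) with he0
  set e1 : ℝ := (-1 / 128) * x (l - 2) + (-3 / 128) * x (l - 1) + (-19 / 128) * x l +
    (-49 / 128) * x (l + 1) + (49 / 128) * x (l + 2) + (19 / 128) * x (l + 3) + (3 / 128) * x (l + 4) +
    (1 / 128) * x (l + 5) with he1
  have e : eE t x l = e0 + t * e1 := by unfold eE; rw [he0, he1]; ring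
  have b0 : |e0| ≤ (304 / 512) * B := by rw [he0, abs_le]; constructor <;> linarith
  have b1 : |e1| ≤ (144 / 128) * B := by rw [he1, abs_le]; constructor <;> linarith
  rw [e]
  calc |e0 + t * e1| ≤ |e0| + |t * e1| := abs_add_le _ _
    _ = |e0| + t * |e1| := by rw [abs_mul, abs_of_nonneg ht.1]
    _ ≤ (304 / 512) * B + (1 / 4) * ((144 / 128) * B) := by
        have := ht.2
        gcongr
    _ ≤ B := by linarith

theorem eO_le {t B : ℝ} (ht : 0 ≤ t ∧ t ≤ 1 / 4) (x : ℤ → ℝ) (l : ℤ)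
    (h : ∀ i, l - 2 ≤ i → i ≤ l + 5 → |x i| ≤ B) : |eO t x l| ≤ B := by
  have a2 := abs_le.mp (h (l - 1) (by omega) (by omega))
  have a3 := abs_le.mp (h l (by omega) (by omega))
  have a4 := abs_le.mp (h (l + 1) (by omega) (by omega))
  have a5 := abs_le.mp (h (l + 2) (by omega) (by omega))
  have a6 := abs_le.mp (h (l + 3) (by omega) (by omega))
  have a7 := abs_le.mp (h (l + 4) (by omega) (by omega))
  have hB : 0 ≤ B := (abs_nonneg _).trans (h l (by omega) (by omega))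
  set e0 : ℝ := (-9 / 256) * x (l - 1) + (-27 / 256) * x l + (-9 / 128) * x (l + 1) +
    (9 / 128) * x (l + 2) + (27 / 256) * x (l + 3) + (9 / 256) * x (l + 4) with he0
  set e1 : ℝ := (-3 / 64) * x (l - 1) + (-9 / 64) * x l + (-11 / 32) * x (l + 1) +
    (11 / 32) * x (l + 2) + (9 / 64) * x (l + 3) + (3 / 64) * x (l + 4) with he1
  have e : eO t x l = e0 + t * e1 := by unfold eO; rw [he0, he1]; ring
  have b0 : |e0| ≤ (1 / 2) * B := by rw [he0, abs_le]; constructor <;> linarith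
  have b1 : |e1| ≤ (144 / 128) * B := by rw [he1, abs_le]; constructor <;> linarith
  rw [e]
  calc |e0 + t * e1| ≤ |e0| + |t * e1| := abs_add_le _ _
    _ = |e0| + t * |e1| := by rw [abs_mul, abs_of_nonneg ht.1]
    _ ≤ (1 / 2) * B + (1 / 4) * ((144 / 128) * B) := by
        have := ht.2
        gcongr
    _ ≤ B := by linarith

theorem eE_t {t t' B : ℝ} (x : ℤ → ℝ) (l : ℤ)
    (h : ∀ i, |x i| ≤ B) : |eE t' x l - eE t x l| ≤ |t' - t| * (2 * B) := by
  have a1 := abs_le.mp (h (l - 2))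
  have a2 := abs_le.mp (h (l - 1))
  have a3 := abs_le.mp (h l)
  have a4 := abs_le.mp (h (l + 1))
  have a5 := abs_le.mp (h (l + 2))
  have a6 := abs_le.mp (h (l + 3))
  have a7 := abs_le.mp (h (l + 4))
  have a8 := abs_le.mp (h (l + 5))
  have hB : 0 ≤ B := (abs_nonneg _).trans (h l)
  set e1 : ℝ := (-1 / 128) * x (l - 2) + (-3 / 128) * x (l - 1) + (-19 / 128) * x l +
    (-49 / 128) * x (l + 1) + (49 / 128) * x (l + 2) + (19 / 128) * x (l + 3) + (3 / 128) * x (l + 4) +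
    (1 / 128) * x (l + 5) with he1
  have e : eE t' x l - eE t x l = (t' - t) * e1 := by unfold eE; rw [he1]; ring
  have b1 : |e1| ≤ 2 * B := by rw [he1, abs_le]; constructor <;> linarith
  rw [e, abs_mul]
  gcongr

theorem eO_t {t t' B : ℝ} (x : ℤ → ℝ) (l : ℤ)
    (h : ∀ i, |x i| ≤ B) : |eO t' x l - eO t x l| ≤ |t' - t| * (2 * B) := by
  have a2 := abs_le.mp (h (l - 1))
  have a3 := abs_le.mp (h l)
  have a4 := abs_le.mp (h (l + 1))
  have a5 := abs_le.mp (h (l + 2))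
  have a6 := abs_le.mp (h (l + 3))
  have a7 := abs_le.mp (h (l + 4))
  have hB : 0 ≤ B := (abs_nonneg _).trans (h l)
  set e1 : ℝ := (-3 / 64) * x (l - 1) + (-9 / 64) * x l + (-11 / 32) * x (l + 1) +
    (11 / 32) * x (l + 2) + (9 / 64) * x (l + 3) + (3 / 64) * x (l + 4) with he1
  have e : eO t' x l - eO t x l = (t' - t) * e1 := by unfold eO; rw [he1]; ring
  have b1 : |e1| ≤ 2 * B := by rw [he1, abs_le]; constructor <;> linarith
  rw [e, abs_mul]
  gcongr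

theorem eE_sub (t : ℝ) (x y : ℤ → ℝ) (l : ℤ) :
    eE t x l - eE t y l = eE t (fun i => x i - y i) l := by unfold eE; ring

theorem eO_sub (t : ℝ) (x y : ℤ → ℝ) (l : ℤ) :
    eO t x l - eO t y l = eO t (fun i => x i - y i) l := by unfold eO; ring

theorem ee_small (r m : ℕ) (l : ℤ) : |ee (stepK r) m l| ≤ 4 * r / 2 ^ m := by
  have h : ∀ i, |cc (stepK r) (2 ^ m) i| ≤ 4 * r / 2 ^ m := by
    intro i
    have := cc_small r (2 ^ m) (by positivity) i
    push_cast at this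
    exact this
  unfold ee
  split_ifs
  · exact eE_le (theta_mem m) _ _ (fun i _ _ => h i)
  · exact eO_le (theta_mem m) _ _ (fun i _ _ => h i)

theorem ee_diff (r m : ℕ) (hr : 64 * 2 ^ m ≤ r) (l : ℤ) (hl : |l| < 20) :
    |ee (stepK r) (m + 1) l - ee (stepK r) m l| ≤ 61 * ((m + 1) / 2 ^ m) := by
  have hl' := abs_lt.mp hl
  have hd : ∀ i, l - 2 ≤ i → i ≤ l + 5 →
      |cc (stepK r) (2 ^ (m + 1)) i - cc (stepK r) (2 ^ m) i| ≤ 60 * (m + 1) / 2 ^ m :=
    fun i h1 h2 => cc_diff r m hr i (by rw [abs_le]; constructor <;> omega)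
  have hc : ∀ i, |cc (stepK r) (2 ^ m) i| ≤ 2 ^ m := by
    intro i
    have := abs_cc_le r (2 ^ m) (by positivity) i
    push_cast at this
    exact this
  have ht := theta_diff m
  have h2 : (0 : ℝ) < 2 ^ m := by positivity
  have hm : (0 : ℝ) ≤ m := by positivity
  have key : |theta (m + 1) - theta m| * (2 * 2 ^ m) ≤ (m + 1) / 2 ^ m := by
    calc |theta (m + 1) - theta m| * (2 * 2 ^ m) ≤ ((1 / 4) * (1 / 2 ^ m) * (1 / 2 ^ m)) * (2 * 2 ^ m) := by
          gcongr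
      _ = (1 / 2) / 2 ^ m := by field_simp; ring
      _ ≤ (m + 1) / 2 ^ m := by gcongr; linarith
  unfold ee
  split_ifs
  · have e : eE (theta (m + 1)) (cc (stepK r) (2 ^ (m + 1))) l - eE (theta m) (cc (stepK r) (2 ^ m)) l =
        (eE (theta (m + 1)) (cc (stepK r) (2 ^ (m + 1))) l - eE (theta (m + 1)) (cc (stepK r) (2 ^ m)) l) +
        (eE (theta (m + 1)) (cc (stepK r) (2 ^ m)) l - eE (theta m) (cc (stepK r) (2 ^ m)) l) := by ring
    rw [e, eE_sub]
    refine (abs_add_le _ _).trans ?_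
    have b1 := eE_le (theta_mem (m + 1)) (fun i => cc (stepK r) (2 ^ (m + 1)) i - cc (stepK r) (2 ^ m) i) l hd
    have b2 := eE_t (t := theta m) (t' := theta (m + 1)) (cc (stepK r) (2 ^ m)) l hc
    calc _ ≤ 60 * ((m : ℝ) + 1) / 2 ^ m + |theta (m + 1) - theta m| * (2 * 2 ^ m) := add_le_add b1 b2
      _ ≤ 60 * ((m : ℝ) + 1) / 2 ^ m + (m + 1) / 2 ^ m := by gcongr
      _ = 61 * ((m + 1) / 2 ^ m) := by ring
  · have e : eO (theta (m + 1)) (cc (stepK r) (2 ^ (m + 1))) l - eO (theta m) (cc (stepK r) (2 ^ m)) l =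
        (eO (theta (m + 1)) (cc (stepK r) (2 ^ (m + 1))) l - eO (theta (m + 1)) (cc (stepK r) (2 ^ m)) l) +
        (eO (theta (m + 1)) (cc (stepK r) (2 ^ m)) l - eO (theta m) (cc (stepK r) (2 ^ m)) l) := by ring
    rw [e, eO_sub]
    refine (abs_add_le _ _).trans ?_
    have b1 := eO_le (theta_mem (m + 1)) (fun i => cc (stepK r) (2 ^ (m + 1)) i - cc (stepK r) (2 ^ m) i) l hd
    have b2 := eO_t (t := theta m) (t' := theta (m + 1)) (cc (stepK r) (2 ^ m)) l hc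
    calc _ ≤ 60 * ((m : ℝ) + 1) / 2 ^ m + |theta (m + 1) - theta m| * (2 * 2 ^ m) := add_le_add b1 b2
      _ ≤ 60 * ((m : ℝ) + 1) / 2 ^ m + (m + 1) / 2 ^ m := by gcongr
      _ = 61 * ((m + 1) / 2 ^ m) := by ring

/-! ### summation over scales -/

theorem sum_lin (M : ℕ) : ∑ m ∈ range M, ((m : ℝ) + 1) / 2 ^ m ≤ 4 := by
  have key : ∀ M : ℕ, ∑ m ∈ range M, ((m : ℝ) + 1) / 2 ^ m = 4 - (2 * M + 4) / 2 ^ M := by
    intro M
    induction M with
    | zero => simp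
    | succ M ih =>
      rw [sum_range_succ, ih, pow_succ]
      have : (2 : ℝ) ^ M ≠ 0 := by positivity
      push_cast
      field_simp
      ring
  rw [key]
  have : (0 : ℝ) ≤ (2 * M + 4) / 2 ^ M := by positivity
  linarith

theorem sum_geo (r M : ℕ) :
    ∑ m ∈ range M, (if r < 64 * 2 ^ m then (r : ℝ) / 2 ^ m else 0) ≤ 128 := by
  have key : ∀ M : ℕ, ∑ m ∈ range M, (if r < 64 * 2 ^ m then (r : ℝ) / 2 ^ m else 0) ≤
      128 - min 128 (2 * (r : ℝ) / 2 ^ M) := by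
    intro M
    induction M with
    | zero => simp
    | succ M ih =>
      rw [sum_range_succ]
      have h2 : (0 : ℝ) < 2 ^ M := by positivity
      have hr0 : (0 : ℝ) ≤ r := by positivity
      have e1 : 2 * (r : ℝ) / 2 ^ (M + 1) = r / 2 ^ M := by rw [pow_succ]; field_simp
      rw [e1]
      split_ifs with h
      · have h' : (r : ℝ) < 64 * 2 ^ M := by exact_mod_cast h
        have h3 : (r : ℝ) / 2 ^ M < 64 := by rw [div_lt_iff₀ h2]; exact h'
        have e2 : min 128 (2 * (r : ℝ) / 2 ^ M) = 2 * (r / 2 ^ M) := by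
          rw [min_eq_right] <;> rw [mul_div_assoc]
          linarith
        rw [min_eq_right (by linarith)]
        rw [e2] at ih
        linarith
      · have hle : min 128 ((r : ℝ) / 2 ^ M) ≤ min 128 (2 * (r : ℝ) / 2 ^ M) := by
          apply min_le_min le_rfl
          gcongr
          linarith
        linarith
  refine (key M).trans ?_
  have : (0 : ℝ) ≤ min 128 (2 * (r : ℝ) / 2 ^ M) := le_min (by norm_num) (by positivity)
  linarith

end Small

/-- `ee_step_var` for `|l| < 20`. -/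
theorem ee_step_var_small : ∃ C : ℝ, 0 ≤ C ∧ ∀ (r : ℕ) (l : ℤ) (M : ℕ), |l| < 20 →
    ∑ m ∈ range M, |ee (stepK r) (m + 1) l - ee (stepK r) m l| ≤ C := by
  refine ⟨1012, by norm_num, fun r l M hl => ?_⟩
  have b : ∀ m ∈ range M, |ee (stepK r) (m + 1) l - ee (stepK r) m l| ≤
      61 * (((m : ℝ) + 1) / 2 ^ m) + 6 * (if r < 64 * 2 ^ m then (r : ℝ) / 2 ^ m else 0) := by
    intro m _
    split_ifs with h
    · have h1 := Small.ee_small r (m + 1) l
      have h2 := Small.ee_small r m l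
      have h3 : (0 : ℝ) ≤ 61 * (((m : ℝ) + 1) / 2 ^ m) := by positivity
      have e1 : 4 * (r : ℝ) / 2 ^ (m + 1) = 2 * (r / 2 ^ m) := by rw [pow_succ]; field_simp; ring
      have e2 : 4 * (r : ℝ) / 2 ^ m = 4 * (r / 2 ^ m) := by ring
      rw [e1] at h1
      rw [e2] at h2
      have := abs_sub (ee (stepK r) (m + 1) l) (ee (stepK r) m l)
      linarith
    · have := Small.ee_diff r m (by omega) l hl
      linarith
  refine (sum_le_sum b).trans ?_
  rw [sum_add_distrib, ← mul_sum, ← mul_sum]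
  have h1 := Small.sum_lin M
  have h2 := Small.sum_geo r M
  linarith

/-- the same in the shape needed for `ee_step_var`. -/
theorem ee_step_var_small' : ∃ C : ℝ, 0 ≤ C ∧ ∀ (r : ℕ) (l : ℤ) (M : ℕ), |l| < 20 → ∀ ν : ℝ, 0 ≤ ν →
    ∑ m ∈ range M, |ee (stepK r) (m + 1) l - ee (stepK r) m l| ≤
      C / (1 + |(l : ℝ)|) * (1 / (1 + |(l : ℝ)|) + ν) := by
  obtain ⟨C, hC, h⟩ := ee_step_var_small
  refine ⟨400 * C, by positivity, fun r l M hl ν hν => (h r l M hl).trans ?_⟩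
  have h1 : |(l : ℝ)| ≤ 19 := by
    rw [← Int.cast_abs]
    have : |l| ≤ 19 := by omega
    exact_mod_cast this
  have h0 : 0 ≤ |(l : ℝ)| := abs_nonneg _
  have h2 : 1 / (20 : ℝ) ≤ 1 / (1 + |(l : ℝ)|) := one_div_le_one_div_of_le (by positivity) (by linarith)
  have e : C = 400 * C * (1 / 20) * (1 / 20 + 0) := by ring
  calc C = 400 * C * (1 / 20) * (1 / 20 + 0) := e
    _ ≤ 400 * C * (1 / (1 + |(l : ℝ)|)) * (1 / (1 + |(l : ℝ)|) + ν) := by gcongr
    _ = 400 * C / (1 + |(l : ℝ)|) * (1 / (1 + |(l : ℝ)|) + ν) := by ring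

end Crest.Agent.R072.Kernel
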