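import Crest.Agent.R072.Mat
import Crest.Agent.R072.Node

/-! R072: lattice potentials on `ZMod Q` (blueprint part 2, (C1)–(C3), (C6), `Lbox_le`).
Definitions + part 1 (helper830). -/

set_option autoImplicit false
set_option linter.unusedSectionVars false
set_option linter.unusedVariables false

namespace Crest.Agent.R072.Lattice

open Matrix Finset Crest.Agent.R072
open scoped MatrixOrder

variable {Q : ℕ} [NeZero Q]

/-- averaged rank-one matrices -/
noncomputable def abar (X : ZMod Q → ZMod Q → ℝ) (a r : ℕ) (q p : ZMod Q) :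
    Matrix (Fin r) (Fin r) ℝ :=
  fun j j' => (1 / ((a : ℝ) * r)) *
    ∑ i ∈ range a, X (q + (i : ZMod Q)) (p + ((j : ℕ) : ZMod Q)) *
      X (q + (i : ZMod Q)) (p + ((j' : ℕ) : ZMod Q))

/-- potential -/
noncomputable def W (X Z : ZMod Q → ZMod Q → ℝ) (a r : ℕ) (n : ZMod Q) : ℝ :=
  ∑ p : ZMod Q, ∑ q : ZMod Q, phi (abar X a r q p + abar Z a r (n - p - q) p)

noncomputable def EW (X : ZMod Q → ZMod Q → ℝ) (a r : ℕ) : ℝ :=
  ∑ p : ZMod Q, ∑ q : ZMod Q, phi (abar X a r q p)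

noncomputable def GW (X Z : ZMod Q → ZMod Q → ℝ) (a r : ℕ) (n : ZMod Q) : ℝ :=
  ∑ p : ZMod Q, ∑ q : ZMod Q,
    Gam (hsgn r) (abar X a (r + r) q p + abar Z a (r + r) (n - p - q) p)

/-- reference potential `½ [V_N(-2N) + V_N(-N)]` -/
noncomputable def Vref (X Z : ZMod Q → ZMod Q → ℝ) (N : ℕ) : ℝ :=
  (1 / 2) * (W X Z N N (-(2 * (N : ZMod Q))) + W X Z N N (-(N : ZMod Q)))

noncomputable def EE (X Z : ZMod Q → ZMod Q → ℝ) (N : ℕ) : ℝ := EW X N N + EW Z N N

theorem abar_posSemidef (X : ZMod Q → ZMod Q → ℝ) (a r : ℕ) (q p : ZMod Q) :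
    (abar X a r q p).PosSemidef := by
  have h : abar X a r q p = (1 / ((a : ℝ) * r)) •
      ∑ i ∈ range a, vecMulVec (fun j : Fin r => X (q + (i : ZMod Q)) (p + ((j : ℕ) : ZMod Q)))
        (star (fun j : Fin r => X (q + (i : ZMod Q)) (p + ((j : ℕ) : ZMod Q)))) := by
    ext j j'
    simp [abar, Matrix.sum_apply, vecMulVec_apply]
  rw [h]
  refine PosSemidef.smul ?_ (by positivity)
  exact posSemidef_sum _ (fun i _ => posSemidef_vecMulVec_self_star _)

theorem abar_add_posSemidef (X Z : ZMod Q → ZMod Q → ℝ) (a r : ℕ) (q p q' p' : ZMod Q) :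
    (abar X a r q p + abar Z a r q' p').PosSemidef :=
  (abar_posSemidef X a r q p).add (abar_posSemidef Z a r q' p')

theorem W_nonneg (X Z : ZMod Q → ZMod Q → ℝ) (a r : ℕ) (n : ZMod Q) : 0 ≤ W X Z a r n :=
  Finset.sum_nonneg fun _ _ => Finset.sum_nonneg fun _ _ =>
    phi_nonneg (abar_add_posSemidef _ _ _ _ _ _ _ _)

theorem EW_nonneg (X : ZMod Q → ZMod Q → ℝ) (a r : ℕ) : 0 ≤ EW X a r :=
  Finset.sum_nonneg fun _ _ => Finset.sum_nonneg fun _ _ => phi_nonneg (abar_posSemidef _ _ _ _ _)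

theorem sum_sub_left' (f : ZMod Q → ℝ) (c : ZMod Q) : ∑ q : ZMod Q, f (c - q) = ∑ q : ZMod Q, f q :=
  Equiv.sum_comp (Equiv.subLeft c) f

theorem sum_add_right' (f : ZMod Q → ℝ) (c : ZMod Q) : ∑ q : ZMod Q, f (q + c) = ∑ q : ZMod Q, f q :=
  Equiv.sum_comp (Equiv.addRight c) f

theorem W_comm (X Z : ZMod Q → ZMod Q → ℝ) (a r : ℕ) (n : ZMod Q) : W X Z a r n = W Z X a r n := by
  unfold W
  refine Finset.sum_congr rfl fun p _ => ?_
  rw [← sum_sub_left' (fun q => phi (abar X a r q p + abar Z a r (n - p - q) p)) (n - p)]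
  refine Finset.sum_congr rfl fun q _ => ?_
  rw [sub_sub_cancel, add_comm]

/-- averages over `2a` points -/
theorem abar_double (X : ZMod Q → ZMod Q → ℝ) {a r : ℕ} (ha : 0 < a) (q p : ZMod Q) :
    abar X (a + a) r q p = (1 / 2 : ℝ) • (abar X a r q p + abar X a r (q + a) p) := by
  ext j j'
  simp only [abar, Matrix.smul_apply, Matrix.add_apply, smul_eq_mul, Finset.sum_range_add]
  have ha' : (a : ℝ) ≠ 0 := by exact_mod_cast ha.ne'
  have : (1 / (((a + a : ℕ) : ℝ) * r)) = (1 / 2) * (1 / ((a : ℝ) * r)) := by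
    push_cast
    rcases eq_or_ne (r : ℝ) 0 with hr | hr
    · simp [hr]
    · field_simp; norm_num
  rw [this]
  simp only [Nat.cast_add, ← add_assoc]
  ring

/-- (C1) -/
theorem W_double_a (X Z : ZMod Q → ZMod Q → ℝ) {a r : ℕ} (ha : 0 < a) (hr : 0 < r) (n : ZMod Q) :
    W X Z (a + a) r n ≤ W X Z a r (n + a) := by
  have key : ∀ p q : ZMod Q, phi (abar X (a + a) r q p + abar Z (a + a) r (n - p - q) p) ≤
      (1 / 2) * phi (abar X a r q p + abar Z a r (n + a - p - q) p) +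
      (1 / 2) * phi (abar X a r (q + a) p + abar Z a r (n + a - p - (q + a)) p) := by
    intro p q
    have e : abar X (a + a) r q p + abar Z (a + a) r (n - p - q) p =
        (1 / 2 : ℝ) • ((abar X a r q p + abar Z a r (n + a - p - q) p) +
          (abar X a r (q + a) p + abar Z a r (n + a - p - (q + a)) p)) := by
      rw [abar_double X ha, abar_double Z ha, ← smul_add]
      congr 1
      have e1 : n + a - p - q = n - p - q + a := by ring
      have e2 : n + a - p - (q + a) = n - p - q := by ring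
      rw [e1, e2]
      abel
    rw [e]
    have := phi_mid_le (abar_add_posSemidef X Z a r q p (n + a - p - q) p)
      (abar_add_posSemidef X Z a r (q + a) p (n + a - p - (q + a)) p)
    linarith
  unfold W
  refine Finset.sum_le_sum fun p _ => ?_
  refine (Finset.sum_le_sum fun q _ => key p q).trans ?_
  rw [Finset.sum_add_distrib, ← Finset.mul_sum, ← Finset.mul_sum,
    sum_add_right' (fun q => phi (abar X a r q p + abar Z a r (n + a - p - q) p)) a]
  linarith

theorem abar_submatrix_castAdd (X : ZMod Q → ZMod Q → ℝ) {a r : ℕ} (hr : 0 < r)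
    (q p : ZMod Q) : (2 : ℝ) • (abar X a (r + r) q p).submatrix (Fin.castAdd r) (Fin.castAdd r) =
      abar X a r q p := by
  ext j j'
  simp only [abar, Matrix.smul_apply, Matrix.submatrix_apply, smul_eq_mul, Fin.val_castAdd]
  have hr' : (r : ℝ) ≠ 0 := by exact_mod_cast hr.ne'
  have : (1 / ((a : ℝ) * r)) = 2 * (1 / ((a : ℝ) * ((r + r : ℕ) : ℝ))) := by
    push_cast
    rcases eq_or_ne (a : ℝ) 0 with ha | ha
    · simp [ha]
    · field_simp; norm_num
  rw [this]
  ring

theorem abar_submatrix_natAdd (X : ZMod Q → ZMod Q → ℝ) {a r : ℕ} (hr : 0 < r)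
    (q p : ZMod Q) : (2 : ℝ) • (abar X a (r + r) q p).submatrix (Fin.natAdd r) (Fin.natAdd r) =
      abar X a r q (p + r) := by
  ext j j'
  simp only [abar, Matrix.smul_apply, Matrix.submatrix_apply, smul_eq_mul, Fin.val_natAdd,
    Nat.cast_add, ← add_assoc]
  have hr' : (r : ℝ) ≠ 0 := by exact_mod_cast hr.ne'
  have : (1 / ((a : ℝ) * r)) = 2 * (1 / ((a : ℝ) * ((r : ℝ) + (r : ℝ)))) := by
    rcases eq_or_ne (a : ℝ) 0 with ha | ha
    · simp [ha]
    · field_simp; norm_num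
  rw [this]
  ring

theorem Gam_abar (X Z : ZMod Q → ZMod Q → ℝ) {a r : ℕ} (hr : 0 < r) (q q' p : ZMod Q) :
    Gam (hsgn r) (abar X a (r + r) q p + abar Z a (r + r) q' p) =
      phi (abar X a r q p + abar Z a r q' p) +
      phi (abar X a r q (p + r) + abar Z a r q' (p + r)) -
      2 * phi (abar X a (r + r) q p + abar Z a (r + r) q' p) := by
  rw [Gam_hsgn r (abar_add_posSemidef X Z a (r + r) q p q' p)]
  have e1 : (2 : ℝ) • (abar X a (r + r) q p + abar Z a (r + r) q' p).submatrix (Fin.castAdd r)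
      (Fin.castAdd r) = abar X a r q p + abar Z a r q' p := by
    rw [Matrix.submatrix_add, Pi.add_apply, Pi.add_apply, smul_add, abar_submatrix_castAdd X hr,
      abar_submatrix_castAdd Z hr]
  have e2 : (2 : ℝ) • (abar X a (r + r) q p + abar Z a (r + r) q' p).submatrix (Fin.natAdd r)
      (Fin.natAdd r) = abar X a r q (p + r) + abar Z a r q' (p + r) := by
    rw [Matrix.submatrix_add, Pi.add_apply, Pi.add_apply, smul_add, abar_submatrix_natAdd X hr,
      abar_submatrix_natAdd Z hr]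
  rw [e1, e2]

/-- (C2) -/
theorem W_double_r (X Z : ZMod Q → ZMod Q → ℝ) {a r : ℕ} (ha : 0 < a) (hr : 0 < r) (n : ZMod Q) :
    W X Z a (r + r) n = (1 / 2) * (W X Z a r n + W X Z a r (n + r)) - (1 / 2) * GW X Z a r n := by
  have h : GW X Z a r n = W X Z a r n + W X Z a r (n + r) - 2 * W X Z a (r + r) n := by
    unfold GW W
    simp only [Gam_abar X Z hr, Finset.sum_sub_distrib, Finset.sum_add_distrib, Finset.mul_sum]
    congr 2
    rw [← sum_add_right' (fun p => ∑ q : ZMod Q, phi (abar X a r q p +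
      abar Z a r (n + r - p - q) p)) r]
    refine Finset.sum_congr rfl fun p _ => Finset.sum_congr rfl fun q _ => ?_
    have e : n + r - (p + r) - q = n - p - q := by ring
    rw [e]
  rw [h]
  ring

theorem EW_double_a (X : ZMod Q → ZMod Q → ℝ) {a r : ℕ} (ha : 0 < a) (hr : 0 < r) :
    EW X (a + a) r ≤ EW X a r := by
  unfold EW
  refine Finset.sum_le_sum fun p _ => ?_
  have key : ∀ q : ZMod Q, phi (abar X (a + a) r q p) ≤ (1 / 2) * phi (abar X a r q p) +
      (1 / 2) * phi (abar X a r (q + a) p) := by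
    intro q
    rw [abar_double X ha]
    have := phi_mid_le (abar_posSemidef X a r q p) (abar_posSemidef X a r (q + a) p)
    linarith
  refine (Finset.sum_le_sum fun q _ => key q).trans ?_
  rw [Finset.sum_add_distrib, ← Finset.mul_sum, ← Finset.mul_sum,
    sum_add_right' (fun q => phi (abar X a r q p)) a]
  linarith

theorem EW_double_r (X : ZMod Q → ZMod Q → ℝ) {a r : ℕ} (ha : 0 < a) (hr : 0 < r) :
    EW X a (r + r) ≤ EW X a r := by
  have key : ∀ p q : ZMod Q, phi (abar X a (r + r) q p) ≤ (1 / 2) * phi (abar X a r q p) +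
      (1 / 2) * phi (abar X a r q (p + r)) := by
    intro p q
    have h1 := Gam_nonneg (abar_posSemidef X a (r + r) q p) (hsgn r) (hsgn_mul_self r)
    rw [Gam_hsgn r (abar_posSemidef X a (r + r) q p), abar_submatrix_castAdd X hr,
      abar_submatrix_natAdd X hr] at h1
    linarith
  unfold EW
  refine (Finset.sum_le_sum fun p _ => Finset.sum_le_sum fun q _ => key p q).trans ?_
  simp only [Finset.sum_add_distrib, ← Finset.mul_sum]
  rw [sum_add_right' (fun p => ∑ q : ZMod Q, phi (abar X a r q p)) r]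
  linarith

/-- (C12) -/
theorem half_GW_le (X Z : ZMod Q → ZMod Q → ℝ) {N : ℕ} (hN : 0 < N) (n : ZMod Q) :
    (1 / 2) * GW X Z (N + N) N n ≤
      (1 / 2) * (W X Z N N (n + N) + W X Z N N (n + 2 * N)) - W X Z (N + N) (N + N) n := by
  have h1 := W_double_r X Z (a := N + N) (r := N) (by omega) hN n
  have h2 := W_double_a X Z (a := N) (r := N) hN hN n
  have h3 := W_double_a X Z (a := N) (r := N) hN hN (n + N)
  have e : n + N + N = n + 2 * (N : ZMod Q) := by ring
  rw [e] at h3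
  linarith

/-- (C6) -/
theorem EW_one (X : ZMod Q → ZMod Q → ℝ) :
    EW X 1 1 = ∑ x : ZMod Q, ∑ y : ZMod Q, |X x y| ^ 3 := by
  unfold EW
  rw [Finset.sum_comm]
  refine Finset.sum_congr rfl fun q _ => Finset.sum_congr rfl fun p _ => ?_
  have e : (abar X 1 1 q p) default default = X q p ^ 2 := by
    simp [abar, sq]
  rw [phi_unique (by rw [e]; positivity), e, Real.sqrt_sq_eq_abs, ← sq_abs]
  ring

theorem W_le (X Z : ZMod Q → ZMod Q → ℝ) (a r : ℕ) (n : ZMod Q) :
    W X Z a r n ≤ Real.sqrt 2 * (EW X a r + EW Z a r) := by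
  have key : ∀ p q : ZMod Q, phi (abar X a r q p + abar Z a r (n - p - q) p) ≤
      Real.sqrt 2 * phi (abar X a r q p) + Real.sqrt 2 * phi (abar Z a r (n - p - q) p) := by
    intro p q
    have := phi_add_le (abar_posSemidef X a r q p) (abar_posSemidef Z a r (n - p - q) p)
    linarith
  unfold W EW
  refine (Finset.sum_le_sum fun p _ => Finset.sum_le_sum fun q _ => key p q).trans ?_
  simp only [Finset.sum_add_distrib, ← Finset.mul_sum]
  rw [mul_add]
  refine add_le_add le_rfl (mul_le_mul_of_nonneg_left ?_ (Real.sqrt_nonneg 2))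
  exact Finset.sum_le_sum fun p _ =>
    (sum_sub_left' (fun q => phi (abar Z a r q p)) (n - p)).le

/-- box form, side `2N`, half-box signs, normalised by `(2N)^{-3}` -/
noncomputable def Lbox (F0 F1 F2 : ZMod Q → ZMod Q → ℝ) (N : ℕ) (p0 p1 p2 : ZMod Q) : ℝ :=
  (1 / ((N : ℝ) + N) ^ 3) * ∑ i0 : Fin (N + N), ∑ i1 : Fin (N + N), ∑ i2 : Fin (N + N),
    hsgn N i0 * hsgn N i1 * hsgn N i2 *
      (F0 (p0 + ((i0 : ℕ) : ZMod Q)) (p1 + ((i1 : ℕ) : ZMod Q)) *
       F1 (p1 + ((i1 : ℕ) : ZMod Q)) (p2 + ((i2 : ℕ) : ZMod Q)) *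
       F2 (p2 + ((i2 : ℕ) : ZMod Q)) (p0 + ((i0 : ℕ) : ZMod Q)))

/-- block of a kernel -/
def blkm (F : ZMod Q → ZMod Q → ℝ) (r : ℕ) (p q : ZMod Q) : Matrix (Fin r) (Fin r) ℝ :=
  fun i j => F (p + ((i : ℕ) : ZMod Q)) (q + ((j : ℕ) : ZMod Q))

theorem transpose_mul_blkm (F : ZMod Q → ZMod Q → ℝ) {r : ℕ} (hr : 0 < r) (p q : ZMod Q) :
    (blkm F r q p)ᵀ * blkm F r q p = ((r : ℝ) ^ 2) • abar F r r q p := by
  have hr' : (r : ℝ) ≠ 0 := by exact_mod_cast hr.ne'
  ext j j'
  simp only [Matrix.mul_apply, Matrix.transpose_apply, blkm, abar, Matrix.smul_apply, smul_eq_mul]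
  rw [← mul_assoc, Finset.sum_range]
  have : (r : ℝ) ^ 2 * (1 / ((r : ℝ) * r)) = 1 := by field_simp
  rw [this, one_mul]

theorem mul_transpose_blkm (F : ZMod Q → ZMod Q → ℝ) {r : ℕ} (hr : 0 < r) (p q : ZMod Q) :
    blkm F r p q * (blkm F r p q)ᵀ = ((r : ℝ) ^ 2) • abar (fun x y => F y x) r r q p := by
  rw [← transpose_mul_blkm (fun x y => F y x) hr p q]
  rfl

theorem Gam_smul {r : ℕ} {M : Matrix (Fin r) (Fin r) ℝ} (hM : M.PosSemidef) (u : Fin r → ℝ)
    {c : ℝ} (hc : 0 ≤ c) :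
    Gam u ((c ^ 2) • M) = c ^ 3 * Gam u M := by
  have hU : (diagonal u * M * diagonal u).PosSemidef := by
    have := hM.mul_mul_conjTranspose_same (diagonal u)
    simpa [Matrix.diagonal_conjTranspose] using this
  unfold Gam
  have e : (c ^ 2) • M + diagonal u * ((c ^ 2) • M) * diagonal u =
      (c ^ 2) • (M + diagonal u * M * diagonal u) := by
    rw [Matrix.mul_smul, Matrix.smul_mul, smul_add]
  rw [e, phi_smul (hM.add hU) (by positivity), phi_smul hM (by positivity), Real.sqrt_sq hc]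
  ring

theorem trace_formula {r : ℕ} (u v w : Fin r → ℝ) (A B C : Matrix (Fin r) (Fin r) ℝ) :
    (diagonal u * A * diagonal v * B * diagonal w * C).trace =
      ∑ i0 : Fin r, ∑ i1 : Fin r, ∑ i2 : Fin r,
        u i0 * A i0 i1 * v i1 * B i1 i2 * w i2 * C i2 i0 := by
  have h1 : ∀ i j, (diagonal u * A * diagonal v) i j = u i * A i j * v j := by
    intro i j
    rw [Matrix.mul_diagonal, Matrix.diagonal_mul]
  have h2 : ∀ i k, (diagonal u * A * diagonal v * B * diagonal w) i k =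
      ∑ j, u i * A i j * v j * B j k * w k := by
    intro i k
    rw [Matrix.mul_diagonal, Matrix.mul_apply, Finset.sum_mul]
    exact Finset.sum_congr rfl fun j _ => by rw [h1]
  unfold Matrix.trace
  refine Finset.sum_congr rfl fun i0 _ => ?_
  rw [Matrix.diag_apply, Matrix.mul_apply]
  simp only [h2, Finset.sum_mul]
  rw [Finset.sum_comm]

theorem Lbox_eq (F0 F1 F2 : ZMod Q → ZMod Q → ℝ) (N : ℕ) (p0 p1 p2 : ZMod Q) :
    Lbox F0 F1 F2 N p0 p1 p2 = (1 / ((N : ℝ) + N) ^ 3) *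
      (diagonal (hsgn N) * blkm F0 (N + N) p0 p1 * diagonal (hsgn N) * blkm F1 (N + N) p1 p2 *
        diagonal (hsgn N) * blkm F2 (N + N) p2 p0).trace := by
  rw [trace_formula]
  unfold Lbox
  congr 1
  refine Finset.sum_congr rfl fun i0 _ => Finset.sum_congr rfl fun i1 _ =>
    Finset.sum_congr rfl fun i2 _ => ?_
  simp only [blkm]
  ring

/-- node inequality for one box -/
theorem Lbox_le_one (F0 F1 F2 : ZMod Q → ZMod Q → ℝ) {N : ℕ} (hN : 0 < N) (p0 p1 p2 : ZMod Q) :
    |Lbox F0 F1 F2 N p0 p1 p2| ≤ (Real.pi / 2) *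
      (Gam (hsgn N) (abar F0 (N + N) (N + N) p0 p1 +
          abar (fun x y => F1 y x) (N + N) (N + N) p2 p1) +
       Gam (hsgn N) (abar F1 (N + N) (N + N) p1 p2 +
          abar (fun x y => F2 y x) (N + N) (N + N) p0 p2) +
       Gam (hsgn N) (abar F2 (N + N) (N + N) p2 p0 +
          abar (fun x y => F0 y x) (N + N) (N + N) p1 p0)) := by
  have hN' : 0 < N + N := by omega
  have hc : (0 : ℝ) < (N : ℝ) + N := by positivity
  have hnode := node_ineq (blkm F0 (N + N) p0 p1) (blkm F1 (N + N) p1 p2) (blkm F2 (N + N) p2 p0)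
    (hsgn N) (hsgn N) (hsgn N) (hsgn_mul_self N) (hsgn_mul_self N) (hsgn_mul_self N)
  rw [transpose_mul_blkm F0 hN', transpose_mul_blkm F1 hN', transpose_mul_blkm F2 hN',
    mul_transpose_blkm F0 hN', mul_transpose_blkm F1 hN', mul_transpose_blkm F2 hN',
    ← smul_add, ← smul_add, ← smul_add,
    Gam_smul (abar_add_posSemidef _ _ _ _ _ _ _ _) _ (by positivity),
    Gam_smul (abar_add_posSemidef _ _ _ _ _ _ _ _) _ (by positivity),
    Gam_smul (abar_add_posSemidef _ _ _ _ _ _ _ _) _ (by positivity)] at hnode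
  rw [Lbox_eq, abs_mul, abs_of_nonneg (by positivity : (0 : ℝ) ≤ 1 / ((N : ℝ) + N) ^ 3)]
  push_cast at hnode
  rw [div_mul_eq_mul_div, one_mul, div_le_iff₀ (by positivity)]
  refine hnode.trans (le_of_eq ?_)
  rw [add_comm (abar (fun x y => F0 y x) (N + N) (N + N) p1 p0)
    (abar F2 (N + N) (N + N) p2 p0)]
  ring

theorem GW_alt1 (X Z : ZMod Q → ZMod Q → ℝ) (a r : ℕ) (n : ZMod Q) :
    GW X Z a r n = ∑ q : ZMod Q, ∑ p : ZMod Q,
      Gam (hsgn r) (abar X a (r + r) q p + abar Z a (r + r) (n - q - p) p) := by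
  unfold GW
  rw [Finset.sum_comm]
  refine Finset.sum_congr rfl fun q _ => Finset.sum_congr rfl fun p _ => ?_
  rw [sub_right_comm]

theorem GW_alt2 (X Z : ZMod Q → ZMod Q → ℝ) (a r : ℕ) (n : ZMod Q) :
    GW X Z a r n = ∑ p : ZMod Q, ∑ t : ZMod Q,
      Gam (hsgn r) (abar X a (r + r) (n - p - t) p + abar Z a (r + r) t p) := by
  unfold GW
  refine Finset.sum_congr rfl fun p _ => ?_
  rw [← sum_sub_left' (fun q => Gam (hsgn r) (abar X a (r + r) q p +
    abar Z a (r + r) (n - p - q) p)) (n - p)]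
  refine Finset.sum_congr rfl fun t _ => ?_
  rw [sub_sub_cancel]

theorem GW_alt3 (X Z : ZMod Q → ZMod Q → ℝ) (a r : ℕ) (n : ZMod Q) :
    GW X Z a r n = ∑ t : ZMod Q, ∑ q : ZMod Q,
      Gam (hsgn r) (abar X a (r + r) q (n - t - q) + abar Z a (r + r) t (n - t - q)) := by
  rw [GW_alt1, Finset.sum_comm (s := univ) (t := univ)]
  have h : ∀ q : ZMod Q, ∑ p : ZMod Q,
      Gam (hsgn r) (abar X a (r + r) q p + abar Z a (r + r) (n - q - p) p) =
      ∑ t : ZMod Q,
      Gam (hsgn r) (abar X a (r + r) q (n - t - q) + abar Z a (r + r) t (n - t - q)) := by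
    intro q
    rw [← sum_sub_left' (fun p => Gam (hsgn r) (abar X a (r + r) q p +
      abar Z a (r + r) (n - q - p) p)) (n - q)]
    refine Finset.sum_congr rfl fun t _ => ?_
    rw [sub_sub_cancel, sub_right_comm]
  rw [Finset.sum_comm]
  simp only [h]
  rw [Finset.sum_comm]

/-- node inequality summed over all boxes with `p0 + p1 + p2 = n` -/
theorem Lbox_le (F0 F1 F2 : ZMod Q → ZMod Q → ℝ) {N : ℕ} (hN : 0 < N) (n : ZMod Q) :
    ∑ p0 : ZMod Q, ∑ p1 : ZMod Q, |Lbox F0 F1 F2 N p0 p1 (n - p0 - p1)| ≤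
      (Real.pi / 2) *
        (GW F0 (fun x y => F1 y x) (N + N) N n + GW F1 (fun x y => F2 y x) (N + N) N n +
          GW F2 (fun x y => F0 y x) (N + N) N n) := by
  rw [GW_alt1 F0, GW_alt3 F1, GW_alt2 F2, ← Finset.sum_add_distrib, ← Finset.sum_add_distrib,
    Finset.mul_sum]
  refine Finset.sum_le_sum fun p0 _ => ?_
  rw [← Finset.sum_add_distrib, ← Finset.sum_add_distrib, Finset.mul_sum]
  exact Finset.sum_le_sum fun p1 _ => Lbox_le_one F0 F1 F2 hN p0 p1 (n - p0 - p1)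

end Crest.Agent.R072.Lattice
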