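import Crest.Agent.R072.Assembly

/-! R072: lattice theorem on `ℤ²`, real linearised form (from the `ZMod Q` version). -/

set_option autoImplicit false

namespace Crest.Agent.R072.LatticeInt

open Finset Crest.Agent.R072 Crest.Agent.R072.Assembly

theorem vma {Q : ℕ} [NeZero Q] (x : ℤ) (hx : 2 * |x| < Q) : ((x : ℤ) : ZMod Q).valMinAbs = x := by
  rw [ZMod.valMinAbs_spec]
  have h1 := neg_abs_le x
  have h2 := le_abs_self x
  refine ⟨rfl, ?_, ?_⟩ <;> omega

/-- sum over `ZMod Q` of a function supported on small representatives -/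
theorem sum_zmod_eq {Q : ℕ} [NeZero Q] (L : ℕ) (hQ : 2 * L < Q) (u : ZMod Q → ℝ)
    (hu : ∀ x : ZMod Q, (L : ℤ) < |x.valMinAbs| → u x = 0) :
    ∑ x : ZMod Q, u x = ∑ x ∈ Icc (-(L : ℤ)) L, u (x : ZMod Q) := by
  symm
  apply Finset.sum_of_injOn (fun x : ℤ => (x : ZMod Q))
  · intro a ha b hb hab
    simp only [coe_Icc, Set.mem_Icc] at ha hb
    have hab' : ((a : ℤ) : ZMod Q) = (b : ZMod Q) := hab
    have h1 : ((a : ℤ) : ZMod Q).valMinAbs = a := vma a (by
      have : |a| ≤ L := abs_le.2 ⟨ha.1, ha.2⟩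
      have : (2 * L : ℤ) < Q := by exact_mod_cast hQ
      omega)
    have h2 : ((b : ℤ) : ZMod Q).valMinAbs = b := vma b (by
      have : |b| ≤ L := abs_le.2 ⟨hb.1, hb.2⟩
      have : (2 * L : ℤ) < Q := by exact_mod_cast hQ
      omega)
    rw [← h1, ← h2, hab']
  · intro a ha; simp
  · intro x _ hx
    apply hu
    by_contra h
    rw [not_lt] at h
    apply hx
    refine ⟨x.valMinAbs, ?_, ZMod.coe_valMinAbs x⟩
    simpa [abs_le] using h
  · intro i hi; rfl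

theorem sum_zmod_cube {Q : ℕ} [NeZero Q] (L : ℕ) (hQ : 2 * L < Q) (f : ℤ → ℤ → ℝ)
    (hf : ∀ x y, (L : ℤ) < |x| ∨ (L : ℤ) < |y| → f x y = 0) :
    ∑ x : ZMod Q, ∑ y : ZMod Q, |f x.valMinAbs y.valMinAbs| ^ 3 =
      ∑ x ∈ Icc (-(L : ℤ)) L, ∑ y ∈ Icc (-(L : ℤ)) L, |f x y| ^ 3 := by
  have hQ' : (2 * L : ℤ) < Q := by exact_mod_cast hQ
  rw [sum_zmod_eq L hQ]
  · apply Finset.sum_congr rfl
    intro x hx
    rw [mem_Icc] at hx
    rw [vma x (by have : |x| ≤ L := abs_le.2 ⟨hx.1, hx.2⟩; omega)]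
    rw [sum_zmod_eq L hQ]
    · apply Finset.sum_congr rfl
      intro y hy
      rw [mem_Icc] at hy
      rw [vma y (by have : |y| ≤ L := abs_le.2 ⟨hy.1, hy.2⟩; omega)]
    · intro y hy
      rw [hf x _ (Or.inr hy)]; simp
  · intro x hx
    apply Finset.sum_eq_zero
    intro y _
    rw [hf _ _ (Or.inl hx)]; simp

theorem sum_Ioc_min (A B M : ℕ) (G : ℕ → ℝ) (hG : ∀ s, M < s → G s = 0) :
    ∑ s ∈ Ioc (min A M) (min B M), G s = ∑ s ∈ Ioc A B, G s := by
  apply Finset.sum_subset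
  · intro s hs
    rw [mem_Ioc] at hs ⊢
    omega
  · intro s hs hs'
    apply hG
    rw [mem_Ioc] at hs hs'
    by_contra h
    apply hs'
    omega

/-- real version on `ℤ²` with finite supports, linearised -/
theorem lattice_int_real : ∃ C : ℝ, 0 ≤ C ∧ ∀ (n : ℕ), 1 ≤ n → ∀ (f g h : ℤ → ℤ → ℝ) (L : ℕ),
    (∀ x y, (L : ℤ) < |x| ∨ (L : ℤ) < |y| → f x y = 0) →
    (∀ x y, (L : ℤ) < |x| ∨ (L : ℤ) < |y| → g x y = 0) →
    (∀ x y, (L : ℤ) < |x| ∨ (L : ℤ) < |y| → h x y = 0) →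
    ∀ (σ : ℤ → ℤ → Fin n → ℝ) (A B : ℤ → ℤ → Fin n → ℕ),
      (∀ x y j, |σ x y j| ≤ 1) → (∀ x y j, A x y j ≤ B x y j) →
      (∀ x y i j, i ≠ j → B x y i ≤ A x y j ∨ B x y j ≤ A x y i) →
      |∑ x ∈ Icc (-(L : ℤ)) L, ∑ y ∈ Icc (-(L : ℤ)) L, h x y * ∑ j, σ x y j *
        ∑ s ∈ Ioc (A x y j) (B x y j),
          (f (x + s) y * g x (y + s) - f (x - s) y * g x (y - s)) / (s : ℝ)| ≤
        C * Real.sqrt n *
          (∑ x ∈ Icc (-(L : ℤ)) L, ∑ y ∈ Icc (-(L : ℤ)) L, |h x y| ^ 3) ^ (1 / 3 : ℝ) *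
          (∑ x ∈ Icc (-(L : ℤ)) L, ∑ y ∈ Icc (-(L : ℤ)) L, |f x y| ^ 3) ^ (1 / 3 : ℝ) *
          (∑ x ∈ Icc (-(L : ℤ)) L, ∑ y ∈ Icc (-(L : ℤ)) L, |g x y| ^ 3) ^ (1 / 3 : ℝ) := by
  obtain ⟨C, hC, hmain⟩ := lattice_zmod
  refine ⟨C, hC, ?_⟩
  intro n hn f g h L hf hg hh σ A B hσ hAB hdisj
  set Q : ℕ := 8 * L + 8 with hQdef
  have : NeZero Q := ⟨by omega⟩
  have hQ : 2 * L < Q := by omega
  have hQ' : (8 * L : ℤ) + 8 = Q := by rw [hQdef]; push_cast; ring
  have key := hmain Q n hn (fun x y => h x.valMinAbs y.valMinAbs)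
    (fun x1 x2 => f (-x1 - x2).valMinAbs x1.valMinAbs)
    (fun x2 x0 => g x0.valMinAbs (-x0 - x2).valMinAbs)
    (fun x y j => σ x.valMinAbs y.valMinAbs j)
    (fun x y j => min (A x.valMinAbs y.valMinAbs j) (2 * L))
    (fun x y j => min (B x.valMinAbs y.valMinAbs j) (2 * L))
    (fun x y j => hσ _ _ _)
    (fun x y j => min_le_min (hAB _ _ _) le_rfl)
    (fun x y i j hij => by
      rcases hdisj x.valMinAbs y.valMinAbs i j hij with h | h
      · left; exact min_le_min h le_rfl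
      · right; exact min_le_min h le_rfl)
  -- norms
  have nH : ∑ x : ZMod Q, ∑ y : ZMod Q, |h x.valMinAbs y.valMinAbs| ^ 3 =
      ∑ x ∈ Icc (-(L : ℤ)) L, ∑ y ∈ Icc (-(L : ℤ)) L, |h x y| ^ 3 := sum_zmod_cube L hQ h hh
  have nF : ∑ x : ZMod Q, ∑ y : ZMod Q, |f (-x - y).valMinAbs x.valMinAbs| ^ 3 =
      ∑ x ∈ Icc (-(L : ℤ)) L, ∑ y ∈ Icc (-(L : ℤ)) L, |f x y| ^ 3 := by
    rw [← sum_zmod_cube L hQ f hf]
    rw [Finset.sum_comm (f := fun x y : ZMod Q => |f x.valMinAbs y.valMinAbs| ^ 3)]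
    apply Finset.sum_congr rfl
    intro x _
    exact Equiv.sum_comp (Equiv.subLeft (-x))
      (fun y : ZMod Q => |f y.valMinAbs x.valMinAbs| ^ 3)
  have nG : ∑ x : ZMod Q, ∑ y : ZMod Q, |g y.valMinAbs (-y - x).valMinAbs| ^ 3 =
      ∑ x ∈ Icc (-(L : ℤ)) L, ∑ y ∈ Icc (-(L : ℤ)) L, |g x y| ^ 3 := by
    rw [← sum_zmod_cube L hQ g hg]
    rw [Finset.sum_comm]
    apply Finset.sum_congr rfl
    intro x _
    exact Equiv.sum_comp (Equiv.subLeft (-x))
      (fun y : ZMod Q => |g x.valMinAbs y.valMinAbs| ^ 3)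
  simp only [nH, nF, nG] at key
  refine le_trans (le_of_eq ?_) key
  rw [← abs_neg]
  congr 1
  rw [sum_zmod_eq L hQ]
  · rw [← Finset.sum_neg_distrib]
    apply Finset.sum_congr rfl
    intro x hx
    rw [mem_Icc] at hx
    have hxL : |x| ≤ L := abs_le.2 ⟨hx.1, hx.2⟩
    rw [sum_zmod_eq L hQ]
    · rw [← Finset.sum_neg_distrib]
      apply Finset.sum_congr rfl
      intro y hy
      rw [mem_Icc] at hy
      have hyL : |y| ≤ L := abs_le.2 ⟨hy.1, hy.2⟩
      rw [vma x (by omega), vma y (by omega)]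
      rw [← mul_neg, ← Finset.sum_neg_distrib]
      congr 1
      apply Finset.sum_congr rfl
      intro j _
      rw [← mul_neg, ← Finset.sum_neg_distrib]
      congr 1
      rw [← sum_Ioc_min (A x y j) (B x y j) (2 * L)]
      · apply Finset.sum_congr rfl
        intro s hs
        rw [mem_Ioc] at hs
        have hs2 : (s : ℤ) ≤ 2 * L := by
          have : s ≤ 2 * L := le_trans hs.2 (min_le_right _ _)
          exact_mod_cast this
        have e1 : (-(y : ZMod Q) - ((s : ZMod Q) - x - y)) = ((x - s : ℤ) : ZMod Q) := by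
          push_cast; ring
        have e2 : (-(x : ZMod Q) - ((s : ZMod Q) - x - y)) = ((y - s : ℤ) : ZMod Q) := by
          push_cast; ring
        have e3 : (-(y : ZMod Q) - (-(s : ZMod Q) - x - y)) = ((x + s : ℤ) : ZMod Q) := by
          push_cast; ring
        have e4 : (-(x : ZMod Q) - (-(s : ZMod Q) - x - y)) = ((y + s : ℤ) : ZMod Q) := by
          push_cast; ring
        have b1 : 2 * |x - (s : ℤ)| < Q := by
          have : |x - (s : ℤ)| ≤ |x| + |(s : ℤ)| := abs_sub _ _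
          have h2 : |(s : ℤ)| = s := abs_of_nonneg (by positivity)
          omega
        have b2 : 2 * |y - (s : ℤ)| < Q := by
          have : |y - (s : ℤ)| ≤ |y| + |(s : ℤ)| := abs_sub _ _
          have h2 : |(s : ℤ)| = s := abs_of_nonneg (by positivity)
          omega
        have b3 : 2 * |x + (s : ℤ)| < Q := by
          have : |x + (s : ℤ)| ≤ |x| + |(s : ℤ)| := abs_add_le _ _
          have h2 : |(s : ℤ)| = s := abs_of_nonneg (by positivity)
          omega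
        have b4 : 2 * |y + (s : ℤ)| < Q := by
          have : |y + (s : ℤ)| ≤ |y| + |(s : ℤ)| := abs_add_le _ _
          have h2 : |(s : ℤ)| = s := abs_of_nonneg (by positivity)
          omega
        rw [e1, e2, e3, e4, vma _ b1, vma _ b2, vma _ b3, vma _ b4]
        ring
      · intro s hs
        have hs' : (2 * L : ℤ) < s := by exact_mod_cast hs
        have f1 : f (x + s) y = 0 := hf _ _ (Or.inl (lt_abs.2 (Or.inl (by omega))))
        have f2 : f (x - s) y = 0 := hf _ _ (Or.inl (lt_abs.2 (Or.inr (by omega))))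
        rw [f1, f2]; simp
    · intro y hy
      rw [hh _ _ (Or.inr hy)]; simp
  · intro x hx
    apply Finset.sum_eq_zero
    intro y _
    rw [hh _ _ (Or.inl hx)]; simp

end Crest.Agent.R072.LatticeInt
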