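import Crest.Agent.R072.LatIntA

/-! R072: lattice theorem on `ℤ²`, sup form, complex functions. -/

set_option autoImplicit false

namespace Crest.Agent.R072.LatticeInt

open Finset Crest.Agent.R072 Crest.Agent.R072.Assembly

/-- truncated discrete triangular form at `(x, y)`, radii `(A, B]`. -/
noncomputable def Bz (f g : ℤ → ℤ → ℂ) (A B : ℕ) (x y : ℤ) : ℂ :=
  ∑ s ∈ Ioc A B, (f (x + s) y * g x (y + s) - f (x - s) y * g x (y - s)) / (s : ℂ)

/-- real version -/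
noncomputable def Bzr (f g : ℤ → ℤ → ℝ) (A B : ℕ) (x y : ℤ) : ℝ :=
  ∑ s ∈ Ioc A B, (f (x + s) y * g x (y + s) - f (x - s) y * g x (y - s)) / (s : ℝ)

theorem Bzr_zero (f g : ℤ → ℤ → ℝ) (L : ℕ)
    (hf : ∀ x y, (L : ℤ) < |x| ∨ (L : ℤ) < |y| → f x y = 0)
    (hg : ∀ x y, (L : ℤ) < |x| ∨ (L : ℤ) < |y| → g x y = 0) (A B : ℕ) (x y : ℤ)
    (h : (L : ℤ) < |x| ∨ (L : ℤ) < |y|) : Bzr f g A B x y = 0 := by
  apply Finset.sum_eq_zero
  intro s _
  rcases h with h | h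
  · rw [hg x (y + s) (Or.inl h), hg x (y - s) (Or.inl h)]; simp
  · rw [hf (x + s) y (Or.inr h), hf (x - s) y (Or.inr h)]; simp

theorem Bz_zero (f g : ℤ → ℤ → ℂ) (L : ℕ)
    (hf : ∀ x y, (L : ℤ) < |x| ∨ (L : ℤ) < |y| → f x y = 0)
    (hg : ∀ x y, (L : ℤ) < |x| ∨ (L : ℤ) < |y| → g x y = 0) (A B : ℕ) (x y : ℤ)
    (h : (L : ℤ) < |x| ∨ (L : ℤ) < |y|) : Bz f g A B x y = 0 := by
  apply Finset.sum_eq_zero
  intro s _
  rcases h with h | h
  · rw [hg x (y + s) (Or.inl h), hg x (y - s) (Or.inl h)]; simp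
  · rw [hf (x + s) y (Or.inr h), hf (x - s) y (Or.inr h)]; simp

theorem Bz_re (f g : ℤ → ℤ → ℂ) (A B : ℕ) (x y : ℤ) :
    (Bz f g A B x y).re = Bzr (fun x y => (f x y).re) (fun x y => (g x y).re) A B x y -
      Bzr (fun x y => (f x y).im) (fun x y => (g x y).im) A B x y := by
  unfold Bz Bzr
  rw [Complex.re_sum, ← Finset.sum_sub_distrib]
  apply Finset.sum_congr rfl
  intro s _
  rw [Complex.div_natCast_re]
  simp only [Complex.sub_re, Complex.mul_re]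
  ring

theorem Bz_im (f g : ℤ → ℤ → ℂ) (A B : ℕ) (x y : ℤ) :
    (Bz f g A B x y).im = Bzr (fun x y => (f x y).re) (fun x y => (g x y).im) A B x y +
      Bzr (fun x y => (f x y).im) (fun x y => (g x y).re) A B x y := by
  unfold Bz Bzr
  rw [Complex.im_sum, ← Finset.sum_add_distrib]
  apply Finset.sum_congr rfl
  intro s _
  rw [Complex.div_natCast_im]
  simp only [Complex.sub_im, Complex.mul_im]
  ring

/-- box sum -/
noncomputable def boxS (L : ℕ) (u : ℤ → ℤ → ℝ) : ℝ :=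
  ∑ x ∈ Icc (-(L : ℤ)) L, ∑ y ∈ Icc (-(L : ℤ)) L, u x y

theorem boxS_nonneg (L : ℕ) (u : ℤ → ℤ → ℝ) (h : ∀ x y, 0 ≤ u x y) : 0 ≤ boxS L u :=
  Finset.sum_nonneg fun _ _ => Finset.sum_nonneg fun _ _ => h _ _

theorem boxS_mono (L : ℕ) (u v : ℤ → ℤ → ℝ) (h : ∀ x y, u x y ≤ v x y) : boxS L u ≤ boxS L v :=
  Finset.sum_le_sum fun _ _ => Finset.sum_le_sum fun _ _ => h _ _

theorem boxS_add (L : ℕ) (u v : ℤ → ℤ → ℝ) :
    boxS L (fun x y => u x y + v x y) = boxS L u + boxS L v := by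
  unfold boxS
  simp only [Finset.sum_add_distrib]

theorem boxS_mul (L : ℕ) (c : ℝ) (u : ℤ → ℤ → ℝ) :
    boxS L (fun x y => c * u x y) = c * boxS L u := by
  unfold boxS
  simp only [Finset.mul_sum]

/-- arithmetic: from `T ≤ K T^{1/3}` to `T ≤ K^{3/2}` -/
theorem abs_pow_arith {T K : ℝ} (hT : 0 ≤ T) (hK : 0 ≤ K) (h : T ≤ K * T ^ (1 / 3 : ℝ)) :
    T ≤ K ^ (3 / 2 : ℝ) := by
  rcases hT.eq_or_lt with h0 | h0
  · rw [← h0]; positivity
  · have h1 : 0 < T ^ (1 / 3 : ℝ) := Real.rpow_pos_of_pos h0 _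
    have h2 : T ^ (2 / 3 : ℝ) ≤ K := by
      have e : T = T ^ (2 / 3 : ℝ) * T ^ (1 / 3 : ℝ) := by
        rw [← Real.rpow_add h0]; norm_num
      rw [e] at h
      have h3 : T ^ (2 / 3 : ℝ) * T ^ (1 / 3 : ℝ) ≤ K * T ^ (1 / 3 : ℝ) := by
        convert h using 2
        rw [← e]
      exact le_of_mul_le_mul_right h3 h1
    calc T = (T ^ (2 / 3 : ℝ)) ^ (3 / 2 : ℝ) := by
          rw [← Real.rpow_mul hT]; norm_num
      _ ≤ K ^ (3 / 2 : ℝ) := Real.rpow_le_rpow (by positivity) h2 (by norm_num)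

theorem sqrt_mul_eq {a : ℝ} (ha : 0 ≤ a) : Real.sqrt a * a = a ^ (3 / 2 : ℝ) := by
  rcases ha.eq_or_lt with h | h
  · rw [← h]
    rw [Real.zero_rpow (by norm_num)]
    simp
  · rw [Real.sqrt_eq_rpow, show (3 / 2 : ℝ) = 1 / 2 + 1 by norm_num, Real.rpow_add h,
      Real.rpow_one]

theorem real_sup : ∃ C : ℝ, 0 ≤ C ∧ ∀ (n : ℕ), 1 ≤ n → ∀ (f g : ℤ → ℤ → ℝ) (L : ℕ),
    (∀ x y, (L : ℤ) < |x| ∨ (L : ℤ) < |y| → f x y = 0) →
    (∀ x y, (L : ℤ) < |x| ∨ (L : ℤ) < |y| → g x y = 0) →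
    ∀ (A B : ℤ → ℤ → Fin n → ℕ), (∀ x y j, A x y j ≤ B x y j) →
      (∀ x y i j, i ≠ j → B x y i ≤ A x y j ∨ B x y j ≤ A x y i) →
      boxS L (fun x y => (∑ j, |Bzr f g (A x y j) (B x y j) x y|) ^ (3 / 2 : ℝ)) ≤
        (C * Real.sqrt n) ^ (3 / 2 : ℝ) * (boxS L fun x y => |f x y| ^ 3) ^ (1 / 2 : ℝ) *
          (boxS L fun x y => |g x y| ^ 3) ^ (1 / 2 : ℝ) := by
  obtain ⟨C, hC, hmain⟩ := lattice_int_real
  refine ⟨C, hC, ?_⟩
  intro n hn f g L hf hg A B hAB hdisj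
  set S : ℤ → ℤ → ℝ := fun x y => ∑ j, |Bzr f g (A x y j) (B x y j) x y| with hS
  have hS0 : ∀ x y, 0 ≤ S x y := fun x y => Finset.sum_nonneg fun _ _ => abs_nonneg _
  have hSz : ∀ x y, (L : ℤ) < |x| ∨ (L : ℤ) < |y| → S x y = 0 := by
    intro x y h
    apply Finset.sum_eq_zero
    intro j _
    rw [Bzr_zero f g L hf hg _ _ x y h, abs_zero]
  set T : ℝ := boxS L (fun x y => S x y ^ (3 / 2 : ℝ)) with hT
  have hT0 : 0 ≤ T := boxS_nonneg _ _ fun x y => Real.rpow_nonneg (hS0 x y) _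
  have key := hmain n hn f g (fun x y => Real.sqrt (S x y)) L hf hg
    (fun x y h => by simp only [hSz x y h, Real.sqrt_zero])
    (fun x y j => SignType.sign (Bzr f g (A x y j) (B x y j) x y)) A B
    (fun x y j => by
      rcases lt_trichotomy (Bzr f g (A x y j) (B x y j) x y) 0 with h | h | h
      · simp [sign_neg h]
      · simp [h]
      · simp [sign_pos h]) hAB hdisj
  have e1 : ∑ x ∈ Icc (-(L : ℤ)) L, ∑ y ∈ Icc (-(L : ℤ)) L, Real.sqrt (S x y) *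
      ∑ j, ((SignType.sign (Bzr f g (A x y j) (B x y j) x y) : SignType) : ℝ) *
        ∑ s ∈ Ioc (A x y j) (B x y j),
          (f (x + s) y * g x (y + s) - f (x - s) y * g x (y - s)) / (s : ℝ) = T := by
    rw [hT]; unfold boxS
    apply Finset.sum_congr rfl; intro x _
    apply Finset.sum_congr rfl; intro y _
    have : ∑ j, ((SignType.sign (Bzr f g (A x y j) (B x y j) x y) : SignType) : ℝ) *
        ∑ s ∈ Ioc (A x y j) (B x y j),
          (f (x + s) y * g x (y + s) - f (x - s) y * g x (y - s)) / (s : ℝ) = S x y := by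
      rw [hS]
      apply Finset.sum_congr rfl; intro j _
      exact sign_mul_self _
    rw [this]
    exact sqrt_mul_eq (hS0 x y)
  have e2 : ∑ x ∈ Icc (-(L : ℤ)) L, ∑ y ∈ Icc (-(L : ℤ)) L, |Real.sqrt (S x y)| ^ 3 = T := by
    rw [hT]; unfold boxS
    apply Finset.sum_congr rfl; intro x _
    apply Finset.sum_congr rfl; intro y _
    rw [abs_of_nonneg (Real.sqrt_nonneg _), Real.sqrt_eq_rpow, ← Real.rpow_natCast,
      ← Real.rpow_mul (hS0 x y)]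
    norm_num
  rw [e1, e2, abs_of_nonneg hT0] at key
  set Nf : ℝ := boxS L fun x y => |f x y| ^ 3 with hNf
  set Ng : ℝ := boxS L fun x y => |g x y| ^ 3 with hNg
  have hNf0 : 0 ≤ Nf := boxS_nonneg _ _ fun x y => by positivity
  have hNg0 : 0 ≤ Ng := boxS_nonneg _ _ fun x y => by positivity
  have key' : T ≤ (C * Real.sqrt n * Nf ^ (1 / 3 : ℝ) * Ng ^ (1 / 3 : ℝ)) * T ^ (1 / 3 : ℝ) := by
    calc T ≤ _ := key
      _ = _ := by
        change C * Real.sqrt n * T ^ (1 / 3 : ℝ) * Nf ^ (1 / 3 : ℝ) * Ng ^ (1 / 3 : ℝ) = _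
        ring
  have h3 := abs_pow_arith hT0 (by positivity) key'
  refine h3.trans (le_of_eq ?_)
  rw [Real.mul_rpow (by positivity) (by positivity), Real.mul_rpow (by positivity) (by positivity),
    ← Real.rpow_mul hNf0, ← Real.rpow_mul hNg0]
  norm_num

theorem four_pow (a b c d : ℝ) (ha : 0 ≤ a) (hb : 0 ≤ b) (hc : 0 ≤ c) (hd : 0 ≤ d) :
    (a + b + c + d) ^ (3 / 2 : ℝ) ≤
      2 * (a ^ (3 / 2 : ℝ) + b ^ (3 / 2 : ℝ) + c ^ (3 / 2 : ℝ) + d ^ (3 / 2 : ℝ)) := by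
  have h := Real.rpow_sum_le_const_mul_sum_rpow (s := (univ : Finset (Fin 4)))
    (f := ![a, b, c, d]) (p := 3 / 2) (by norm_num)
  have h4 : ((4 : ℝ)) ^ ((3 / 2 : ℝ) - 1) = 2 := by
    rw [show (4 : ℝ) = 2 ^ (2 : ℝ) by norm_num, ← Real.rpow_mul (by norm_num)]
    norm_num
  simp only [Fin.sum_univ_four, card_univ, Fintype.card_fin, Nat.cast_ofNat, Matrix.cons_val_zero,
    Matrix.cons_val_one, Matrix.cons_val,
    abs_of_nonneg ha, abs_of_nonneg hb, abs_of_nonneg hc, abs_of_nonneg hd] at h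
  rw [h4] at h
  exact h

theorem complex_sup : ∃ C : ℝ, 0 ≤ C ∧ ∀ (n : ℕ), 1 ≤ n → ∀ (f g : ℤ → ℤ → ℂ) (L : ℕ),
    (∀ x y, (L : ℤ) < |x| ∨ (L : ℤ) < |y| → f x y = 0) →
    (∀ x y, (L : ℤ) < |x| ∨ (L : ℤ) < |y| → g x y = 0) →
    ∀ (A B : ℤ → ℤ → Fin n → ℕ), (∀ x y j, A x y j ≤ B x y j) →
      (∀ x y i j, i ≠ j → B x y i ≤ A x y j ∨ B x y j ≤ A x y i) →
      boxS L (fun x y => (∑ j, ‖Bz f g (A x y j) (B x y j) x y‖) ^ (3 / 2 : ℝ)) ≤
        (C * Real.sqrt n) ^ (3 / 2 : ℝ) * (boxS L fun x y => ‖f x y‖ ^ 3) ^ (1 / 2 : ℝ) *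
          (boxS L fun x y => ‖g x y‖ ^ 3) ^ (1 / 2 : ℝ) := by
  obtain ⟨C, hC, hmain⟩ := real_sup
  refine ⟨4 * C, by positivity, ?_⟩
  intro n hn f g L hf hg A B hAB hdisj
  have main : ∀ (f' g' : ℤ → ℤ → ℝ), (∀ x y, |f' x y| ≤ ‖f x y‖) → (∀ x y, |g' x y| ≤ ‖g x y‖) →
      boxS L (fun x y => (∑ j, |Bzr f' g' (A x y j) (B x y j) x y|) ^ (3 / 2 : ℝ)) ≤
        (C * Real.sqrt n) ^ (3 / 2 : ℝ) * (boxS L fun x y => ‖f x y‖ ^ 3) ^ (1 / 2 : ℝ) *
          (boxS L fun x y => ‖g x y‖ ^ 3) ^ (1 / 2 : ℝ) := by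
    intro f' g' hf' hg'
    refine (hmain n hn f' g' L ?_ ?_ A B hAB hdisj).trans ?_
    · intro x y h
      have := hf' x y
      rw [hf x y h, norm_zero] at this
      exact abs_eq_zero.1 (le_antisymm this (abs_nonneg _))
    · intro x y h
      have := hg' x y
      rw [hg x y h, norm_zero] at this
      exact abs_eq_zero.1 (le_antisymm this (abs_nonneg _))
    · have q1 : (boxS L fun x y => |f' x y| ^ 3) ≤ boxS L fun x y => ‖f x y‖ ^ 3 :=
        boxS_mono _ _ _ fun x y => pow_le_pow_left₀ (abs_nonneg _) (hf' x y) 3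
      have q2 : (boxS L fun x y => |g' x y| ^ 3) ≤ boxS L fun x y => ‖g x y‖ ^ 3 :=
        boxS_mono _ _ _ fun x y => pow_le_pow_left₀ (abs_nonneg _) (hg' x y) 3
      have p1 : 0 ≤ boxS L fun x y => |f' x y| ^ 3 := boxS_nonneg _ _ fun x y => by positivity
      have p2 : 0 ≤ boxS L fun x y => |g' x y| ^ 3 := boxS_nonneg _ _ fun x y => by positivity
      have p3 : 0 ≤ boxS L fun x y => ‖f x y‖ ^ 3 := boxS_nonneg _ _ fun x y => by positivity
      gcongr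
  set R : ℝ := (C * Real.sqrt n) ^ (3 / 2 : ℝ) * (boxS L fun x y => ‖f x y‖ ^ 3) ^ (1 / 2 : ℝ) *
          (boxS L fun x y => ‖g x y‖ ^ 3) ^ (1 / 2 : ℝ) with hR
  set fr : ℤ → ℤ → ℝ := fun x y => (f x y).re
  set fi : ℤ → ℤ → ℝ := fun x y => (f x y).im
  set gr : ℤ → ℤ → ℝ := fun x y => (g x y).re
  set gi : ℤ → ℤ → ℝ := fun x y => (g x y).im
  have hfr : ∀ x y, |fr x y| ≤ ‖f x y‖ := fun x y => Complex.abs_re_le_norm _
  have hfi : ∀ x y, |fi x y| ≤ ‖f x y‖ := fun x y => Complex.abs_im_le_norm _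
  have hgr : ∀ x y, |gr x y| ≤ ‖g x y‖ := fun x y => Complex.abs_re_le_norm _
  have hgi : ∀ x y, |gi x y| ≤ ‖g x y‖ := fun x y => Complex.abs_im_le_norm _
  have step : boxS L (fun x y => (∑ j, ‖Bz f g (A x y j) (B x y j) x y‖) ^ (3 / 2 : ℝ)) ≤
      2 * (R + R + R + R) := by
    calc boxS L (fun x y => (∑ j, ‖Bz f g (A x y j) (B x y j) x y‖) ^ (3 / 2 : ℝ))
        ≤ boxS L (fun x y => 2 * (
            (∑ j, |Bzr fr gr (A x y j) (B x y j) x y|) ^ (3 / 2 : ℝ) +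
            (∑ j, |Bzr fi gi (A x y j) (B x y j) x y|) ^ (3 / 2 : ℝ) +
            (∑ j, |Bzr fr gi (A x y j) (B x y j) x y|) ^ (3 / 2 : ℝ) +
            (∑ j, |Bzr fi gr (A x y j) (B x y j) x y|) ^ (3 / 2 : ℝ))) := by
          apply boxS_mono
          intro x y
          refine le_trans (Real.rpow_le_rpow (Finset.sum_nonneg fun _ _ => norm_nonneg _) ?_
            (by norm_num)) (four_pow _ _ _ _ (Finset.sum_nonneg fun _ _ => abs_nonneg _)
            (Finset.sum_nonneg fun _ _ => abs_nonneg _) (Finset.sum_nonneg fun _ _ => abs_nonneg _)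
            (Finset.sum_nonneg fun _ _ => abs_nonneg _))
          rw [← Finset.sum_add_distrib, ← Finset.sum_add_distrib, ← Finset.sum_add_distrib]
          apply Finset.sum_le_sum
          intro j _
          refine (Complex.norm_le_abs_re_add_abs_im _).trans ?_
          rw [Bz_re, Bz_im]
          have t1 := abs_sub (Bzr fr gr (A x y j) (B x y j) x y)
            (Bzr fi gi (A x y j) (B x y j) x y)
          have t2 := abs_add_le (Bzr fr gi (A x y j) (B x y j) x y)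
            (Bzr fi gr (A x y j) (B x y j) x y)
          linarith
      _ = 2 * (boxS L (fun x y => (∑ j, |Bzr fr gr (A x y j) (B x y j) x y|) ^ (3 / 2 : ℝ)) +
            boxS L (fun x y => (∑ j, |Bzr fi gi (A x y j) (B x y j) x y|) ^ (3 / 2 : ℝ)) +
            boxS L (fun x y => (∑ j, |Bzr fr gi (A x y j) (B x y j) x y|) ^ (3 / 2 : ℝ)) +
            boxS L (fun x y => (∑ j, |Bzr fi gr (A x y j) (B x y j) x y|) ^ (3 / 2 : ℝ))) := by
          rw [boxS_mul, boxS_add, boxS_add, boxS_add]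
      _ ≤ 2 * (R + R + R + R) := by
          have m1 := main fr gr hfr hgr
          have m2 := main fi gi hfi hgi
          have m3 := main fr gi hfr hgi
          have m4 := main fi gr hfi hgr
          gcongr
  refine step.trans (le_of_eq ?_)
  have e4 : (4 * C * Real.sqrt n) ^ (3 / 2 : ℝ) = 8 * (C * Real.sqrt n) ^ (3 / 2 : ℝ) := by
    rw [mul_assoc, Real.mul_rpow (by norm_num) (by positivity)]
    congr 1
    rw [show (4 : ℝ) = 2 ^ (2 : ℝ) by norm_num, ← Real.rpow_mul (by norm_num)]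
    norm_num
  rw [e4, hR]
  ring

open scoped ENNReal in
theorem tsum_box (L : ℕ) (u : ℤ → ℤ → ℝ) (hu : ∀ x y, 0 ≤ u x y)
    (hz : ∀ x y, (L : ℤ) < |x| ∨ (L : ℤ) < |y| → u x y = 0) :
    ∑' z : ℤ × ℤ, ENNReal.ofReal (u z.1 z.2) = ENNReal.ofReal (boxS L u) := by
  rw [tsum_eq_sum (s := Icc (-(L : ℤ)) L ×ˢ Icc (-(L : ℤ)) L)]
  · rw [Finset.sum_product]
    unfold boxS
    rw [ENNReal.ofReal_sum_of_nonneg (fun x _ => Finset.sum_nonneg fun y _ => hu x y)]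
    apply Finset.sum_congr rfl; intro x _
    rw [ENNReal.ofReal_sum_of_nonneg (fun y _ => hu x y)]
  · intro z hz'
    rw [mem_product, mem_Icc, mem_Icc, ← abs_le, ← abs_le, not_and_or, not_le, not_le] at hz'
    rw [hz _ _ hz', ENNReal.ofReal_zero]

open scoped ENNReal in
/-- **Lattice theorem on `ℤ²`, complex, sup form.** -/
theorem lattice_int : ∃ C : ℝ, 0 ≤ C ∧ ∀ (n : ℕ), 1 ≤ n → ∀ (f g : ℤ → ℤ → ℂ),
    (∃ L : ℕ, ∀ x y, (L : ℤ) < |x| ∨ (L : ℤ) < |y| → f x y = 0 ∧ g x y = 0) →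
    ∀ (A B : ℤ → ℤ → Fin n → ℕ), (∀ x y j, A x y j ≤ B x y j) →
      (∀ x y i j, i ≠ j → B x y i ≤ A x y j ∨ B x y j ≤ A x y i) →
      ∑' z : ℤ × ℤ, (∑ j, ‖Bz f g (A z.1 z.2 j) (B z.1 z.2 j) z.1 z.2‖ₑ) ^ (3 / 2 : ℝ) ≤
        ENNReal.ofReal (C * Real.sqrt n) ^ (3 / 2 : ℝ) *
          (∑' z : ℤ × ℤ, ‖f z.1 z.2‖ₑ ^ (3 : ℝ)) ^ (1 / 2 : ℝ) *
          (∑' z : ℤ × ℤ, ‖g z.1 z.2‖ₑ ^ (3 : ℝ)) ^ (1 / 2 : ℝ) := by
  obtain ⟨C, hC, hmain⟩ := complex_sup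
  refine ⟨C, hC, ?_⟩
  intro n hn f g ⟨L, hL⟩ A B hAB hdisj
  have key := hmain n hn f g L (fun x y h => (hL x y h).1) (fun x y h => (hL x y h).2) A B hAB
    hdisj
  have cube : ∀ (u : ℤ → ℤ → ℂ), (∀ x y, (L : ℤ) < |x| ∨ (L : ℤ) < |y| → u x y = 0) →
      ∑' z : ℤ × ℤ, ‖u z.1 z.2‖ₑ ^ (3 : ℝ) = ENNReal.ofReal (boxS L fun x y => ‖u x y‖ ^ 3) := by
    intro u hu
    rw [← tsum_box L (fun x y => ‖u x y‖ ^ 3) (fun x y => by positivity)
      (fun x y h => by rw [hu x y h]; simp)]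
    apply tsum_congr
    intro z
    rw [← ofReal_norm, ENNReal.ofReal_rpow_of_nonneg (norm_nonneg _) (by norm_num)]
    norm_num
  have lhs : ∑' z : ℤ × ℤ, (∑ j, ‖Bz f g (A z.1 z.2 j) (B z.1 z.2 j) z.1 z.2‖ₑ) ^ (3 / 2 : ℝ) =
      ENNReal.ofReal (boxS L
        (fun x y => (∑ j, ‖Bz f g (A x y j) (B x y j) x y‖) ^ (3 / 2 : ℝ))) := by
    rw [← tsum_box L _ (fun x y => Real.rpow_nonneg (Finset.sum_nonneg fun _ _ => norm_nonneg _) _)]
    · apply tsum_congr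
      intro z
      rw [← ENNReal.ofReal_rpow_of_nonneg (Finset.sum_nonneg fun _ _ => norm_nonneg _)
        (by norm_num), ENNReal.ofReal_sum_of_nonneg (fun _ _ => norm_nonneg _)]
      simp only [ofReal_norm]
    · intro x y h
      have : ∑ j, ‖Bz f g (A x y j) (B x y j) x y‖ = 0 := by
        apply Finset.sum_eq_zero
        intro j _
        rw [Bz_zero f g L (fun x y h => (hL x y h).1) (fun x y h => (hL x y h).2) _ _ x y h,
          norm_zero]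
      rw [this]
      norm_num
  rw [lhs, cube f (fun x y h => (hL x y h).1), cube g (fun x y h => (hL x y h).2)]
  have n1 : 0 ≤ boxS L fun x y => ‖f x y‖ ^ 3 := boxS_nonneg _ _ fun x y => by positivity
  have n2 : 0 ≤ boxS L fun x y => ‖g x y‖ ^ 3 := boxS_nonneg _ _ fun x y => by positivity
  rw [ENNReal.ofReal_rpow_of_nonneg (by positivity) (by norm_num),
    ENNReal.ofReal_rpow_of_nonneg n1 (by norm_num), ENNReal.ofReal_rpow_of_nonneg n2 (by norm_num),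
    ← ENNReal.ofReal_mul (by positivity), ← ENNReal.ofReal_mul (by positivity)]
  exact ENNReal.ofReal_le_ofReal key

end Crest.Agent.R072.LatticeInt
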