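import Crest.Agent.R072.LatA

/-! R072: `Lbox_le` (node inequality summed over all boxes), helper952. -/

set_option autoImplicit false
set_option linter.unusedSectionVars false

namespace Crest.Agent.R072.Lattice

open Matrix Finset Crest.Agent.R072
open scoped MatrixOrder

variable {Q : ℕ} [NeZero Q]

/-- normalised box matrix -/
noncomputable def boxMat (F : ZMod Q → ZMod Q → ℝ) (r : ℕ) (p q : ZMod Q) :
    Matrix (Fin r) (Fin r) ℝ :=
  fun i j => (1 / (r : ℝ)) * F (p + ((i : ℕ) : ZMod Q)) (q + ((j : ℕ) : ZMod Q))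

theorem boxMat_mul_transpose (F : ZMod Q → ZMod Q → ℝ) (r : ℕ) (p q : ZMod Q) :
    boxMat F r p q * (boxMat F r p q)ᵀ = abar (fun x y => F y x) r r q p := by
  ext i j
  simp only [boxMat, abar, Matrix.mul_apply, Matrix.transpose_apply]
  rw [Finset.sum_range, Finset.mul_sum]
  refine Finset.sum_congr rfl fun k _ => ?_
  ring

theorem transpose_mul_boxMat (F : ZMod Q → ZMod Q → ℝ) (r : ℕ) (p q : ZMod Q) :
    (boxMat F r p q)ᵀ * boxMat F r p q = abar F r r p q := by
  ext i j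
  simp only [boxMat, abar, Matrix.mul_apply, Matrix.transpose_apply]
  rw [Finset.sum_range, Finset.mul_sum]
  refine Finset.sum_congr rfl fun k _ => ?_
  ring

theorem Lbox_eq_trace (F0 F1 F2 : ZMod Q → ZMod Q → ℝ) (N : ℕ) (p0 p1 p2 : ZMod Q) :
    Lbox F0 F1 F2 N p0 p1 p2 =
      (diagonal (hsgn N) * boxMat F0 (N + N) p0 p1 * diagonal (hsgn N) *
        boxMat F1 (N + N) p1 p2 * diagonal (hsgn N) * boxMat F2 (N + N) p2 p0).trace := by
  unfold Lbox
  rw [Matrix.trace, Finset.mul_sum]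
  refine Finset.sum_congr rfl fun i0 _ => ?_
  rw [Matrix.diag_apply, Matrix.mul_apply]
  have h1 : ∀ i2 : Fin (N + N), (diagonal (hsgn N) * boxMat F0 (N + N) p0 p1 *
      diagonal (hsgn N) * boxMat F1 (N + N) p1 p2 * diagonal (hsgn N)) i0 i2 =
      ∑ i1 : Fin (N + N), hsgn N i0 * boxMat F0 (N + N) p0 p1 i0 i1 * hsgn N i1 *
        boxMat F1 (N + N) p1 p2 i1 i2 * hsgn N i2 := by
    intro i2
    rw [Matrix.mul_diagonal, Matrix.mul_apply, Finset.sum_mul]
    refine Finset.sum_congr rfl fun i1 _ => ?_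
    rw [Matrix.mul_diagonal, Matrix.diagonal_mul]
  simp_rw [h1, Finset.sum_mul, Finset.mul_sum]
  rw [Finset.sum_comm]
  refine Finset.sum_congr rfl fun i2 _ => Finset.sum_congr rfl fun i1 _ => ?_
  simp only [boxMat]
  push_cast
  ring

theorem Lbox_le_node (F0 F1 F2 : ZMod Q → ZMod Q → ℝ) (N : ℕ) (p0 p1 p2 : ZMod Q) :
    |Lbox F0 F1 F2 N p0 p1 p2| ≤ (Real.pi / 2) *
      (Gam (hsgn N) (abar F0 (N + N) (N + N) p0 p1 +
          abar (fun x y => F1 y x) (N + N) (N + N) p2 p1) +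
        Gam (hsgn N) (abar F1 (N + N) (N + N) p1 p2 +
          abar (fun x y => F2 y x) (N + N) (N + N) p0 p2) +
        Gam (hsgn N) (abar F2 (N + N) (N + N) p2 p0 +
          abar (fun x y => F0 y x) (N + N) (N + N) p1 p0)) := by
  have h := node_ineq (boxMat F0 (N + N) p0 p1) (boxMat F1 (N + N) p1 p2)
    (boxMat F2 (N + N) p2 p0) (hsgn N) (hsgn N) (hsgn N) (hsgn_mul_self N) (hsgn_mul_self N)
    (hsgn_mul_self N)
  rw [← Lbox_eq_trace, boxMat_mul_transpose, boxMat_mul_transpose, boxMat_mul_transpose,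
    transpose_mul_boxMat, transpose_mul_boxMat, transpose_mul_boxMat] at h
  refine h.trans (le_of_eq ?_)
  rw [add_comm (abar (fun x y => F0 y x) (N + N) (N + N) p1 p0)]
  ring

/-- node inequality summed over all boxes with `p0 + p1 + p2 = n` -/
theorem Lbox_le' (F0 F1 F2 : ZMod Q → ZMod Q → ℝ) {N : ℕ} (_hN : 0 < N) (n : ZMod Q) :
    ∑ p0 : ZMod Q, ∑ p1 : ZMod Q, |Lbox F0 F1 F2 N p0 p1 (n - p0 - p1)| ≤
      (Real.pi / 2) *
        (GW F0 (fun x y => F1 y x) (N + N) N n + GW F1 (fun x y => F2 y x) (N + N) N n +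
          GW F2 (fun x y => F0 y x) (N + N) N n) := by
  have h1 : ∑ p0 : ZMod Q, ∑ p1 : ZMod Q, |Lbox F0 F1 F2 N p0 p1 (n - p0 - p1)| ≤
      ∑ p0 : ZMod Q, ∑ p1 : ZMod Q, (Real.pi / 2) *
      (Gam (hsgn N) (abar F0 (N + N) (N + N) p0 p1 +
          abar (fun x y => F1 y x) (N + N) (N + N) (n - p0 - p1) p1) +
        Gam (hsgn N) (abar F1 (N + N) (N + N) p1 (n - p0 - p1) +
          abar (fun x y => F2 y x) (N + N) (N + N) p0 (n - p0 - p1)) +
        Gam (hsgn N) (abar F2 (N + N) (N + N) (n - p0 - p1) p0 +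
          abar (fun x y => F0 y x) (N + N) (N + N) p1 p0)) :=
    Finset.sum_le_sum fun p0 _ => Finset.sum_le_sum fun p1 _ => Lbox_le_node F0 F1 F2 N p0 p1 _
  refine h1.trans (le_of_eq ?_)
  simp_rw [← Finset.mul_sum, Finset.sum_add_distrib]
  congr 1
  refine congrArg₂ (· + ·) (congrArg₂ (· + ·) ?_ ?_) ?_
  · unfold GW
    rw [Finset.sum_comm]
    refine Finset.sum_congr rfl fun p _ => Finset.sum_congr rfl fun q _ => ?_
    rw [sub_right_comm]
  · unfold GW
    rw [Finset.sum_comm (γ := ZMod Q)]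
    conv_rhs => rw [Finset.sum_comm]
    refine Finset.sum_congr rfl fun p1 _ => ?_
    rw [← Equiv.sum_comp (Equiv.subLeft (n - p1))
      (fun p2 => Gam (hsgn N) (abar F1 (N + N) (N + N) p1 p2 +
        abar (fun x y => F2 y x) (N + N) (N + N) (n - p2 - p1) p2))]
    refine Finset.sum_congr rfl fun p0 _ => ?_
    rw [Equiv.subLeft_apply]
    have e1 : n - p1 - p0 = n - p0 - p1 := sub_right_comm _ _ _
    have e2 : n - (n - p0 - p1) - p1 = p0 := by ring
    rw [e1, e2]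
  · unfold GW
    refine Finset.sum_congr rfl fun p0 _ => ?_
    rw [← Equiv.sum_comp (Equiv.subLeft (n - p0))
      (fun p2 => Gam (hsgn N) (abar F2 (N + N) (N + N) p2 p0 +
        abar (fun x y => F0 y x) (N + N) (N + N) (n - p0 - p2) p0))]
    refine Finset.sum_congr rfl fun p1 _ => ?_
    rw [Equiv.subLeft_apply]
    have e2 : n - p0 - (n - p0 - p1) = p1 := by ring
    rw [e2]

end Crest.Agent.R072.Lattice
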