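import Crest.Agent.R072.LatA
import Crest.Agent.R072.LatLbox
import Crest.Agent.R072.LatB

/-! R072: lattice potentials on `ZMod Q` (blueprint part 2, (C1)–(C6)).
Definitions and part 1 in `LatA`, `Lbox_le` (constant `π/2`) in `LatA`/`LatLbox`, part 2
(`gap_shift`, `W_mixed`, `gap_pot`) in `LatB`. -/
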