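import Crest.Agent.R072.LatIntB

/-! R072: lattice theorem on `ℤ²` for complex functions, sup form.
Proofs in `LatIntA.lean` (real linearised form from `ZMod Q`) and `LatIntB.lean` (sup form, complex):
`lattice_int_real`, `Bz`, `lattice_int`. -/
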