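import Crest.Agent.R072.Defs

/-! R072: properties of `phi M = tr M^{3/2}`, part 1 (task T1). -/

set_option autoImplicit false

namespace Crest.Agent.R072

open Matrix
open scoped MatrixOrder

variable {n m : Type*} [Fintype n] [DecidableEq n] [Fintype m] [DecidableEq m]

theorem msqrt_posSemidef (M : Matrix n n ℝ) : (CFC.sqrt M).PosSemidef :=
  (CFC.sqrt_nonneg M).posSemidef

theorem msqrt_mul_self {M : Matrix n n ℝ} (hM : M.PosSemidef) : CFC.sqrt M * CFC.sqrt M = M :=
  CFC.sqrt_mul_sqrt_self M hM.nonneg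

theorem msqrt_unique {M B : Matrix n n ℝ} (hB : B.PosSemidef) (h : B * B = M) :
    CFC.sqrt M = B := CFC.sqrt_unique h hB.nonneg

theorem msqrt_conjTranspose (M : Matrix n n ℝ) : (CFC.sqrt M)ᴴ = CFC.sqrt M :=
  (msqrt_posSemidef M).1

theorem phi_eq_cube {M : Matrix n n ℝ} (hM : M.PosSemidef) :
    phi M = (CFC.sqrt M * CFC.sqrt M * CFC.sqrt M).trace := by
  unfold phi
  rw [msqrt_mul_self hM, Matrix.trace_mul_comm]

theorem phi_nonneg {M : Matrix n n ℝ} (hM : M.PosSemidef) : 0 ≤ phi M := by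
  rw [phi_eq_cube hM]
  have h := (msqrt_posSemidef M).mul_mul_conjTranspose_same (CFC.sqrt M)
  rw [msqrt_conjTranspose] at h
  exact h.trace_nonneg

theorem phi_zero : phi (0 : Matrix n n ℝ) = 0 := by
  simp [phi]

theorem msqrt_smul {M : Matrix n n ℝ} (hM : M.PosSemidef) {c : ℝ} (hc : 0 ≤ c) :
    CFC.sqrt (c • M) = Real.sqrt c • CFC.sqrt M := by
  apply msqrt_unique ((msqrt_posSemidef M).smul (Real.sqrt_nonneg c))
  rw [Matrix.smul_mul, Matrix.mul_smul, smul_smul, Real.mul_self_sqrt hc, msqrt_mul_self hM]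

theorem phi_smul {M : Matrix n n ℝ} (hM : M.PosSemidef) {c : ℝ} (hc : 0 ≤ c) :
    phi (c • M) = c * Real.sqrt c * phi M := by
  unfold phi
  rw [msqrt_smul hM hc, Matrix.smul_mul, Matrix.mul_smul, smul_smul, Matrix.trace_smul,
    smul_eq_mul, mul_comm (Real.sqrt c) c]

theorem phi_submatrix_equiv (e : m ≃ n) {M : Matrix n n ℝ} (hM : M.PosSemidef) :
    phi (M.submatrix e e) = phi M := by
  have h : CFC.sqrt (M.submatrix e e) = (CFC.sqrt M).submatrix e e := by
    apply msqrt_unique ((msqrt_posSemidef M).submatrix e)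
    rw [Matrix.submatrix_mul_equiv, msqrt_mul_self hM]
  unfold phi
  rw [h, Matrix.submatrix_mul_equiv]
  simp only [Matrix.trace, Matrix.diag_apply, Matrix.submatrix_apply]
  exact Equiv.sum_comp e (fun j => (CFC.sqrt M * M) j j)

theorem phi_fromBlocks {A : Matrix n n ℝ} {D : Matrix m m ℝ} (hA : A.PosSemidef)
    (hD : D.PosSemidef) : phi (fromBlocks A 0 0 D) = phi A + phi D := by
  have hpsd : ∀ {A : Matrix n n ℝ} {D : Matrix m m ℝ}, A.PosSemidef → D.PosSemidef →
      (fromBlocks A 0 0 D).PosSemidef := by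
    intro A D hA hD
    have h1 : fromBlocks A 0 0 D = fromBlocks (CFC.sqrt A) 0 0 (CFC.sqrt D) *
        (fromBlocks (CFC.sqrt A) 0 0 (CFC.sqrt D))ᴴ := by
      rw [fromBlocks_conjTranspose, msqrt_conjTranspose, msqrt_conjTranspose,
        conjTranspose_zero, conjTranspose_zero, fromBlocks_multiply]
      simp [msqrt_mul_self hA, msqrt_mul_self hD]
    rw [h1]
    exact posSemidef_self_mul_conjTranspose _
  have h : CFC.sqrt (fromBlocks A 0 0 D) = fromBlocks (CFC.sqrt A) 0 0 (CFC.sqrt D) := by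
    apply msqrt_unique (hpsd (msqrt_posSemidef A) (msqrt_posSemidef D))
    rw [fromBlocks_multiply]
    simp [msqrt_mul_self hA, msqrt_mul_self hD]
  unfold phi
  rw [h, fromBlocks_multiply]
  simp [Matrix.trace, Fintype.sum_sum_type]

/-- `phi` of a matrix indexed by a one-element type. -/
theorem phi_unique [Unique n] {M : Matrix n n ℝ} (hM : 0 ≤ M default default) :
    phi M = M default default * Real.sqrt (M default default) := by
  have hM1 : M = M default default • (1 : Matrix n n ℝ) := by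
    ext i j
    rw [Unique.eq_default i, Unique.eq_default j]
    simp
  have h : CFC.sqrt M = Real.sqrt (M default default) • (1 : Matrix n n ℝ) := by
    apply msqrt_unique (Matrix.PosSemidef.one.smul (Real.sqrt_nonneg _))
    rw [Matrix.smul_mul, Matrix.mul_smul, smul_smul, Real.mul_self_sqrt hM, Matrix.mul_one]
    exact hM1.symm
  unfold phi
  rw [h, Matrix.smul_mul, Matrix.one_mul, Matrix.trace_smul, Matrix.trace, smul_eq_mul]
  simp [mul_comm]

theorem phi_conj_sign {M : Matrix n n ℝ} (hM : M.PosSemidef) (u : n → ℝ)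
    (hu : ∀ i, u i * u i = 1) : phi (diagonal u * M * diagonal u) = phi M := by
  have hU : diagonal u * diagonal u = (1 : Matrix n n ℝ) := by
    rw [Matrix.diagonal_mul_diagonal, ← Matrix.diagonal_one]
    congr 1
    funext i
    exact hu i
  have hUH : (diagonal u)ᴴ = diagonal u := by
    rw [diagonal_conjTranspose]
    congr 1
  have h : CFC.sqrt (diagonal u * M * diagonal u) = diagonal u * CFC.sqrt M * diagonal u := by
    apply msqrt_unique
    · have := (msqrt_posSemidef M).mul_mul_conjTranspose_same (diagonal u)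
      rwa [hUH] at this
    · calc diagonal u * CFC.sqrt M * diagonal u * (diagonal u * CFC.sqrt M * diagonal u)
          = diagonal u * CFC.sqrt M * (diagonal u * diagonal u) * CFC.sqrt M * diagonal u := by
            simp only [Matrix.mul_assoc]
        _ = diagonal u * (CFC.sqrt M * CFC.sqrt M) * diagonal u := by
            rw [hU, Matrix.mul_one]; simp only [Matrix.mul_assoc]
        _ = _ := by rw [msqrt_mul_self hM]
  unfold phi
  rw [h]
  calc (diagonal u * CFC.sqrt M * diagonal u * (diagonal u * M * diagonal u)).trace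
      = (diagonal u * (CFC.sqrt M * (diagonal u * diagonal u) * M * diagonal u)).trace := by
        simp only [Matrix.mul_assoc]
    _ = ((CFC.sqrt M * (diagonal u * diagonal u) * M * diagonal u) * diagonal u).trace := by
        rw [Matrix.trace_mul_comm]
    _ = (CFC.sqrt M * (diagonal u * diagonal u) * M * (diagonal u * diagonal u)).trace := by
        simp only [Matrix.mul_assoc]
    _ = _ := by rw [hU, Matrix.mul_one, Matrix.mul_one]

omit [DecidableEq n] in
/-- `tr ((A - B)(A + 2B)(A - B)) = tr A³ + 2 tr B³ - 3 tr (A B²)` -/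
theorem trace_cube_identity (A B : Matrix n n ℝ) :
    ((A - B) * (A + (2 : ℝ) • B) * (A - B)).trace =
      (A * A * A).trace + 2 * (B * B * B).trace - 3 * (A * (B * B)).trace := by
  have e1 : (B * A * A).trace = (A * A * B).trace := by
    rw [Matrix.mul_assoc, Matrix.trace_mul_comm]
  have e2 : (A * B * A).trace = (A * A * B).trace := by
    rw [Matrix.trace_mul_comm, ← Matrix.mul_assoc]
  have e3 : (B * A * B).trace = (A * (B * B)).trace := by
    rw [Matrix.mul_assoc, Matrix.trace_mul_comm, Matrix.mul_assoc]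
  have e4 : (B * B * A).trace = (A * (B * B)).trace := by
    rw [Matrix.trace_mul_comm]
  have e5 : (A * B * B).trace = (A * (B * B)).trace := by
    rw [Matrix.mul_assoc]
  simp only [Matrix.sub_mul, Matrix.mul_sub, Matrix.add_mul, Matrix.mul_add, Matrix.smul_mul,
    Matrix.mul_smul, Matrix.trace_sub, Matrix.trace_add, Matrix.trace_smul, smul_eq_mul]
  rw [e1, e2, e3, e4, e5]
  ring

/-- (A1) Bregman divergence is nonnegative -/
theorem breg_nonneg {X Y : Matrix n n ℝ} (hX : X.PosSemidef) (hY : Y.PosSemidef) :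
    0 ≤ breg Y X := by
  have hA := msqrt_posSemidef X
  have hB := msqrt_posSemidef Y
  have h1 : ((CFC.sqrt X - CFC.sqrt Y) * (CFC.sqrt X + (2 : ℝ) • CFC.sqrt Y) *
      (CFC.sqrt X - CFC.sqrt Y)ᴴ).PosSemidef :=
    (hA.add (hB.smul (by norm_num : (0 : ℝ) ≤ 2))).mul_mul_conjTranspose_same _
  have h2 : (CFC.sqrt X - CFC.sqrt Y)ᴴ = CFC.sqrt X - CFC.sqrt Y := by
    rw [conjTranspose_sub, msqrt_conjTranspose, msqrt_conjTranspose]
  rw [h2] at h1
  have h3 := h1.trace_nonneg
  rw [trace_cube_identity] at h3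
  have h4 : (CFC.sqrt X * (Y - X)).trace = (CFC.sqrt X * (CFC.sqrt Y * CFC.sqrt Y)).trace -
      (CFC.sqrt X * CFC.sqrt X * CFC.sqrt X).trace := by
    rw [Matrix.mul_sub, Matrix.trace_sub, msqrt_mul_self hY, Matrix.mul_assoc,
      msqrt_mul_self hX]
  unfold breg
  rw [phi_eq_cube hX, phi_eq_cube hY, h4]
  linarith

/-- (A7) gradient inequality -/
theorem phi_sub_le {M M' : Matrix n n ℝ} (hM : M.PosSemidef) (hM' : M'.PosSemidef) :
    phi M - phi M' ≤ (3 / 2) * (CFC.sqrt M * (M - M')).trace := by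
  have h := breg_nonneg hM hM'
  unfold breg at h
  have h2 : (CFC.sqrt M * (M' - M)).trace = - (CFC.sqrt M * (M - M')).trace := by
    rw [← Matrix.trace_neg, ← Matrix.mul_neg, neg_sub]
  rw [h2] at h
  linarith

omit [Fintype n] [DecidableEq n] in
theorem mid_posSemidef {X Y : Matrix n n ℝ} (hX : X.PosSemidef) (hY : Y.PosSemidef) :
    ((1 / 2 : ℝ) • (X + Y)).PosSemidef :=
  (hX.add hY).smul (by norm_num)

/-- midpoint identity for Bregman divergences -/
theorem breg_add_breg (X Y Z : Matrix n n ℝ) :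
    breg X Z + breg Y Z = gap X Y + 2 * breg ((1 / 2 : ℝ) • (X + Y)) Z := by
  unfold breg gap
  have h : (CFC.sqrt Z * ((1 / 2 : ℝ) • (X + Y) - Z)).trace =
      (1 / 2) * ((CFC.sqrt Z * (X - Z)).trace + (CFC.sqrt Z * (Y - Z)).trace) := by
    simp only [Matrix.mul_sub, Matrix.mul_add, Matrix.mul_smul, Matrix.trace_sub,
      Matrix.trace_add, Matrix.trace_smul, smul_eq_mul]
    ring
  rw [h]
  ring

theorem breg_self (X : Matrix n n ℝ) : breg X X = 0 := by
  unfold breg
  simp

theorem gap_eq_breg (X Y : Matrix n n ℝ) :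
    gap X Y = breg X ((1 / 2 : ℝ) • (X + Y)) + breg Y ((1 / 2 : ℝ) • (X + Y)) := by
  rw [breg_add_breg, breg_self]
  ring

theorem gap_nonneg {X Y : Matrix n n ℝ} (hX : X.PosSemidef) (hY : Y.PosSemidef) :
    0 ≤ gap X Y := by
  rw [gap_eq_breg]
  exact add_nonneg (breg_nonneg (mid_posSemidef hX hY) hX)
    (breg_nonneg (mid_posSemidef hX hY) hY)

theorem gap_comm (X Y : Matrix n n ℝ) : gap X Y = gap Y X := by
  unfold gap
  rw [add_comm X Y]
  ring

theorem phi_mid_le {X Y : Matrix n n ℝ} (hX : X.PosSemidef) (hY : Y.PosSemidef) :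
    phi ((1 / 2 : ℝ) • (X + Y)) ≤ (phi X + phi Y) / 2 := by
  have h := gap_nonneg hX hY
  unfold gap at h
  linarith

theorem phi_add_le {X Y : Matrix n n ℝ} (hX : X.PosSemidef) (hY : Y.PosSemidef) :
    phi (X + Y) ≤ Real.sqrt 2 * (phi X + phi Y) := by
  have h1 : X + Y = (2 : ℝ) • ((1 / 2 : ℝ) • (X + Y)) := by
    rw [smul_smul]; norm_num
  rw [h1, phi_smul (mid_posSemidef hX hY) (by norm_num : (0 : ℝ) ≤ 2)]
  have h2 := phi_mid_le hX hY
  have h3 := Real.sqrt_nonneg 2
  nlinarith

/-- (A5) -/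
theorem gap_le_breg {X Y Z : Matrix n n ℝ} (hX : X.PosSemidef) (hY : Y.PosSemidef)
    (hZ : Z.PosSemidef) : gap X Y ≤ breg X Z + breg Y Z := by
  rw [breg_add_breg]
  have := breg_nonneg hZ (mid_posSemidef hX hY)
  linarith

/-- (A6) convexity of the Bregman divergence in its first argument (midpoint form) -/
theorem breg_mid_le {X Y Z : Matrix n n ℝ} (hX : X.PosSemidef) (hY : Y.PosSemidef)
    (_hZ : Z.PosSemidef) : breg ((1 / 2 : ℝ) • (X + Y)) Z ≤ (breg X Z + breg Y Z) / 2 := by
  rw [breg_add_breg]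
  have := gap_nonneg hX hY
  linarith

/-- (A6) sum of Bregman divergences to the average -/
theorem sum_breg_avg {ι : Type*} (s : Finset ι) (hs : s.Nonempty) (y : ι → Matrix n n ℝ)
    (_hy : ∀ i ∈ s, (y i).PosSemidef) :
    ∑ i ∈ s, breg (y i) ((1 / (s.card : ℝ)) • ∑ i ∈ s, y i) =
      ∑ i ∈ s, phi (y i) - s.card * phi ((1 / (s.card : ℝ)) • ∑ i ∈ s, y i) := by
  set a := (1 / (s.card : ℝ)) • ∑ i ∈ s, y i with ha
  have hc : (s.card : ℝ) ≠ 0 := by
    have := hs.card_pos
    positivity
  have h1 : ∑ i ∈ s, (y i - a) = 0 := by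
    rw [Finset.sum_sub_distrib, Finset.sum_const, ha, ← Nat.cast_smul_eq_nsmul ℝ, smul_smul,
      mul_one_div_cancel hc, one_smul, sub_self]
  have h2 : ∑ i ∈ s, (CFC.sqrt a * (y i - a)).trace = 0 := by
    rw [← Matrix.trace_sum, ← Matrix.mul_sum, h1]
    simp
  unfold breg
  rw [Finset.sum_sub_distrib, ← Finset.mul_sum, h2, Finset.sum_sub_distrib, Finset.sum_const,
    nsmul_eq_mul]
  ring

/-- half-box sign: `+1` on the first half, `-1` on the second half of `Fin (r + r)`. -/
noncomputable def hsgn (r : ℕ) (j : Fin (r + r)) : ℝ := if (j : ℕ) < r then 1 else -1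

theorem hsgn_mul_self (r : ℕ) (j : Fin (r + r)) : hsgn r j * hsgn r j = 1 := by
  unfold hsgn; split <;> norm_num

/-- splitting of `Gam` for the half-box signs into diagonal blocks -/
theorem Gam_hsgn (r : ℕ) {M : Matrix (Fin (r + r)) (Fin (r + r)) ℝ} (hM : M.PosSemidef) :
    Gam (hsgn r) M =
      phi ((2 : ℝ) • M.submatrix (Fin.castAdd r) (Fin.castAdd r)) +
      phi ((2 : ℝ) • M.submatrix (Fin.natAdd r) (Fin.natAdd r)) - 2 * phi M := by
  have hUH : (diagonal (hsgn r))ᴴ = diagonal (hsgn r) := by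
    rw [diagonal_conjTranspose]
    congr 1
  have hpsd : (M + diagonal (hsgn r) * M * diagonal (hsgn r)).PosSemidef := by
    have h1 := hM.mul_mul_conjTranspose_same (diagonal (hsgn r))
    rw [hUH] at h1
    exact hM.add h1
  have h2 : (M + diagonal (hsgn r) * M * diagonal (hsgn r)).submatrix finSumFinEquiv
      finSumFinEquiv = fromBlocks ((2 : ℝ) • M.submatrix (Fin.castAdd r) (Fin.castAdd r)) 0 0
        ((2 : ℝ) • M.submatrix (Fin.natAdd r) (Fin.natAdd r)) := by
    ext i j
    rcases i with i | i <;> rcases j with j | j <;>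
      simp [hsgn, Matrix.add_apply, Matrix.mul_diagonal, Matrix.diagonal_mul] <;> ring
  unfold Gam
  rw [← phi_submatrix_equiv finSumFinEquiv hpsd, h2, phi_fromBlocks]
  · exact (hM.submatrix _).smul (by norm_num)
  · exact (hM.submatrix _).smul (by norm_num)

end Crest.Agent.R072
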