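import Crest.Agent.R072.Defs

/-! R072: operator monotonicity of the square root, mixed difference estimate (A4),
superadditivity of `phi`. -/

set_option autoImplicit false
set_option linter.unusedSectionVars false
set_option linter.unusedSimpArgs false

namespace Crest.Agent.R072

open Matrix
open scoped MatrixOrder

variable {n m : Type*} [Fintype n] [DecidableEq n] [Fintype m] [DecidableEq m]

namespace MatB

lemma sq_psd (A : Matrix n n ℝ) : (CFC.sqrt A).PosSemidef := (CFC.sqrt_nonneg A).posSemidef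

lemma sq_mul {A : Matrix n n ℝ} (hA : A.PosSemidef) : CFC.sqrt A * CFC.sqrt A = A :=
  CFC.sqrt_mul_sqrt_self A hA.nonneg

lemma tr_mul_nonneg {A B : Matrix n n ℝ} (hA : A.PosSemidef) (hB : B.PosSemidef) :
    0 ≤ (A * B).trace := by
  have h1 : (A * B).trace = (CFC.sqrt A * B * (CFC.sqrt A)ᴴ).trace := by
    rw [(sq_psd A).1.eq, Matrix.mul_assoc, Matrix.trace_mul_comm (CFC.sqrt A), Matrix.mul_assoc,
      sq_mul hA, Matrix.trace_mul_comm]
  rw [h1]
  exact (hB.mul_mul_conjTranspose_same _).trace_nonneg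

lemma tr_mul_mono {A B C : Matrix n n ℝ} (hA : A.PosSemidef) (hBC : (C - B).PosSemidef) :
    (A * B).trace ≤ (A * C).trace := by
  have := tr_mul_nonneg hA hBC
  rw [Matrix.mul_sub, Matrix.trace_sub] at this
  linarith

/-- `tr (S Z Z) ≥ 0` for `Z` symmetric -/
lemma tr_sq_nonneg {S Z : Matrix n n ℝ} (hS : S.PosSemidef) (hZ : Z.IsHermitian) :
    0 ≤ (S * (Z * Z)).trace := by
  have h : (Z * Z).PosSemidef := by
    have := Matrix.posSemidef_self_mul_conjTranspose Z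
    rwa [hZ.eq] at this
  exact tr_mul_nonneg hS h

end MatB

open MatB

/-- operator monotonicity of the square root for real matrices -/
theorem sqrt_mono {A B : Matrix n n ℝ} (hA : A.PosSemidef) (hAB : (B - A).PosSemidef) :
    (CFC.sqrt B - CFC.sqrt A).PosSemidef := by
  have hB : B.PosSemidef := by
    have := hAB.add hA
    rwa [sub_add_cancel] at this
  have hD : (CFC.sqrt B - CFC.sqrt A).IsHermitian := (sq_psd B).1.sub (sq_psd A).1
  rw [hD.posSemidef_iff_eigenvalues_nonneg]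
  intro i
  by_contra hneg
  simp only [Pi.zero_apply, not_le] at hneg
  set l : ℝ := hD.eigenvalues i with hl
  set v : n → ℝ := ⇑(hD.eigenvectorBasis i) with hv
  have hDv : (CFC.sqrt B - CFC.sqrt A) *ᵥ v = l • v := hD.mulVec_eigenvectorBasis i
  have hv0 : v ≠ 0 := by
    intro h0
    have h1 : (hD.eigenvectorBasis i) = 0 := by
      ext j
      exact congrFun h0 j
    exact hD.eigenvectorBasis.orthonormal.ne_zero i h1
  have hvv : 0 < v ⬝ᵥ v := by
    have h0 : 0 ≤ v ⬝ᵥ v := Finset.sum_nonneg fun i _ => mul_self_nonneg _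
    refine lt_of_le_of_ne h0 fun h => hv0 ?_
    exact dotProduct_self_eq_zero.mp h.symm
  -- quadratic forms
  have qA : 0 ≤ v ⬝ᵥ (CFC.sqrt A *ᵥ v) := by
    simpa using (sq_psd A).dotProduct_mulVec_nonneg v
  have qB : 0 ≤ v ⬝ᵥ (CFC.sqrt B *ᵥ v) := by
    simpa using (sq_psd B).dotProduct_mulVec_nonneg v
  have qAB : 0 ≤ v ⬝ᵥ ((B - A) *ᵥ v) := by
    simpa using hAB.dotProduct_mulVec_nonneg v
  have key : B - A = (CFC.sqrt B - CFC.sqrt A) * CFC.sqrt B + CFC.sqrt A *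
      (CFC.sqrt B - CFC.sqrt A) := by
    rw [Matrix.sub_mul, Matrix.mul_sub, sq_mul hA, sq_mul hB]
    abel
  have hsymm : ∀ w : n → ℝ, v ⬝ᵥ ((CFC.sqrt B - CFC.sqrt A) *ᵥ w) = l * (v ⬝ᵥ w) := by
    intro w
    rw [dotProduct_mulVec, ← mulVec_transpose]
    have : (CFC.sqrt B - CFC.sqrt A)ᵀ = CFC.sqrt B - CFC.sqrt A := by
      have := hD.eq
      rwa [conjTranspose_eq_transpose_of_trivial] at this
    rw [this, hDv, smul_dotProduct, smul_eq_mul]
  have hval : v ⬝ᵥ ((B - A) *ᵥ v) =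
      l * (v ⬝ᵥ (CFC.sqrt B *ᵥ v)) + l * (v ⬝ᵥ (CFC.sqrt A *ᵥ v)) := by
    rw [key, add_mulVec, dotProduct_add, ← mulVec_mulVec, ← mulVec_mulVec, hsymm, hDv, mulVec_smul,
      dotProduct_smul, smul_eq_mul]
  have hdiff : v ⬝ᵥ (CFC.sqrt B *ᵥ v) - v ⬝ᵥ (CFC.sqrt A *ᵥ v) = l * (v ⬝ᵥ v) := by
    rw [← dotProduct_sub, ← sub_mulVec, hDv, dotProduct_smul, smul_eq_mul]
  have h1 : v ⬝ᵥ (CFC.sqrt B *ᵥ v) + v ⬝ᵥ (CFC.sqrt A *ᵥ v) ≤ 0 := by
    by_contra hpos
    push Not at hpos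
    have : l * (v ⬝ᵥ (CFC.sqrt B *ᵥ v) + v ⬝ᵥ (CFC.sqrt A *ᵥ v)) < 0 :=
      mul_neg_of_neg_of_pos hneg hpos
    rw [hval] at qAB
    linarith
  have hB0 : v ⬝ᵥ (CFC.sqrt B *ᵥ v) = 0 := by linarith
  have hA0 : v ⬝ᵥ (CFC.sqrt A *ᵥ v) = 0 := by linarith
  rw [hB0, hA0, sub_zero] at hdiff
  have : l * (v ⬝ᵥ v) < 0 := mul_neg_of_neg_of_pos hneg hvv
  linarith

namespace MatB

/-- `bs X Y = tr ((√X - √Y)(X - Y))` -/
noncomputable def bs (X Y : Matrix n n ℝ) : ℝ := ((CFC.sqrt X - CFC.sqrt Y) * (X - Y)).trace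

/-- algebraic identity: `bs - 2 tr (Z (X-Y)) + tr (S Z²) = tr (S (D-Z)²)`. -/
lemma alg1 (s t Z : Matrix n n ℝ) :
    ((s - t) * (s * s - t * t)).trace - 2 * (Z * (s * s - t * t)).trace
      + ((s + t) * (Z * Z)).trace = ((s + t) * ((s - t - Z) * (s - t - Z))).trace := by
  have c1 := Matrix.trace_mul_cycle s t s
  have c2 := Matrix.trace_mul_cycle t s s
  have c3 := Matrix.trace_mul_cycle s t t
  have c4 := Matrix.trace_mul_cycle t s t
  have c5 := Matrix.trace_mul_cycle s Z s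
  have c6 := Matrix.trace_mul_cycle Z s s
  have c7 := Matrix.trace_mul_cycle t Z t
  have c8 := Matrix.trace_mul_cycle Z t t
  have c9 := Matrix.trace_mul_cycle t Z s
  have c10 := Matrix.trace_mul_cycle s Z t
  simp only [Matrix.mul_sub, Matrix.sub_mul, Matrix.add_mul, Matrix.trace_add,
    Matrix.trace_sub, ← Matrix.mul_assoc]
  linarith

/-- `2 breg - bs = tr (t (s-t)²)` -/
lemma alg2 (s t : Matrix n n ℝ) :
    2 * ((t * (t * t)).trace - (s * (s * s)).trace - (3 / 2) * (s * (t * t - s * s)).trace)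
      - ((s - t) * (s * s - t * t)).trace = (t * ((s - t) * (s - t))).trace := by
  have c1 := Matrix.trace_mul_cycle s t s
  have c2 := Matrix.trace_mul_cycle t s s
  have c3 := Matrix.trace_mul_cycle s t t
  have c4 := Matrix.trace_mul_cycle t s t
  simp only [Matrix.mul_sub, Matrix.sub_mul, Matrix.trace_sub, ← Matrix.mul_assoc]
  linarith

/-- `bs - breg = (1/2) tr (s (s-t)²)` -/
lemma alg3 (s t : Matrix n n ℝ) :
    ((s - t) * (s * s - t * t)).trace -
      ((t * (t * t)).trace - (s * (s * s)).trace - (3 / 2) * (s * (t * t - s * s)).trace)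
      = (1 / 2) * (s * ((s - t) * (s - t))).trace := by
  have c1 := Matrix.trace_mul_cycle s t s
  have c2 := Matrix.trace_mul_cycle t s s
  have c3 := Matrix.trace_mul_cycle s t t
  have c4 := Matrix.trace_mul_cycle t s t
  simp only [Matrix.mul_sub, Matrix.sub_mul, Matrix.trace_sub, ← Matrix.mul_assoc]
  linarith

/-- `bs = tr (S D²)` -/
lemma alg4 (s t : Matrix n n ℝ) :
    ((s - t) * (s * s - t * t)).trace = ((s + t) * ((s - t) * (s - t))).trace := by
  have := alg1 s t 0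
  simpa using this

lemma breg_eq {X Y : Matrix n n ℝ} (hX : X.PosSemidef) (hY : Y.PosSemidef) :
    breg Y X = (CFC.sqrt Y * (CFC.sqrt Y * CFC.sqrt Y)).trace -
      (CFC.sqrt X * (CFC.sqrt X * CFC.sqrt X)).trace - (3 / 2) *
      (CFC.sqrt X * (CFC.sqrt Y * CFC.sqrt Y - CFC.sqrt X * CFC.sqrt X)).trace := by
  rw [sq_mul hX, sq_mul hY]; rfl

lemma bs_eq {X Y : Matrix n n ℝ} (hX : X.PosSemidef) (hY : Y.PosSemidef) :
    bs X Y = ((CFC.sqrt X - CFC.sqrt Y) *
      (CFC.sqrt X * CFC.sqrt X - CFC.sqrt Y * CFC.sqrt Y)).trace := by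
  rw [sq_mul hX, sq_mul hY]; rfl

/-- (A2), lower half: `bs ≤ 2 breg` -/
lemma bs_le_two_breg {X Y : Matrix n n ℝ} (hX : X.PosSemidef) (hY : Y.PosSemidef) :
    bs X Y ≤ 2 * breg Y X := by
  have h := alg2 (CFC.sqrt X) (CFC.sqrt Y)
  have h2 : 0 ≤ (CFC.sqrt Y * ((CFC.sqrt X - CFC.sqrt Y) * (CFC.sqrt X - CFC.sqrt Y))).trace :=
    tr_sq_nonneg (sq_psd Y) ((sq_psd X).1.sub (sq_psd Y).1)
  rw [breg_eq hX hY, bs_eq hX hY]
  linarith

/-- (A2), upper half: `breg ≤ bs` -/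
lemma breg_le_bs {X Y : Matrix n n ℝ} (hX : X.PosSemidef) (hY : Y.PosSemidef) :
    breg Y X ≤ bs X Y := by
  have h := alg3 (CFC.sqrt X) (CFC.sqrt Y)
  have h2 : 0 ≤ (CFC.sqrt X * ((CFC.sqrt X - CFC.sqrt Y) * (CFC.sqrt X - CFC.sqrt Y))).trace :=
    tr_sq_nonneg (sq_psd X) ((sq_psd X).1.sub (sq_psd Y).1)
  rw [breg_eq hX hY, bs_eq hX hY]
  linarith

lemma bs_nonneg {X Y : Matrix n n ℝ} (hX : X.PosSemidef) (hY : Y.PosSemidef) : 0 ≤ bs X Y := by
  rw [bs_eq hX hY, alg4]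
  exact tr_sq_nonneg ((sq_psd X).add (sq_psd Y)) ((sq_psd X).1.sub (sq_psd Y).1)

/-- variational bound -/
lemma var_le {X Y Z : Matrix n n ℝ} (hX : X.PosSemidef) (hY : Y.PosSemidef)
    (hZ : Z.IsHermitian) :
    2 * (Z * (X - Y)).trace - ((CFC.sqrt X + CFC.sqrt Y) * (Z * Z)).trace ≤ bs X Y := by
  have h := alg1 (CFC.sqrt X) (CFC.sqrt Y) Z
  have h2 := tr_sq_nonneg ((sq_psd X).add (sq_psd Y)) (((sq_psd X).1.sub (sq_psd Y).1).sub hZ)
  rw [bs_eq hX hY]
  rw [sq_mul hX, sq_mul hY] at h ⊢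
  linarith

/-- `√(a+b) ≥ ½ (√a + √b)` in the form used for traces. -/
lemma sqrt_add_ge {a b W : Matrix n n ℝ} (ha : a.PosSemidef) (hb : b.PosSemidef)
    (hW : W.PosSemidef) :
    (1 / 2) * ((CFC.sqrt a * W).trace + (CFC.sqrt b * W).trace) ≤
      (CFC.sqrt (a + b) * W).trace := by
  have h1 : (CFC.sqrt (a + b) - CFC.sqrt a).PosSemidef :=
    sqrt_mono ha (by simpa using hb)
  have h2 : (CFC.sqrt (a + b) - CFC.sqrt b).PosSemidef :=
    sqrt_mono hb (by simpa using ha)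
  have e1 := tr_mul_nonneg h1 hW
  have e2 := tr_mul_nonneg h2 hW
  rw [Matrix.sub_mul, Matrix.trace_sub] at e1 e2
  linarith

/-- (A3) -/
lemma bs_add_le {a b a' b' : Matrix n n ℝ} (ha : a.PosSemidef) (hb : b.PosSemidef)
    (ha' : a'.PosSemidef) (hb' : b'.PosSemidef) :
    bs (a + b) (a' + b') ≤ 2 * bs a a' + 2 * bs b b' := by
  have hX := ha.add hb
  have hY := ha'.add hb'
  set D := CFC.sqrt (a + b) - CFC.sqrt (a' + b') with hDdef
  have hD : D.IsHermitian := (sq_psd _).1.sub (sq_psd _).1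
  have hDD : (D * D).PosSemidef := by
    have := Matrix.posSemidef_self_mul_conjTranspose D
    rwa [hD.eq] at this
  -- `bs (a+b) (a'+b') = 2 tr (D(X-Y)) - tr (S D²)`
  have e0 : bs (a + b) (a' + b') = (D * ((a + b) - (a' + b'))).trace := rfl
  have e1 : bs (a + b) (a' + b') =
      ((CFC.sqrt (a + b) + CFC.sqrt (a' + b')) * (D * D)).trace := by
    rw [bs_eq hX hY, alg4]
  have e2 : (D * ((a + b) - (a' + b'))).trace = (D * (a - a')).trace + (D * (b - b')).trace := by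
    rw [← Matrix.trace_add, ← Matrix.mul_add]
    congr 2
    abel
  have g1 := sqrt_add_ge ha hb hDD
  have g2 := sqrt_add_ge ha' hb' hDD
  rw [Matrix.add_mul, Matrix.trace_add] at e1
  -- `Z = D/2`
  have hZ : ((1 / 2 : ℝ) • D).IsHermitian := by
    unfold Matrix.IsHermitian
    rw [conjTranspose_smul, hD.eq]; simp
  have v1 := var_le ha ha' hZ
  have v2 := var_le hb hb' hZ
  have hs : ((1 / 2 : ℝ) • D) * ((1 / 2 : ℝ) • D) = (1 / 4 : ℝ) • (D * D) := by
    rw [Matrix.smul_mul, Matrix.mul_smul, smul_smul]; norm_num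
  rw [hs, Matrix.smul_mul, Matrix.mul_smul, Matrix.trace_smul, Matrix.trace_smul,
    Matrix.add_mul, Matrix.trace_add, smul_eq_mul, smul_eq_mul] at v1 v2
  linarith

lemma gap_eq_breg {X Y : Matrix n n ℝ} :
    gap X Y = breg X ((1 / 2 : ℝ) • (X + Y)) + breg Y ((1 / 2 : ℝ) • (X + Y)) := by
  unfold gap breg
  have h : (CFC.sqrt ((1 / 2 : ℝ) • (X + Y)) * (X - (1 / 2 : ℝ) • (X + Y))).trace +
      (CFC.sqrt ((1 / 2 : ℝ) • (X + Y)) * (Y - (1 / 2 : ℝ) • (X + Y))).trace = 0 := by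
    rw [← Matrix.trace_add, ← Matrix.mul_add]
    have : X - (1 / 2 : ℝ) • (X + Y) + (Y - (1 / 2 : ℝ) • (X + Y)) = 0 := by
      have h2 : (1 / 2 : ℝ) • (X + Y) + (1 / 2 : ℝ) • (X + Y) = X + Y := by
        rw [← add_smul]; norm_num
      calc X - (1 / 2 : ℝ) • (X + Y) + (Y - (1 / 2 : ℝ) • (X + Y))
          = (X + Y) - ((1 / 2 : ℝ) • (X + Y) + (1 / 2 : ℝ) • (X + Y)) := by abel
        _ = 0 := by rw [h2, sub_self]
    rw [this]; simp
  linarith

lemma mid_psd {X Y : Matrix n n ℝ} (hX : X.PosSemidef) (hY : Y.PosSemidef) :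
    ((1 / 2 : ℝ) • (X + Y)).PosSemidef := (hX.add hY).smul (by norm_num)

lemma gap_nonneg' {X Y : Matrix n n ℝ} (hX : X.PosSemidef) (hY : Y.PosSemidef) :
    0 ≤ gap X Y := by
  rw [gap_eq_breg]
  have h1 := bs_le_two_breg (mid_psd hX hY) hX
  have h2 := bs_le_two_breg (mid_psd hX hY) hY
  have h3 := bs_nonneg (mid_psd hX hY) hX
  have h4 := bs_nonneg (mid_psd hX hY) hY
  linarith

/-- conjugation by a diagonal sign matrix commutes with the square root -/
lemma sqrt_conj_sign {M : Matrix n n ℝ} (hM : M.PosSemidef) (u : n → ℝ)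
    (hu : ∀ i, u i * u i = 1) :
    CFC.sqrt (diagonal u * M * diagonal u) = diagonal u * CFC.sqrt M * diagonal u := by
  have huu : diagonal u * diagonal u = (1 : Matrix n n ℝ) := by
    rw [diagonal_mul_diagonal, ← diagonal_one]
    congr 1
    funext i
    exact hu i
  have hut : (diagonal u)ᴴ = diagonal u := by
    rw [diagonal_conjTranspose]; simp
  have h1 : (diagonal u * CFC.sqrt M * diagonal u).PosSemidef := by
    have := (sq_psd M).mul_mul_conjTranspose_same (diagonal u)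
    rwa [hut] at this
  refine CFC.sqrt_unique ?_ h1.nonneg
  calc diagonal u * CFC.sqrt M * diagonal u * (diagonal u * CFC.sqrt M * diagonal u)
      = diagonal u * CFC.sqrt M * (diagonal u * diagonal u) * CFC.sqrt M * diagonal u := by
        simp only [Matrix.mul_assoc]
    _ = diagonal u * (CFC.sqrt M * CFC.sqrt M) * diagonal u := by
        rw [huu]; simp only [Matrix.mul_assoc, Matrix.mul_one]
    _ = diagonal u * M * diagonal u := by rw [sq_mul hM]

lemma phi_conj_sign' {M : Matrix n n ℝ} (hM : M.PosSemidef) (u : n → ℝ)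
    (hu : ∀ i, u i * u i = 1) : phi (diagonal u * M * diagonal u) = phi M := by
  have huu : diagonal u * diagonal u = (1 : Matrix n n ℝ) := by
    rw [diagonal_mul_diagonal, ← diagonal_one]
    congr 1
    funext i
    exact hu i
  unfold phi
  rw [sqrt_conj_sign hM u hu]
  calc (diagonal u * CFC.sqrt M * diagonal u * (diagonal u * M * diagonal u)).trace
      = (diagonal u * (CFC.sqrt M * (diagonal u * diagonal u) * M * diagonal u)).trace := by
        simp only [Matrix.mul_assoc]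
    _ = (CFC.sqrt M * M * (diagonal u * diagonal u)).trace := by
        rw [Matrix.trace_mul_comm, huu]; simp only [Matrix.mul_assoc, Matrix.one_mul, huu,
          Matrix.mul_one]
    _ = _ := by rw [huu, Matrix.mul_one]

end MatB

open MatB

/-- (A4) mixed difference estimate -/
theorem phi_mixed_le {a₁ a₂ b₁ b₂ : Matrix n n ℝ} (ha₁ : a₁.PosSemidef) (ha₂ : a₂.PosSemidef)
    (hb₁ : b₁.PosSemidef) (hb₂ : b₂.PosSemidef) :
    phi (a₁ + b₁) + phi (a₂ + b₂) - phi (a₁ + b₂) - phi (a₂ + b₁) ≤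
      4 * (gap a₁ a₂ + gap b₁ b₂) := by
  set am := (1 / 2 : ℝ) • (a₁ + a₂) with ham
  set bm := (1 / 2 : ℝ) • (b₁ + b₂) with hbm
  have hamp : am.PosSemidef := mid_psd ha₁ ha₂
  have hbmp : bm.PosSemidef := mid_psd hb₁ hb₂
  have hm1 : (1 / 2 : ℝ) • ((a₁ + b₁) + (a₂ + b₂)) = am + bm := by
    rw [ham, hbm, ← smul_add]; congr 1; abel
  have hm2 : (1 / 2 : ℝ) • ((a₁ + b₂) + (a₂ + b₁)) = am + bm := by
    rw [ham, hbm, ← smul_add]; congr 1; abel
  have g1 : gap (a₁ + b₁) (a₂ + b₂) =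
      phi (a₁ + b₁) + phi (a₂ + b₂) - 2 * phi (am + bm) := by
    unfold gap; rw [hm1]
  have g2 : gap (a₁ + b₂) (a₂ + b₁) =
      phi (a₁ + b₂) + phi (a₂ + b₁) - 2 * phi (am + bm) := by
    unfold gap; rw [hm2]
  have g2n := gap_nonneg' (ha₁.add hb₂) (ha₂.add hb₁)
  have g3 : gap (a₁ + b₁) (a₂ + b₂) = breg (a₁ + b₁) (am + bm) + breg (a₂ + b₂) (am + bm) := by
    rw [gap_eq_breg, hm1]
  have c1 := breg_le_bs (hamp.add hbmp) (ha₁.add hb₁)
  have c2 := breg_le_bs (hamp.add hbmp) (ha₂.add hb₂)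
  have d1 := bs_add_le hamp hbmp ha₁ hb₁
  have d2 := bs_add_le hamp hbmp ha₂ hb₂
  have e1 := bs_le_two_breg hamp ha₁
  have e2 := bs_le_two_breg hamp ha₂
  have e3 := bs_le_two_breg hbmp hb₁
  have e4 := bs_le_two_breg hbmp hb₂
  have f1 : gap a₁ a₂ = breg a₁ am + breg a₂ am := gap_eq_breg
  have f2 : gap b₁ b₂ = breg b₁ bm + breg b₂ bm := gap_eq_breg
  linarith

/-- superadditivity of `phi` -/
theorem phi_superadd {X Y : Matrix n n ℝ} (hX : X.PosSemidef) (hY : Y.PosSemidef) :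
    phi X + phi Y ≤ phi (X + Y) := by
  unfold phi
  rw [Matrix.mul_add, Matrix.trace_add]
  have h1 : (CFC.sqrt (X + Y) - CFC.sqrt X).PosSemidef := sqrt_mono hX (by simpa using hY)
  have h2 : (CFC.sqrt (X + Y) - CFC.sqrt Y).PosSemidef := sqrt_mono hY (by simpa using hX)
  have e1 := tr_mul_nonneg h1 hX
  have e2 := tr_mul_nonneg h2 hY
  rw [Matrix.sub_mul, Matrix.trace_sub] at e1 e2
  linarith

theorem Gam_nonneg {M : Matrix n n ℝ} (hM : M.PosSemidef) (u : n → ℝ)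
    (hu : ∀ i, u i * u i = 1) : 0 ≤ Gam u M := by
  have hut : (diagonal u)ᴴ = diagonal u := by
    rw [diagonal_conjTranspose]; simp
  have h1 : (diagonal u * M * diagonal u).PosSemidef := by
    have := hM.mul_mul_conjTranspose_same (diagonal u)
    rwa [hut] at this
  have h2 := phi_superadd hM h1
  rw [phi_conj_sign' hM u hu] at h2
  unfold Gam
  linarith

end Crest.Agent.R072
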