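import Crest.Agent.R072.Frob

/-!
# Row 72: resolvents of positive semidefinite real matrices at a fixed parameter `t > 0`
-/

set_option autoImplicit false

open Matrix
open scoped MatrixOrder

namespace Crest.Agent.R072.Nd

variable {m n : Type*} [Fintype m] [Fintype n] [DecidableEq m] [DecidableEq n]

/-- `P + t` -/
def sh (P : Matrix n n ℝ) (t : ℝ) : Matrix n n ℝ := P + t • (1 : Matrix n n ℝ)

omit [Fintype n] in
theorem posDef_smul_one {t : ℝ} (ht : 0 < t) : (t • (1 : Matrix n n ℝ)).PosDef := by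
  have := (PosDef.one (n := n) (R := ℝ)).smul ht
  exact this

theorem sh_posDef {P : Matrix n n ℝ} (hP : 0 ≤ P) {t : ℝ} (ht : 0 < t) : (sh P t).PosDef :=
  (posDef_smul_one ht).posSemidef_add (Matrix.nonneg_iff_posSemidef.mp hP)

theorem sh_isUnit {P : Matrix n n ℝ} (hP : 0 ≤ P) {t : ℝ} (ht : 0 < t) :
    IsUnit (sh P t).det := by
  have := (sh_posDef hP ht).isUnit
  rwa [Matrix.isUnit_iff_isUnit_det] at this

theorem PosDef.isUnit_det' {P : Matrix n n ℝ} (hP : P.PosDef) : IsUnit P.det := by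
  have := hP.isUnit
  rwa [Matrix.isUnit_iff_isUnit_det] at this

/-- push-through identity -/
theorem push_through (Z : Matrix m n ℝ) {t : ℝ} (ht : 0 < t) :
    (sh (Zᵀ * Z) t)⁻¹ * Zᵀ = Zᵀ * (sh (Z * Zᵀ) t)⁻¹ := by
  have h1 := sh_isUnit (psd_transpose_mul_self Z) ht
  have h2 := sh_isUnit (psd_mul_transpose_self Z) ht
  have key : Zᵀ * sh (Z * Zᵀ) t = sh (Zᵀ * Z) t * Zᵀ := by
    unfold sh
    rw [Matrix.mul_add, Matrix.add_mul, Matrix.mul_smul, Matrix.smul_mul, Matrix.mul_one,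
      Matrix.one_mul, Matrix.mul_assoc]
  calc (sh (Zᵀ * Z) t)⁻¹ * Zᵀ
      = (sh (Zᵀ * Z) t)⁻¹ * (Zᵀ * sh (Z * Zᵀ) t) * (sh (Z * Zᵀ) t)⁻¹ := by
        rw [Matrix.mul_assoc, Matrix.mul_assoc Zᵀ, mul_nonsing_inv _ h2, Matrix.mul_one]
    _ = Zᵀ * (sh (Z * Zᵀ) t)⁻¹ := by
        rw [key, ← Matrix.mul_assoc, nonsing_inv_mul _ h1, Matrix.one_mul]

/-- `tr P² (P+t)⁻¹`, written as `tr P - t tr P (P+t)⁻¹` -/
noncomputable def ht (P : Matrix n n ℝ) (t : ℝ) : ℝ := trace P - t * trace (P * (sh P t)⁻¹)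

theorem ht_mul_transpose (Z : Matrix m n ℝ) {t : ℝ} (h : 0 < t) : ht (Z * Zᵀ) t = ht (Zᵀ * Z) t := by
  have e1 : trace (Z * Zᵀ * (sh (Z * Zᵀ) t)⁻¹) = trace (Zᵀ * Z * (sh (Zᵀ * Z) t)⁻¹) := by
    rw [Matrix.mul_assoc, ← push_through Z h, trace_mul_comm, Matrix.mul_assoc, trace_mul_comm]
  unfold ht
  rw [e1, trace_mul_comm Z Zᵀ]

theorem mul_sh_inv {P : Matrix n n ℝ} (hP : 0 ≤ P) {t : ℝ} (h : 0 < t) :
    P * (sh P t)⁻¹ = 1 - t • (sh P t)⁻¹ := by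
  have h1 := mul_nonsing_inv _ (sh_isUnit hP h)
  have h2 : sh P t * (sh P t)⁻¹ = P * (sh P t)⁻¹ + t • (sh P t)⁻¹ := by
    conv_lhs => rw [sh]
    rw [Matrix.add_mul, Matrix.smul_mul, Matrix.one_mul]
    rfl
  rw [h2] at h1
  exact eq_sub_of_add_eq h1

theorem ht_eq {P : Matrix n n ℝ} (hP : 0 ≤ P) {t : ℝ} (h : 0 < t) :
    ht P t = trace P - t * Fintype.card n + t ^ 2 * trace (sh P t)⁻¹ := by
  unfold ht
  rw [mul_sh_inv hP h, trace_sub, trace_smul, trace_one, smul_eq_mul]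
  ring

/-- additivity on orthogonal blocks -/
theorem ht_add {P Q : Matrix n n ℝ} (hP : 0 ≤ P) (hQ : 0 ≤ Q) (hPQ : P * Q = 0) (hQP : Q * P = 0)
    {t : ℝ} (h : 0 < t) : ht (P + Q) t = ht P t + ht Q t := by
  have uP := sh_isUnit hP h
  have uQ := sh_isUnit hQ h
  have uS := sh_isUnit (add_nonneg hP hQ) h
  -- `P (P+t)⁻¹ Q = 0`
  have e1 : P * (sh P t)⁻¹ * Q = 0 := by
    have c : sh P t * Q = t • Q := by
      unfold sh; rw [Matrix.add_mul, hPQ, zero_add, Matrix.smul_mul, Matrix.one_mul]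
    have c2 : (sh P t)⁻¹ * Q = t⁻¹ • Q := by
      have : (sh P t)⁻¹ * (sh P t * Q) = (sh P t)⁻¹ * (t • Q) := by rw [c]
      rw [← Matrix.mul_assoc, nonsing_inv_mul _ uP, Matrix.one_mul, Matrix.mul_smul] at this
      exact (eq_inv_smul_iff₀ h.ne').mpr this.symm
    rw [Matrix.mul_assoc, c2, Matrix.mul_smul, hPQ, smul_zero]
  have e2 : Q * (sh Q t)⁻¹ * P = 0 := by
    have c : sh Q t * P = t • P := by
      unfold sh; rw [Matrix.add_mul, hQP, zero_add, Matrix.smul_mul, Matrix.one_mul]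
    have c2 : (sh Q t)⁻¹ * P = t⁻¹ • P := by
      have : (sh Q t)⁻¹ * (sh Q t * P) = (sh Q t)⁻¹ * (t • P) := by rw [c]
      rw [← Matrix.mul_assoc, nonsing_inv_mul _ uQ, Matrix.one_mul, Matrix.mul_smul] at this
      exact (eq_inv_smul_iff₀ h.ne').mpr this.symm
    rw [Matrix.mul_assoc, c2, Matrix.mul_smul, hQP, smul_zero]
  have key : (P + Q) * (sh (P + Q) t)⁻¹ = P * (sh P t)⁻¹ + Q * (sh Q t)⁻¹ := by
    have hs : (P * (sh P t)⁻¹ + Q * (sh Q t)⁻¹) * sh (P + Q) t = P + Q := by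
      have s1 : sh (P + Q) t = sh P t + Q := by unfold sh; abel
      have s2 : sh (P + Q) t = sh Q t + P := by unfold sh; abel
      rw [Matrix.add_mul]
      conv_lhs =>
        congr
        · rw [s1, Matrix.mul_add, e1, add_zero, Matrix.mul_assoc, nonsing_inv_mul _ uP,
            Matrix.mul_one]
        · rw [s2, Matrix.mul_add, e2, add_zero, Matrix.mul_assoc, nonsing_inv_mul _ uQ,
            Matrix.mul_one]
    calc (P + Q) * (sh (P + Q) t)⁻¹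
        = (P * (sh P t)⁻¹ + Q * (sh Q t)⁻¹) * sh (P + Q) t * (sh (P + Q) t)⁻¹ := by rw [hs]
      _ = _ := by rw [Matrix.mul_assoc, mul_nonsing_inv _ uS, Matrix.mul_one]
  unfold ht
  rw [key, trace_add, trace_add]
  ring

/-- second order operator convexity of the inverse -/
theorem inv_convex {P E : Matrix n n ℝ} (hE : Eᵀ = E) (hP : P.PosDef) (h1 : (P + E).PosDef)
    (h2 : (P - E).PosDef) :
    (2 : ℝ) • (P⁻¹ * E * P⁻¹ * E * P⁻¹) ≤ (P + E)⁻¹ + (P - E)⁻¹ - (2 : ℝ) • P⁻¹ := by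
  have uP := PosDef.isUnit_det' hP
  have u1 := PosDef.isUnit_det' h1
  have u2 := PosDef.isUnit_det' h2
  have hPt : (P⁻¹)ᵀ = P⁻¹ := by
    have := hP.inv.1
    rwa [IsHermitian, conjTranspose_eq_transpose_of_trivial] at this
  -- resolvent expansions
  have a1 : (P + E)⁻¹ = P⁻¹ - P⁻¹ * E * (P + E)⁻¹ := by
    have : P⁻¹ * (P + E) * (P + E)⁻¹ = P⁻¹ := by
      rw [Matrix.mul_assoc, mul_nonsing_inv _ u1, Matrix.mul_one]
    rw [Matrix.mul_add, nonsing_inv_mul _ uP, Matrix.add_mul, Matrix.one_mul] at this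
    exact eq_sub_of_add_eq this
  have a2 : (P + E)⁻¹ = P⁻¹ - (P + E)⁻¹ * E * P⁻¹ := by
    have : (P + E)⁻¹ * (P + E) * P⁻¹ = P⁻¹ := by
      rw [nonsing_inv_mul _ u1, Matrix.one_mul]
    rw [Matrix.mul_assoc, Matrix.add_mul, mul_nonsing_inv _ uP, Matrix.mul_add, Matrix.mul_one,
      ← Matrix.mul_assoc] at this
    exact eq_sub_of_add_eq this
  have b1 : (P - E)⁻¹ = P⁻¹ + P⁻¹ * E * (P - E)⁻¹ := by
    have : P⁻¹ * (P - E) * (P - E)⁻¹ = P⁻¹ := by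
      rw [Matrix.mul_assoc, mul_nonsing_inv _ u2, Matrix.mul_one]
    rw [Matrix.mul_sub, nonsing_inv_mul _ uP, Matrix.sub_mul, Matrix.one_mul] at this
    exact eq_add_of_sub_eq this
  have b2 : (P - E)⁻¹ = P⁻¹ + (P - E)⁻¹ * E * P⁻¹ := by
    have : (P - E)⁻¹ * (P - E) * P⁻¹ = P⁻¹ := by
      rw [nonsing_inv_mul _ u2, Matrix.one_mul]
    rw [Matrix.mul_assoc, Matrix.sub_mul, mul_nonsing_inv _ uP, Matrix.mul_sub, Matrix.mul_one,
      ← Matrix.mul_assoc] at this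
    exact eq_add_of_sub_eq this
  set S := (P + E)⁻¹ + (P - E)⁻¹ with hS
  have hS0 : 0 ≤ S := add_nonneg h1.inv.posSemidef.nonneg h2.inv.posSemidef.nonneg
  have hS1 : S - (2 : ℝ) • P⁻¹ = P⁻¹ * E * S * (E * P⁻¹) := by
    have c1 : (P + E)⁻¹ = P⁻¹ - P⁻¹ * E * P⁻¹ + P⁻¹ * E * (P + E)⁻¹ * (E * P⁻¹) := by
      conv_lhs => rw [a1, a2]
      rw [Matrix.mul_sub, ← Matrix.mul_assoc, ← Matrix.mul_assoc, ← Matrix.mul_assoc]
      abel
    have c2 : (P - E)⁻¹ = P⁻¹ + P⁻¹ * E * P⁻¹ + P⁻¹ * E * (P - E)⁻¹ * (E * P⁻¹) := by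
      conv_lhs => rw [b1, b2]
      rw [Matrix.mul_add, ← Matrix.mul_assoc, ← Matrix.mul_assoc, ← Matrix.mul_assoc]
      abel
    have c3 : S = (P⁻¹ - P⁻¹ * E * P⁻¹ + P⁻¹ * E * (P + E)⁻¹ * (E * P⁻¹))
        + (P⁻¹ + P⁻¹ * E * P⁻¹ + P⁻¹ * E * (P - E)⁻¹ * (E * P⁻¹)) := by
      rw [← c1, ← c2]
    conv_lhs => rw [c3]
    rw [hS, Matrix.mul_add, Matrix.add_mul, two_smul]
    abel
  have hT : (E * P⁻¹)ᵀ = P⁻¹ * E := by rw [transpose_mul, hE, hPt]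
  have hconj : ∀ Q : Matrix n n ℝ, 0 ≤ Q → 0 ≤ P⁻¹ * E * Q * (E * P⁻¹) := by
    intro Q hQ
    have := frob_psd_conjT hQ (E * P⁻¹)
    rwa [hT] at this
  have hS2 : 0 ≤ S - (2 : ℝ) • P⁻¹ := by rw [hS1]; exact hconj S hS0
  rw [← sub_nonneg]
  have : S - (2 : ℝ) • P⁻¹ - (2 : ℝ) • (P⁻¹ * E * P⁻¹ * E * P⁻¹)
      = P⁻¹ * E * (S - (2 : ℝ) • P⁻¹) * (E * P⁻¹) := by
    rw [Matrix.mul_sub, Matrix.sub_mul, ← hS1, Matrix.mul_smul, Matrix.smul_mul]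
    simp only [Matrix.mul_assoc]
  rw [this]
  exact hconj _ hS2

/-- Jensen gap at a fixed parameter -/
theorem ht_gap {K E : Matrix n n ℝ} (hE : Eᵀ = E) (hK : 0 ≤ K) (h1 : 0 ≤ K + E)
    (h2 : 0 ≤ K - E) {t : ℝ} (h : 0 < t) :
    2 * t ^ 2 * trace ((sh K t)⁻¹ * E * (sh K t)⁻¹ * E * (sh K t)⁻¹)
      ≤ ht (K + E) t + ht (K - E) t - 2 * ht K t := by
  have e1 : sh (K + E) t = sh K t + E := by unfold sh; abel
  have e2 : sh (K - E) t = sh K t - E := by unfold sh; abel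
  have p1 : (sh K t + E).PosDef := by rw [← e1]; exact sh_posDef h1 h
  have p2 : (sh K t - E).PosDef := by rw [← e2]; exact sh_posDef h2 h
  have key := inv_convex hE (sh_posDef hK h) p1 p2
  have key2 := trace_nonneg_of_psd (sub_nonneg.mpr key)
  rw [trace_sub, trace_sub, trace_add, trace_smul, trace_smul, smul_eq_mul, smul_eq_mul] at key2
  rw [ht_eq h1 h, ht_eq h2 h, ht_eq hK h, e1, e2, trace_add, trace_sub]
  have ht2 : 0 ≤ t ^ 2 := by positivity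
  nlinarith [mul_nonneg ht2 key2]

end Crest.Agent.R072.Nd
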