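import Crest.Agent.R072.LatticeInt
import Crest.Prelude.Def_TriangularHilbert

set_option autoImplicit false

namespace Crest.Agent.R072.Transfer

open MeasureTheory Crest.AnalysisR
open scoped ENNReal

/-- Riemann sum of the truncated triangular form with mesh `δ` -/
noncomputable def Bdelta (F G : ℝ × ℝ → ℂ) (δ ε R : ℝ) (z : ℝ × ℝ) : ℂ :=
  ∑ᶠ s : ℤ, if ε < δ * |(s : ℝ)| ∧ δ * |(s : ℝ)| < R then
    F (z.1 + δ * s, z.2) * G (z.1, z.2 + δ * s) / (s : ℂ) else 0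

theorem continuous_slice {F G : ℝ × ℝ → ℂ} (hF : Continuous F) (hG : Continuous G) (z : ℝ × ℝ) :
    Continuous fun t : ℝ => F (z.1 + t, z.2) * G (z.1, z.2 + t) := by
  fun_prop

/-- floor to the grid of mesh `δ` -/
theorem floor_grid_le {δ : ℝ} (hδ : 0 < δ) (t : ℝ) : δ * ⌊t / δ⌋ ≤ t := by
  have := Int.floor_le (t / δ)
  calc δ * ⌊t / δ⌋ ≤ δ * (t / δ) := by gcongr
    _ = t := by field_simp

theorem lt_floor_grid {δ : ℝ} (hδ : 0 < δ) (t : ℝ) : t < δ * ⌊t / δ⌋ + δ := by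
  have := Int.lt_floor_add_one (t / δ)
  calc t = δ * (t / δ) := by field_simp
    _ < δ * (⌊t / δ⌋ + 1) := by gcongr
    _ = _ := by ring

theorem integral_step (φ : ℝ → ℂ) (R δ : ℝ) (hδ : 0 < δ) (hφ : ∀ t, R ≤ |t| → φ t = 0) :
    ∫ t, φ (δ * ⌊t / δ⌋) = ∑ᶠ s : ℤ, (δ : ℂ) * φ (δ * s) := by
  obtain ⟨N, hN⟩ : ∃ N : ℕ, R / δ ≤ N := exists_nat_ge _
  have hz : ∀ s : ℤ, s ∉ Finset.Icc (-(N : ℤ)) N → φ (δ * s) = 0 := by
    intro s hs
    apply hφ
    rw [abs_mul, abs_of_pos hδ]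
    have h1 : (N : ℝ) < |(s : ℝ)| := by
      simp only [Finset.mem_Icc, not_and_or, not_le] at hs
      have : (N : ℤ) < |s| := by
        rcases hs with hs | hs
        · have := neg_abs_le s; omega
        · have := le_abs_self s; omega
      exact_mod_cast this
    have : R ≤ δ * N := by
      rw [div_le_iff₀ hδ] at hN; linarith
    nlinarith
  have hsum : ∀ t : ℝ, φ (δ * ⌊t / δ⌋) =
      ∑ s ∈ Finset.Icc (-(N : ℤ)) N, ({t : ℝ | ⌊t / δ⌋ = s}.indicator (fun _ => φ (δ * s)) t) := by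
    intro t
    have : ∀ s : ℤ, ({t : ℝ | ⌊t / δ⌋ = s}.indicator (fun _ => φ (δ * s)) t) =
        if ⌊t / δ⌋ = s then φ (δ * s) else 0 := by
      intro s
      simp [Set.indicator_apply]
    simp_rw [this]
    rw [Finset.sum_ite_eq]
    split_ifs with h
    · rfl
    · exact hz _ h
  have hset : ∀ s : ℤ, {t : ℝ | ⌊t / δ⌋ = s} = Set.Ico (δ * s) (δ * s + δ) := by
    intro s
    ext t
    simp only [Set.mem_ofPred_eq, Int.floor_eq_iff, Set.mem_Ico]
    rw [le_div_iff₀ hδ, div_lt_iff₀ hδ]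
    constructor
    · rintro ⟨h1, h2⟩; constructor <;> nlinarith
    · rintro ⟨h1, h2⟩; constructor <;> nlinarith
  have hmeas : ∀ s : ℤ, MeasurableSet {t : ℝ | ⌊t / δ⌋ = s} := by
    intro s; rw [hset]; exact measurableSet_Ico
  have hvol : ∀ s : ℤ, volume {t : ℝ | ⌊t / δ⌋ = s} = ENNReal.ofReal δ := by
    intro s; rw [hset]; simp
  calc ∫ t, φ (δ * ⌊t / δ⌋) = ∫ t, ∑ s ∈ Finset.Icc (-(N : ℤ)) N,
        ({t : ℝ | ⌊t / δ⌋ = s}.indicator (fun _ => φ (δ * s)) t) := by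
        congr 1; ext t; exact hsum t
    _ = ∑ s ∈ Finset.Icc (-(N : ℤ)) N, ∫ t,
        ({t : ℝ | ⌊t / δ⌋ = s}.indicator (fun _ => φ (δ * s)) t) := by
        apply integral_finsetSum
        intro s _
        rw [integrable_indicator_iff (hmeas s)]
        exact integrableOn_const (by rw [hvol]; simp) (by simp)
    _ = ∑ s ∈ Finset.Icc (-(N : ℤ)) N, (δ : ℂ) * φ (δ * s) := by
        apply Finset.sum_congr rfl
        intro s _
        rw [integral_indicator (hmeas s), setIntegral_const]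
        simp only [Measure.real, hvol, ENNReal.toReal_ofReal hδ.le]
        rw [Complex.real_smul]
    _ = ∑ᶠ s : ℤ, (δ : ℂ) * φ (δ * s) := by
        rw [finsum_eq_sum_of_support_subset]
        intro s hs
        by_contra hc
        apply hs
        simp only [Finset.coe_Icc, Set.mem_Icc] at hc
        show (δ : ℂ) * φ (δ * s) = 0
        rw [hz s (by simpa using hc)]; simp

/-- the truncated kernel function -/
noncomputable def cut (h : ℝ → ℂ) (ε R : ℝ) (t : ℝ) : ℂ :=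
  if ε < |t| ∧ |t| < R then h t / (t : ℂ) else 0

theorem Bdelta_eq {F G : ℝ × ℝ → ℂ} {δ ε R : ℝ} (hδ : 0 < δ) (hε : 0 < ε) (z : ℝ × ℝ) :
    Bdelta F G δ ε R z =
      ∫ t, cut (fun t => F (z.1 + t, z.2) * G (z.1, z.2 + t)) ε R (δ * ⌊t / δ⌋) := by
  rw [integral_step _ R δ hδ]
  · unfold Bdelta
    apply finsum_congr
    intro s
    unfold cut
    rw [abs_mul, abs_of_pos hδ]
    split_ifs with h
    · have hs : (s : ℂ) ≠ 0 := by
        intro h0
        have : s = 0 := by exact_mod_cast h0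
        rw [this] at h
        simp at h
        linarith [h.1]
      have hδ' : (δ : ℂ) ≠ 0 := by exact_mod_cast hδ.ne'
      push_cast
      field_simp
    · simp
  · intro t ht
    unfold cut
    rw [if_neg]
    intro h
    linarith [h.2]

theorem continuousAt_cut {h : ℝ → ℂ} (hh : Continuous h) {ε R t : ℝ} (hε : 0 < ε)
    (h1 : |t| ≠ ε) (h2 : |t| ≠ R) : ContinuousAt (cut h ε R) t := by
  by_cases hc : ε < |t| ∧ |t| < R
  · have hev : (fun t => h t / (t : ℂ)) =ᶠ[nhds t] cut h ε R := by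
      have hopen : IsOpen {t : ℝ | ε < |t| ∧ |t| < R} :=
        (isOpen_lt continuous_const continuous_abs).inter
          (isOpen_lt continuous_abs continuous_const)
      filter_upwards [hopen.mem_nhds hc] with u hu
      unfold cut
      rw [if_pos hu]
    refine ContinuousAt.congr ?_ hev
    apply ContinuousAt.div hh.continuousAt (Complex.continuous_ofReal.continuousAt)
    have : t ≠ 0 := by
      intro h0
      rw [h0] at hc; simp at hc; linarith [hc.1]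
    exact_mod_cast this
  · have hev : (fun _ => (0 : ℂ)) =ᶠ[nhds t] cut h ε R := by
      rw [not_and_or, not_lt, not_lt] at hc
      rcases hc with hc | hc
      · have hlt : |t| < ε := lt_of_le_of_ne hc h1
        filter_upwards [(isOpen_lt continuous_abs continuous_const).mem_nhds hlt] with u hu
        unfold cut
        rw [if_neg]
        intro h'
        have hu' : |u| < ε := hu
        linarith [h'.1]
      · have hlt : R < |t| := lt_of_le_of_ne hc (Ne.symm h2)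
        filter_upwards [(isOpen_lt continuous_const continuous_abs).mem_nhds hlt] with u hu
        unfold cut
        rw [if_neg]
        intro h'
        have hu' : R < |u| := hu
        linarith [h'.2]
    exact ContinuousAt.congr continuousAt_const hev

/-- Riemann sums converge pointwise. -/
theorem Bdelta_tendsto {F G : ℝ × ℝ → ℂ} (hF : Continuous F) (hFc : HasCompactSupport F)
    (hG : Continuous G) (hGc : HasCompactSupport G) {ε R : ℝ} (hε : 0 < ε) (hR : ε < R)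
    (z : ℝ × ℝ) :
    Filter.Tendsto (fun k : ℕ => Bdelta F G (1 / ((k : ℝ) + 1)) ε R z) Filter.atTop
      (nhds (annularTriangularHT F G ε R z)) := by
  obtain ⟨MF, hMF⟩ := hF.bounded_above_of_compact_support hFc
  obtain ⟨MG, hMG⟩ := hG.bounded_above_of_compact_support hGc
  set h : ℝ → ℂ := fun t => F (z.1 + t, z.2) * G (z.1, z.2 + t) with hh
  have hcont : Continuous h := continuous_slice hF hG z
  have hMF0 : 0 ≤ MF := (norm_nonneg _).trans (hMF 0)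
  have hbd : ∀ t, ‖h t‖ ≤ MF * MG := by
    intro t
    rw [hh]
    simp only [norm_mul]
    exact mul_le_mul (hMF _) (hMG _) (norm_nonneg _) hMF0
  have hcutbd : ∀ t, ‖cut h ε R t‖ ≤ MF * MG / ε := by
    intro t
    unfold cut
    split_ifs with hc
    · rw [norm_div, Complex.norm_real, Real.norm_eq_abs]
      have : 0 ≤ MF * MG := (norm_nonneg _).trans (hbd t)
      calc ‖h t‖ / |t| ≤ MF * MG / |t| := by
            apply div_le_div_of_nonneg_right (hbd t) (abs_nonneg t)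
        _ ≤ MF * MG / ε := by
            apply div_le_div_of_nonneg_left this hε hc.1.le
    · simp
      have : 0 ≤ MF * MG := (norm_nonneg _).trans (hbd t)
      positivity
  have hint : annularTriangularHT F G ε R z = ∫ t, cut h ε R t := by
    unfold annularTriangularHT
    have hm : MeasurableSet {t : ℝ | ε < |t| ∧ |t| < R} :=
      ((isOpen_lt continuous_const continuous_abs).inter
          (isOpen_lt continuous_abs continuous_const)).measurableSet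
    rw [← integral_indicator hm]
    congr 1
    ext t
    simp only [Set.indicator_apply, Set.mem_ofPred_eq]
    rfl
  have hpos : ∀ k : ℕ, (0 : ℝ) < 1 / ((k : ℝ) + 1) := fun k => by positivity
  have hle1 : ∀ k : ℕ, (1 : ℝ) / ((k : ℝ) + 1) ≤ 1 := fun k => by
    rw [div_le_one (by positivity)]; linarith [Nat.cast_nonneg (α := ℝ) k]
  rw [hint]
  simp_rw [fun k : ℕ => Bdelta_eq (F := F) (G := G) (R := R) (hpos k) hε z]
  have hmeascut : Measurable (cut h ε R) := by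
    unfold cut
    refine Measurable.ite ?_ ?_ measurable_const
    · exact ((isOpen_lt continuous_const continuous_abs).inter
          (isOpen_lt continuous_abs continuous_const)).measurableSet
    · exact hcont.measurable.div (Complex.measurable_ofReal)
  apply tendsto_integral_of_dominated_convergence
    (fun t => (Set.Icc (-(|R| + 1)) (|R| + 1)).indicator (fun _ => MF * MG / ε) t)
  · intro k
    apply Measurable.aestronglyMeasurable
    apply hmeascut.comp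
    apply Measurable.const_mul
    have : Measurable fun t : ℝ => ⌊t / (1 / ((k : ℝ) + 1))⌋ :=
      Int.measurable_floor.comp (measurable_id.div_const _)
    exact (measurable_from_top (f := fun (n : ℤ) => (n : ℝ))).comp this
  · rw [integrable_indicator_iff measurableSet_Icc]
    exact integrableOn_const (by simp) (by simp)
  · intro k
    apply Filter.Eventually.of_forall
    intro t
    by_cases ht : t ∈ Set.Icc (-(|R| + 1)) (|R| + 1)
    · rw [Set.indicator_of_mem ht]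
      exact hcutbd _
    · rw [Set.indicator_of_notMem ht]
      have : cut h ε R (1 / ((k : ℝ) + 1) * ⌊t / (1 / ((k : ℝ) + 1))⌋) = 0 := by
        unfold cut
        rw [if_neg]
        rintro ⟨_, h2⟩
        apply ht
        have h3 := floor_grid_le (hpos k) t
        have h4 := lt_floor_grid (hpos k) t
        have h5 := hle1 k
        have h6 := abs_lt.mp (h2.trans_le (le_abs_self R))
        constructor <;> linarith [h6.1, h6.2]
      have e : ‖cut h ε R (1 / ((k : ℝ) + 1) * ⌊t / (1 / ((k : ℝ) + 1))⌋)‖ ≤ 0 := by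
        rw [this]; simp
      exact e
  · have hnull : ∀ᵐ t : ℝ, t ∉ ({ε, -ε, R, -R} : Set ℝ) := by
      apply Set.Countable.ae_notMem
      exact (Set.toFinite _).countable
    filter_upwards [hnull] with t ht
    simp only [Set.mem_insert_iff, Set.mem_singleton_iff, not_or] at ht
    have h1 : |t| ≠ ε := by
      intro h'
      rcases abs_eq hε.le |>.mp h' with h' | h'
      · exact ht.1 h'
      · exact ht.2.1 h'
    have h2 : |t| ≠ R := by
      intro h'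
      rcases abs_eq (hε.trans hR).le |>.mp h' with h' | h'
      · exact ht.2.2.1 h'
      · exact ht.2.2.2 h'
    have hca := continuousAt_cut hcont hε h1 h2
    refine hca.tendsto.comp ?_
    have hlim : Filter.Tendsto (fun k : ℕ => t - 1 / ((k : ℝ) + 1)) Filter.atTop (nhds t) := by
      have := (tendsto_one_div_add_atTop_nhds_zero_nat (𝕜 := ℝ)).const_sub t
      simpa using this
    refine tendsto_of_tendsto_of_tendsto_of_le_of_le hlim tendsto_const_nhds ?_ ?_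
    · intro k
      have := lt_floor_grid (hpos k) t
      simp only
      linarith
    · intro k
      exact floor_grid_le (hpos k) t


/-! ### tiling -/

/-- grid cell -/
def cell (δ : ℝ) (a : ℤ × ℤ) : Set (ℝ × ℝ) := {z | ⌊z.1 / δ⌋ = a.1 ∧ ⌊z.2 / δ⌋ = a.2}

theorem measurableSet_cell (δ : ℝ) (a : ℤ × ℤ) : MeasurableSet (cell δ a) := by
  have h1 : Measurable fun z : ℝ × ℝ => ⌊z.1 / δ⌋ := Int.measurable_floor.comp (by fun_prop)
  have h2 : Measurable fun z : ℝ × ℝ => ⌊z.2 / δ⌋ := Int.measurable_floor.comp (by fun_prop)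
  exact (h1 (measurableSet_singleton a.1)).inter (h2 (measurableSet_singleton a.2))

theorem lintegral_tile {δ : ℝ} (hδ : 0 < δ) {φ : ℝ × ℝ → ℝ≥0∞} (hφ : Measurable φ) :
    ∫⁻ z, φ z = ∫⁻ ξ in cell δ 0, ∑' a : ℤ × ℤ, φ (ξ.1 + δ * a.1, ξ.2 + δ * a.2) := by
  have hU : (⋃ a, cell δ a) = Set.univ := by
    ext z
    simp only [Set.mem_iUnion, Set.mem_univ, iff_true]
    exact ⟨(⌊z.1 / δ⌋, ⌊z.2 / δ⌋), rfl, rfl⟩
  have hd : Pairwise (Function.onFun Disjoint (cell δ)) := by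
    intro a b hab
    rw [Function.onFun, Set.disjoint_left]
    rintro z ⟨h1, h2⟩ ⟨h3, h4⟩
    exact hab (Prod.ext (h1.symm.trans h3) (h2.symm.trans h4))
  rw [← setLIntegral_univ, ← hU, lintegral_iUnion (measurableSet_cell δ) hd,
    lintegral_tsum (fun a => (by
      apply Measurable.aemeasurable
      exact hφ.comp (by fun_prop)))]
  congr 1
  ext a
  have hmp : MeasurePreserving (fun z : ℝ × ℝ => z + ((δ * a.1, δ * a.2) : ℝ × ℝ)) volume volume :=
    measurePreserving_add_right volume _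
  have h := hmp.setLIntegral_comp_preimage (measurableSet_cell δ a) hφ
  rw [← h]
  have hpre : (fun z : ℝ × ℝ => z + ((δ * a.1, δ * a.2) : ℝ × ℝ)) ⁻¹' cell δ a = cell δ 0 := by
    ext z
    simp only [cell, Set.mem_preimage, Set.mem_ofPred_eq, Prod.fst_add, Prod.snd_add,
      Prod.fst_zero, Prod.snd_zero]
    rw [add_div, add_div, mul_div_cancel_left₀ _ hδ.ne', mul_div_cancel_left₀ _ hδ.ne',
      Int.floor_add_intCast, Int.floor_add_intCast]
    simp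
  rw [hpre]
  rfl

/-! ### configurations -/

/-- configurations of at most `n` disjoint rational annuli -/
def Conf (n : ℕ) : Type :=
  Σ m : Fin (n + 1), {p : (Fin m → ℚ) × (Fin m → ℚ) //
    (∀ j, 0 < p.1 j ∧ p.1 j < p.2 j) ∧ ∀ i j, i ≠ j → p.2 i ≤ p.1 j ∨ p.2 j ≤ p.1 i}

instance (n : ℕ) : Countable (Conf n) := by
  unfold Conf
  infer_instance

/-- the sum over a configuration -/
noncomputable def Ssum (F G : ℝ × ℝ → ℂ) {n : ℕ} (ω : Conf n) (z : ℝ × ℝ) : ℝ≥0∞ :=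
  ∑ j, ‖annularTriangularHT F G (ω.2.1.1 j : ℝ) (ω.2.1.2 j : ℝ) z‖ₑ

noncomputable def Sdelta (F G : ℝ × ℝ → ℂ) (δ : ℝ) {n : ℕ} (ω : Conf n) (z : ℝ × ℝ) : ℝ≥0∞ :=
  ∑ j, ‖Bdelta F G δ (ω.2.1.1 j : ℝ) (ω.2.1.2 j : ℝ) z‖ₑ

theorem count_le (n : ℕ) (F G : ℝ × ℝ → ℂ) (z : ℝ × ℝ) :
    annulusCount n F G z ≤ ⨆ ω : Conf n, Ssum F G ω z := by
  unfold annulusCount
  refine iSup_le fun m => iSup_le fun hm => iSup_le fun ε => iSup_le fun R => iSup_le fun h1 =>
    iSup_le fun h2 => ?_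
  exact le_iSup (fun ω : Conf n => Ssum F G ω z) ⟨⟨m, by omega⟩, ⟨(ε, R), h1, h2⟩⟩

/-- `Bdelta` in lattice form -/
theorem Bdelta_eq_Bz (F G : ℝ × ℝ → ℂ) {δ ε R : ℝ} (hδ : 0 < δ) (hε : 0 < ε) (hR : ε < R)
    (ξ : ℝ × ℝ) (x y : ℤ) :
    Bdelta F G δ ε R (ξ.1 + δ * x, ξ.2 + δ * y) =
      LatticeInt.Bz (fun x y : ℤ => F (ξ.1 + δ * x, ξ.2 + δ * y))
        (fun x y : ℤ => G (ξ.1 + δ * x, ξ.2 + δ * y)) ⌊ε / δ⌋₊ (⌈R / δ⌉₊ - 1) x y := by
  have hRp : 0 < R := hε.trans hR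
  have hiff : ∀ s : ℕ, s ∈ Finset.Ioc ⌊ε / δ⌋₊ (⌈R / δ⌉₊ - 1) ↔ ε < δ * s ∧ δ * s < R := by
    intro s
    rw [Finset.mem_Ioc]
    have hc : 0 < ⌈R / δ⌉₊ := Nat.ceil_pos.mpr (by positivity)
    have e1 : ⌊ε / δ⌋₊ < s ↔ ε < δ * s := by
      rw [Nat.floor_lt (by positivity), div_lt_iff₀ hδ, mul_comm]
    have e2 : s ≤ ⌈R / δ⌉₊ - 1 ↔ δ * s < R := by
      have : s ≤ ⌈R / δ⌉₊ - 1 ↔ s < ⌈R / δ⌉₊ := by omega
      rw [this, Nat.lt_ceil, lt_div_iff₀ hδ, mul_comm]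
    rw [e1, e2]
  set A := ⌊ε / δ⌋₊ with hA
  set B := ⌈R / δ⌉₊ - 1 with hB
  have hdisj : Disjoint ((Finset.Ioc A B).image (fun s : ℕ => (s : ℤ)))
      ((Finset.Ioc A B).image (fun s : ℕ => -(s : ℤ))) := by
    rw [Finset.disjoint_left]
    intro s h1 h2
    rw [Finset.mem_image] at h1 h2
    obtain ⟨a, ha, rfl⟩ := h1
    obtain ⟨b, hb, h⟩ := h2
    rw [Finset.mem_Ioc] at ha hb
    omega
  unfold Bdelta LatticeInt.Bz
  rw [finsum_eq_sum_of_support_subset (s := (Finset.Ioc A B).image (fun s : ℕ => (s : ℤ)) ∪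
      (Finset.Ioc A B).image (fun s : ℕ => -(s : ℤ)))]
  · rw [Finset.sum_union hdisj, Finset.sum_image (by intro a _ b _ h; simpa using h),
      Finset.sum_image (by intro a _ b _ h; simpa using h), ← Finset.sum_add_distrib]
    apply Finset.sum_congr rfl
    intro s hs
    have h := (hiff s).mp hs
    have hs0 : 0 < s := by
      rw [Finset.mem_Ioc] at hs; omega
    have habs : |((s : ℤ) : ℝ)| = (s : ℝ) := by
      simp
    have habs' : |((-(s : ℤ) : ℤ) : ℝ)| = (s : ℝ) := by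
      simp
    rw [habs, habs', if_pos h, if_pos h]
    have hsc : (s : ℂ) ≠ 0 := by exact_mod_cast hs0.ne'
    have e1 : ξ.1 + δ * (x : ℝ) + δ * ((s : ℤ) : ℝ) = ξ.1 + δ * (((x + s : ℤ)) : ℝ) := by
      push_cast; ring
    have e2 : ξ.2 + δ * (y : ℝ) + δ * ((s : ℤ) : ℝ) = ξ.2 + δ * (((y + s : ℤ)) : ℝ) := by
      push_cast; ring
    have e3 : ξ.1 + δ * (x : ℝ) + δ * ((-(s : ℤ) : ℤ) : ℝ) = ξ.1 + δ * (((x - s : ℤ)) : ℝ) := by
      push_cast; ring
    have e4 : ξ.2 + δ * (y : ℝ) + δ * ((-(s : ℤ) : ℤ) : ℝ) = ξ.2 + δ * (((y - s : ℤ)) : ℝ) := by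
      push_cast; ring
    simp only [e1, e2, e3, e4]
    push_cast
    field_simp
    ring
  · intro s hs
    simp only [Function.mem_support, ne_eq, ite_eq_right_iff, Classical.not_imp] at hs
    have hcond := hs.1
    have habs : |(s : ℝ)| = ((s.natAbs : ℕ) : ℝ) := by
      rw [Nat.cast_natAbs]; push_cast; rfl
    rw [habs] at hcond
    have hmem := (hiff s.natAbs).mpr hcond
    simp only [Finset.coe_union, Finset.coe_image, Set.mem_union, Set.mem_image, Finset.mem_coe]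
    rcases Int.natAbs_eq s with h | h
    · left; exact ⟨s.natAbs, hmem, h.symm⟩
    · right; exact ⟨s.natAbs, hmem, h.symm⟩

/-- radii in lattice units -/
noncomputable def LA (δ : ℝ) {n : ℕ} (ω : Conf n) (j : Fin n) : ℕ :=
  if h : (j : ℕ) < (ω.1 : ℕ) then ⌊((ω.2.1.1 ⟨j, h⟩ : ℚ) : ℝ) / δ⌋₊ else 0

noncomputable def LB (δ : ℝ) {n : ℕ} (ω : Conf n) (j : Fin n) : ℕ :=
  if h : (j : ℕ) < (ω.1 : ℕ) then ⌈((ω.2.1.2 ⟨j, h⟩ : ℚ) : ℝ) / δ⌉₊ - 1 else 0

theorem LA_le_LB {δ : ℝ} (hδ : 0 < δ) {n : ℕ} (ω : Conf n) (j : Fin n) : LA δ ω j ≤ LB δ ω j := by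
  unfold LA LB
  split_ifs with h
  · have h1 := (ω.2.2.1 ⟨j, h⟩).1
    have h2 := (ω.2.2.1 ⟨j, h⟩).2
    have h1' : (0 : ℝ) < ((ω.2.1.1 ⟨j, h⟩ : ℚ) : ℝ) := by exact_mod_cast h1
    have h2' : ((ω.2.1.1 ⟨j, h⟩ : ℚ) : ℝ) < ((ω.2.1.2 ⟨j, h⟩ : ℚ) : ℝ) := by exact_mod_cast h2
    have : ⌊((ω.2.1.1 ⟨j, h⟩ : ℚ) : ℝ) / δ⌋₊ < ⌈((ω.2.1.2 ⟨j, h⟩ : ℚ) : ℝ) / δ⌉₊ := by
      rw [Nat.lt_ceil]
      calc (⌊((ω.2.1.1 ⟨j, h⟩ : ℚ) : ℝ) / δ⌋₊ : ℝ) ≤ ((ω.2.1.1 ⟨j, h⟩ : ℚ) : ℝ) / δ :=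
            Nat.floor_le (by positivity)
        _ < _ := by gcongr
    omega
  · exact le_rfl

theorem LB_le_LA {δ : ℝ} (hδ : 0 < δ) {n : ℕ} (ω : Conf n) (i j : Fin n) (hij : i ≠ j) :
    LB δ ω i ≤ LA δ ω j ∨ LB δ ω j ≤ LA δ ω i := by
  have key : ∀ r e : ℚ, 0 < e → r ≤ e → ⌈(r : ℝ) / δ⌉₊ - 1 ≤ ⌊(e : ℝ) / δ⌋₊ := by
    intro r e he hre
    have h1 : (r : ℝ) / δ ≤ (e : ℝ) / δ := by
      have : (r : ℝ) ≤ (e : ℝ) := by exact_mod_cast hre
      gcongr
    have h2 : ⌈(r : ℝ) / δ⌉₊ ≤ ⌊(e : ℝ) / δ⌋₊ + 1 := by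
      rw [Nat.ceil_le]
      push_cast
      exact h1.trans (Nat.lt_floor_add_one _).le
    omega
  unfold LA LB
  by_cases hi : (i : ℕ) < (ω.1 : ℕ)
  · by_cases hj : (j : ℕ) < (ω.1 : ℕ)
    · simp only [dif_pos hi, dif_pos hj]
      have hne : (⟨i, hi⟩ : Fin ω.1) ≠ ⟨j, hj⟩ := by
        intro h
        apply hij
        ext
        simpa using h
      rcases ω.2.2.2 ⟨i, hi⟩ ⟨j, hj⟩ hne with h | h
      · left
        exact key _ _ (ω.2.2.1 ⟨j, hj⟩).1 h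
      · right
        exact key _ _ (ω.2.2.1 ⟨i, hi⟩).1 h
    · simp only [dif_pos hi, dif_neg hj]
      right; omega
  · by_cases hj : (j : ℕ) < (ω.1 : ℕ)
    · simp only [dif_neg hi, dif_pos hj]
      left; omega
    · simp only [dif_neg hi, dif_neg hj]
      left; omega

theorem Sdelta_eq (F G : ℝ × ℝ → ℂ) {δ : ℝ} (hδ : 0 < δ) {n : ℕ} (ω : Conf n) (ξ : ℝ × ℝ)
    (a : ℤ × ℤ) :
    Sdelta F G δ ω (ξ.1 + δ * a.1, ξ.2 + δ * a.2) =
      ∑ j, ‖LatticeInt.Bz (fun x y : ℤ => F (ξ.1 + δ * x, ξ.2 + δ * y))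
        (fun x y : ℤ => G (ξ.1 + δ * x, ξ.2 + δ * y)) (LA δ ω j) (LB δ ω j) a.1 a.2‖ₑ := by
  unfold Sdelta
  have hle : (ω.1 : ℕ) ≤ n := by have := ω.1.2; omega
  apply Fintype.sum_of_injective (Fin.castLE hle) (Fin.castLE_injective hle)
  · intro j hj
    have hlt : ¬ (j : ℕ) < (ω.1 : ℕ) := by
      intro h
      apply hj
      exact ⟨⟨j, h⟩, by ext; simp⟩
    unfold LA LB LatticeInt.Bz
    rw [dif_neg hlt, dif_neg hlt]
    simp
  · intro j
    have hlt : ((Fin.castLE hle j : Fin n) : ℕ) < (ω.1 : ℕ) := by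
      simp
    unfold LA LB
    rw [dif_pos hlt, dif_pos hlt]
    have h1 := (ω.2.2.1 j).1
    have h2 := (ω.2.2.1 j).2
    have h1' : (0 : ℝ) < ((ω.2.1.1 j : ℚ) : ℝ) := by exact_mod_cast h1
    have h2' : ((ω.2.1.1 j : ℚ) : ℝ) < ((ω.2.1.2 j : ℚ) : ℝ) := by exact_mod_cast h2
    rw [Bdelta_eq_Bz F G hδ h1' h2']
    rfl


theorem continuous_Bdelta {F G : ℝ × ℝ → ℂ} (hF : Continuous F) (hG : Continuous G)
    {δ ε R : ℝ} (hδ : 0 < δ) : Continuous (Bdelta F G δ ε R) := by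
  have hfin : {s : ℤ | ε < δ * |(s : ℝ)| ∧ δ * |(s : ℝ)| < R}.Finite := by
    obtain ⟨N, hN⟩ : ∃ N : ℕ, R / δ ≤ N := exists_nat_ge _
    apply (Set.finite_Icc (-(N : ℤ)) N).subset
    intro s hs
    have h2 : δ * |(s : ℝ)| < R := hs.2
    have h3 : |(s : ℝ)| < N := by
      rw [div_le_iff₀ hδ] at hN
      nlinarith
    have h4 : |s| < (N : ℤ) := by exact_mod_cast h3
    rw [abs_lt] at h4
    simp only [Set.mem_Icc]
    omega
  have he : Bdelta F G δ ε R = fun z => ∑ s ∈ hfin.toFinset,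
      F (z.1 + δ * s, z.2) * G (z.1, z.2 + δ * s) / (s : ℂ) := by
    ext z
    unfold Bdelta
    rw [finsum_eq_sum_of_support_subset (s := hfin.toFinset)]
    · apply Finset.sum_congr rfl
      intro s hs
      rw [Set.Finite.mem_toFinset] at hs
      have hs' : ε < δ * |(s : ℝ)| ∧ δ * |(s : ℝ)| < R := hs
      rw [if_pos hs']
    · intro s hs
      simp only [Function.mem_support, ne_eq, ite_eq_right_iff, Classical.not_imp] at hs
      rw [Set.Finite.coe_toFinset]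
      exact hs.1
  rw [he]
  apply continuous_finsetSum
  intro s _
  fun_prop

theorem measurable_Sdelta {F G : ℝ × ℝ → ℂ} (hF : Continuous F) (hG : Continuous G)
    {δ : ℝ} (hδ : 0 < δ) {n : ℕ} (ω : Conf n) : Measurable (Sdelta F G δ ω) := by
  unfold Sdelta
  apply Finset.measurable_sum
  intro j _
  exact (continuous_Bdelta hF hG hδ).measurable.enorm

/-- the statement of the lattice theorem with constant `C` -/
def LatticeBound (C : ℝ) : Prop := ∀ (n : ℕ), 1 ≤ n → ∀ (f g : ℤ → ℤ → ℂ),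
    (∃ L : ℕ, ∀ x y, (L : ℤ) < |x| ∨ (L : ℤ) < |y| → f x y = 0 ∧ g x y = 0) →
    ∀ (A B : ℤ → ℤ → Fin n → ℕ), (∀ x y j, A x y j ≤ B x y j) →
      (∀ x y i j, i ≠ j → B x y i ≤ A x y j ∨ B x y j ≤ A x y i) →
      ∑' z : ℤ × ℤ, (∑ j, ‖LatticeInt.Bz f g (A z.1 z.2 j) (B z.1 z.2 j) z.1 z.2‖ₑ) ^ (3 / 2 : ℝ) ≤
        ENNReal.ofReal (C * Real.sqrt n) ^ (3 / 2 : ℝ) *
          (∑' z : ℤ × ℤ, ‖f z.1 z.2‖ₑ ^ (3 : ℝ)) ^ (1 / 2 : ℝ) *
          (∑' z : ℤ × ℤ, ‖g z.1 z.2‖ₑ ^ (3 : ℝ)) ^ (1 / 2 : ℝ)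

theorem compact_box {F : ℝ × ℝ → ℂ} (hF : HasCompactSupport F) :
    ∃ L : ℝ, 0 ≤ L ∧ ∀ z : ℝ × ℝ, L < |z.1| ∨ L < |z.2| → F z = 0 := by
  obtain ⟨L, hL⟩ := hF.isCompact.isBounded.exists_norm_le
  refine ⟨max L 0, le_max_right _ _, ?_⟩
  intro z hz
  by_contra hne
  have hmem : z ∈ tsupport F := subset_tsupport F hne
  have h := hL z hmem
  have h1 : |z.1| ≤ ‖z‖ := norm_fst_le z
  have h2 : |z.2| ≤ ‖z‖ := norm_snd_le z
  have h3 : L ≤ max L 0 := le_max_left _ _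
  rcases hz with hz | hz <;> linarith

theorem lattice_box {F G : ℝ × ℝ → ℂ} (hF : HasCompactSupport F) (hG : HasCompactSupport G)
    {δ : ℝ} (hδ : 0 < δ) (ξ : ℝ × ℝ) :
    ∃ L : ℕ, ∀ x y : ℤ, (L : ℤ) < |x| ∨ (L : ℤ) < |y| →
      F (ξ.1 + δ * x, ξ.2 + δ * y) = 0 ∧ G (ξ.1 + δ * x, ξ.2 + δ * y) = 0 := by
  obtain ⟨L1, h10, h1⟩ := compact_box hF
  obtain ⟨L2, h20, h2⟩ := compact_box hG
  obtain ⟨L, hL⟩ : ∃ L : ℕ, (L1 + L2 + |ξ.1| + |ξ.2|) / δ ≤ L := exists_nat_ge _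
  refine ⟨L, ?_⟩
  intro x y hxy
  rw [div_le_iff₀ hδ] at hL
  have a1 : 0 ≤ |ξ.1| := abs_nonneg _
  have a2 : 0 ≤ |ξ.2| := abs_nonneg _
  have key : ∀ (u : ℤ) (t : ℝ), (L : ℤ) < |u| → |t| ≤ |ξ.1| + |ξ.2| → L1 + L2 < |t + δ * u| := by
    intro u t hu ht
    have hu' : (L : ℝ) < |(u : ℝ)| := by exact_mod_cast hu
    have h3 : |δ * (u : ℝ)| ≤ |t + δ * u| + |t| := by
      have := abs_sub_abs_le_abs_sub (δ * (u : ℝ)) (-t)
      rw [abs_neg, sub_neg_eq_add, add_comm (δ * (u : ℝ)) t] at this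
      linarith
    rw [abs_mul, abs_of_pos hδ] at h3
    nlinarith
  rcases hxy with h | h
  · have := key x ξ.1 h (by linarith)
    exact ⟨h1 _ (Or.inl (by simp only; linarith)), h2 _ (Or.inl (by simp only; linarith))⟩
  · have := key y ξ.2 h (by linarith)
    exact ⟨h1 _ (Or.inr (by simp only; linarith)), h2 _ (Or.inr (by simp only; linarith))⟩

theorem delta_bound {C : ℝ} (hlat : LatticeBound C) {n : ℕ} (hn : 1 ≤ n) {F G : ℝ × ℝ → ℂ}
    (hF : Continuous F) (hFc : HasCompactSupport F) (hG : Continuous G)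
    (hGc : HasCompactSupport G) {δ : ℝ} (hδ : 0 < δ) (Φ : Finset (Conf n)) :
    ∫⁻ z, (⨆ ω ∈ Φ, Sdelta F G δ ω z ^ (3 / 2 : ℝ)) ≤
      ENNReal.ofReal (C * Real.sqrt n) ^ (3 / 2 : ℝ) *
        (∫⁻ z, ‖F z‖ₑ ^ (3 : ℝ)) ^ (1 / 2 : ℝ) * (∫⁻ z, ‖G z‖ₑ ^ (3 : ℝ)) ^ (1 / 2 : ℝ) := by
  have hmF : Measurable fun z => ‖F z‖ₑ ^ (3 : ℝ) := hF.measurable.enorm.pow_const _
  have hmG : Measurable fun z => ‖G z‖ₑ ^ (3 : ℝ) := hG.measurable.enorm.pow_const _
  have hmS : Measurable fun z => (⨆ ω ∈ Φ, Sdelta F G δ ω z ^ (3 / 2 : ℝ)) := by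
    apply Measurable.biSup _ Φ.countable_toSet
    intro ω _
    exact (measurable_Sdelta hF hG hδ ω).pow_const _
  rw [lintegral_tile hδ hmS, lintegral_tile hδ hmF, lintegral_tile hδ hmG]
  set K := ENNReal.ofReal (C * Real.sqrt n) ^ (3 / 2 : ℝ) with hK
  set P : ℝ × ℝ → ℝ≥0∞ := fun ξ => ∑' a : ℤ × ℤ, ‖F (ξ.1 + δ * a.1, ξ.2 + δ * a.2)‖ₑ ^ (3 : ℝ)
    with hP
  set Q : ℝ × ℝ → ℝ≥0∞ := fun ξ => ∑' a : ℤ × ℤ, ‖G (ξ.1 + δ * a.1, ξ.2 + δ * a.2)‖ₑ ^ (3 : ℝ)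
    with hQ
  have hPm : Measurable P := by
    apply Measurable.tsum
    intro a
    exact hmF.comp (by fun_prop)
  have hQm : Measurable Q := by
    apply Measurable.tsum
    intro a
    exact hmG.comp (by fun_prop)
  have hpt : ∀ ξ : ℝ × ℝ, ∑' a : ℤ × ℤ, (⨆ ω ∈ Φ, Sdelta F G δ ω
      (ξ.1 + δ * a.1, ξ.2 + δ * a.2) ^ (3 / 2 : ℝ)) ≤ K * (P ξ ^ (1 / 2 : ℝ) * Q ξ ^ (1 / 2 : ℝ)) := by
    intro ξ
    rcases Φ.eq_empty_or_nonempty with hΦ | hΦ
    · subst hΦ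
      simp
    · have hex : ∀ a : ℤ × ℤ, ∃ ω : Conf n, (⨆ ω ∈ Φ, Sdelta F G δ ω
          (ξ.1 + δ * a.1, ξ.2 + δ * a.2) ^ (3 / 2 : ℝ)) =
          Sdelta F G δ ω (ξ.1 + δ * a.1, ξ.2 + δ * a.2) ^ (3 / 2 : ℝ) := by
        intro a
        obtain ⟨ω, hω, he⟩ := Φ.exists_mem_eq_sup hΦ
          (fun ω => Sdelta F G δ ω (ξ.1 + δ * a.1, ξ.2 + δ * a.2) ^ (3 / 2 : ℝ))
        refine ⟨ω, ?_⟩
        rw [← he, Finset.sup_eq_iSup]
      choose om hom using hex
      simp_rw [hom, Sdelta_eq F G hδ]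
      have h := hlat n hn (fun x y : ℤ => F (ξ.1 + δ * x, ξ.2 + δ * y))
        (fun x y : ℤ => G (ξ.1 + δ * x, ξ.2 + δ * y)) (lattice_box hFc hGc hδ ξ)
        (fun x y j => LA δ (om (x, y)) j) (fun x y j => LB δ (om (x, y)) j)
        (fun x y j => LA_le_LB hδ _ j) (fun x y i j hij => LB_le_LA hδ _ i j hij)
      rw [← mul_assoc]
      exact h
  calc ∫⁻ ξ in cell δ 0, ∑' a : ℤ × ℤ, (⨆ ω ∈ Φ, Sdelta F G δ ω
      (ξ.1 + δ * a.1, ξ.2 + δ * a.2) ^ (3 / 2 : ℝ))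
      ≤ ∫⁻ ξ in cell δ 0, K * (P ξ ^ (1 / 2 : ℝ) * Q ξ ^ (1 / 2 : ℝ)) :=
        lintegral_mono fun ξ => hpt ξ
    _ = K * ∫⁻ ξ in cell δ 0, P ξ ^ (1 / 2 : ℝ) * Q ξ ^ (1 / 2 : ℝ) := by
        rw [lintegral_const_mul]
        exact (hPm.pow_const _).mul (hQm.pow_const _)
    _ ≤ K * ((∫⁻ ξ in cell δ 0, (P ξ ^ (1 / 2 : ℝ)) ^ (2 : ℝ)) ^ (1 / 2 : ℝ) *
          (∫⁻ ξ in cell δ 0, (Q ξ ^ (1 / 2 : ℝ)) ^ (2 : ℝ)) ^ (1 / 2 : ℝ)) := by
        gcongr
        exact ENNReal.lintegral_mul_le_Lp_mul_Lq (volume.restrict (cell δ 0))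
          Real.HolderConjugate.two_two (hPm.pow_const _).aemeasurable
          (hQm.pow_const _).aemeasurable
    _ = K * (∫⁻ ξ in cell δ 0, P ξ) ^ (1 / 2 : ℝ) * (∫⁻ ξ in cell δ 0, Q ξ) ^ (1 / 2 : ℝ) := by
        have e : ∀ x : ℝ≥0∞, (x ^ (1 / 2 : ℝ)) ^ (2 : ℝ) = x := by
          intro x
          rw [← ENNReal.rpow_mul]; norm_num
        simp_rw [e]
        rw [mul_assoc]

theorem Sdelta_tendsto {F G : ℝ × ℝ → ℂ}
    (hF : Continuous F) (hFc : HasCompactSupport F) (hG : Continuous G)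
    (hGc : HasCompactSupport G) {n : ℕ} (ω : Conf n) (z : ℝ × ℝ) :
    Filter.Tendsto (fun k : ℕ => Sdelta F G (1 / ((k : ℝ) + 1)) ω z) Filter.atTop
      (nhds (Ssum F G ω z)) := by
  unfold Sdelta Ssum
  apply tendsto_finsetSum
  intro j _
  have h1 := (ω.2.2.1 j).1
  have h2 := (ω.2.2.1 j).2
  have h1' : (0 : ℝ) < ((ω.2.1.1 j : ℚ) : ℝ) := by exact_mod_cast h1
  have h2' : ((ω.2.1.1 j : ℚ) : ℝ) < ((ω.2.1.2 j : ℚ) : ℝ) := by exact_mod_cast h2
  exact (Bdelta_tendsto hF hFc hG hGc h1' h2' z).enorm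

/-- lattice bound integrated over shifts: for a finite family `𝒜` of rational annuli and `n`
disjoint members chosen depending on the point. -/
theorem count_cc : ∃ C : ℝ, 0 ≤ C ∧ ∀ (n : ℕ), 1 ≤ n → ∀ (F G : ℝ × ℝ → ℂ),
    Continuous F → HasCompactSupport F → Continuous G → HasCompactSupport G →
    (∫⁻ z, annulusCount n F G z ^ (3 / 2 : ℝ)) ^ (2 / 3 : ℝ) ≤
      ENNReal.ofReal (C * Real.sqrt n) * eLpNorm F 3 volume * eLpNorm G 3 volume := by
  obtain ⟨C, hC, hlat⟩ := LatticeInt.lattice_int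
  refine ⟨C, hC, ?_⟩
  intro n hn F G hF hFc hG hGc
  set RHS := ENNReal.ofReal (C * Real.sqrt n) ^ (3 / 2 : ℝ) *
        (∫⁻ z, ‖F z‖ₑ ^ (3 : ℝ)) ^ (1 / 2 : ℝ) * (∫⁻ z, ‖G z‖ₑ ^ (3 : ℝ)) ^ (1 / 2 : ℝ) with hRHS
  have hδk : ∀ k : ℕ, (0 : ℝ) < 1 / ((k : ℝ) + 1) := fun k => by positivity
  have hSm : ∀ ω : Conf n, Measurable (Ssum F G ω) := by
    intro ω
    apply measurable_of_tendsto_metrizable
      (f := fun k : ℕ => Sdelta F G (1 / ((k : ℝ) + 1)) ω)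
    · intro k; exact measurable_Sdelta hF hG (hδk k) ω
    · rw [tendsto_pi_nhds]
      intro z
      exact Sdelta_tendsto hF hFc hG hGc ω z
  have hfin : ∀ Φ : Finset (Conf n), ∫⁻ z, (⨆ ω ∈ Φ, Ssum F G ω z ^ (3 / 2 : ℝ)) ≤ RHS := by
    intro Φ
    calc ∫⁻ z, (⨆ ω ∈ Φ, Ssum F G ω z ^ (3 / 2 : ℝ))
        ≤ ∫⁻ z, Filter.liminf (fun k : ℕ => ⨆ ω ∈ Φ,
            Sdelta F G (1 / ((k : ℝ) + 1)) ω z ^ (3 / 2 : ℝ)) Filter.atTop := by
          apply lintegral_mono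
          intro z
          refine iSup₂_le fun ω hω => ?_
          have ht : Filter.Tendsto (fun k : ℕ => Sdelta F G (1 / ((k : ℝ) + 1)) ω z ^ (3 / 2 : ℝ))
              Filter.atTop (nhds (Ssum F G ω z ^ (3 / 2 : ℝ))) :=
            (ENNReal.continuous_rpow_const.tendsto _).comp (Sdelta_tendsto hF hFc hG hGc ω z)
          rw [← ht.liminf_eq]
          refine Filter.liminf_le_liminf (Filter.Eventually.of_forall ?_)
            (by isBoundedDefault) (by isBoundedDefault)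
          intro k
          exact le_iSup₂ (f := fun (ω : Conf n) (_ : ω ∈ Φ) =>
            Sdelta F G (1 / ((k : ℝ) + 1)) ω z ^ (3 / 2 : ℝ)) ω hω
      _ ≤ Filter.liminf (fun k : ℕ => ∫⁻ z, ⨆ ω ∈ Φ,
            Sdelta F G (1 / ((k : ℝ) + 1)) ω z ^ (3 / 2 : ℝ)) Filter.atTop := by
          apply lintegral_liminf_le
          intro k
          apply Measurable.biSup _ Φ.countable_toSet
          intro ω _
          exact (measurable_Sdelta hF hG (hδk k) ω).pow_const _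
      _ ≤ RHS := by
          apply Filter.liminf_le_of_le (by isBoundedDefault)
          intro b hb
          obtain ⟨k, hk⟩ := hb.exists
          exact hk.trans (delta_bound hlat hn hF hFc hG hGc (hδk k) Φ)
  have hmain : ∫⁻ z, annulusCount n F G z ^ (3 / 2 : ℝ) ≤ RHS := by
    calc ∫⁻ z, annulusCount n F G z ^ (3 / 2 : ℝ)
        ≤ ∫⁻ z, ⨆ Φ : Finset (Conf n), ⨆ ω ∈ Φ, Ssum F G ω z ^ (3 / 2 : ℝ) := by
          apply lintegral_mono
          intro z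
          simp only
          rw [← iSup_eq_iSup_finset]
          calc annulusCount n F G z ^ (3 / 2 : ℝ)
              ≤ (⨆ ω : Conf n, Ssum F G ω z) ^ (3 / 2 : ℝ) :=
                ENNReal.rpow_le_rpow (count_le n F G z) (by norm_num)
            _ = ⨆ ω : Conf n, Ssum F G ω z ^ (3 / 2 : ℝ) :=
                (ENNReal.orderIsoRpow (3 / 2 : ℝ) (by norm_num)).map_iSup _
      _ = ⨆ Φ : Finset (Conf n), ∫⁻ z, ⨆ ω ∈ Φ, Ssum F G ω z ^ (3 / 2 : ℝ) := by
          apply lintegral_iSup_directed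
          · intro Φ
            apply Measurable.aemeasurable
            apply Measurable.biSup _ Φ.countable_toSet
            intro ω _
            exact (hSm ω).pow_const _
          · intro Φ Ψ
            classical
            refine ⟨Φ ∪ Ψ, ?_, ?_⟩
            · intro z
              exact iSup₂_le fun ω hω => le_iSup₂ (f := fun (ω : Conf n) (_ : ω ∈ Φ ∪ Ψ) =>
                Ssum F G ω z ^ (3 / 2 : ℝ)) ω (Finset.mem_union_left _ hω)
            · intro z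
              exact iSup₂_le fun ω hω => le_iSup₂ (f := fun (ω : Conf n) (_ : ω ∈ Φ ∪ Ψ) =>
                Ssum F G ω z ^ (3 / 2 : ℝ)) ω (Finset.mem_union_right _ hω)
      _ ≤ RHS := iSup_le hfin
  calc (∫⁻ z, annulusCount n F G z ^ (3 / 2 : ℝ)) ^ (2 / 3 : ℝ) ≤ RHS ^ (2 / 3 : ℝ) :=
        ENNReal.rpow_le_rpow hmain (by norm_num)
    _ = ENNReal.ofReal (C * Real.sqrt n) * eLpNorm F 3 volume * eLpNorm G 3 volume := by
        rw [hRHS, ENNReal.mul_rpow_of_nonneg _ _ (by norm_num),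
          ENNReal.mul_rpow_of_nonneg _ _ (by norm_num), ← ENNReal.rpow_mul, ← ENNReal.rpow_mul,
          ← ENNReal.rpow_mul]
        rw [eLpNorm_eq_lintegral_rpow_enorm_toReal (by norm_num) (by norm_num),
          eLpNorm_eq_lintegral_rpow_enorm_toReal (by norm_num) (by norm_num)]
        norm_num

end Crest.Agent.R072.Transfer
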