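import Crest.Prelude.Def_TriangularHilbert

/-! R072: S0095 from S0096. (No imports from the rest of R072.) -/

set_option autoImplicit false

namespace Crest.Agent.R072.Variation

open MeasureTheory Crest.AnalysisR Filter Topology
open scoped ENNReal

/-! ### Pointwise rearrangement -/

theorem rpow_sum_le_sum {ι : Type*} (s : Finset ι) (f : ι → ℝ≥0∞) {r : ℝ} (hr : 1 ≤ r) :
    (∑ i ∈ s, f i ^ r) ^ (1 / r) ≤ ∑ i ∈ s, f i := by
  classical
  have hr0 : 0 < r := by linarith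
  induction s using Finset.induction_on with
  | empty => simp [hr0]
  | insert a s ha ih =>
    rw [Finset.sum_insert ha, Finset.sum_insert ha]
    refine (ENNReal.rpow_add_le_add_rpow _ _ (by positivity)
      (by rw [div_le_one hr0]; exact hr)).trans ?_
    refine add_le_add ?_ ih
    rw [← ENNReal.rpow_mul, mul_one_div_cancel hr0.ne', ENNReal.rpow_one]

theorem sum_range_log_le (d : ℕ → ℝ≥0∞) (M : ℕ) :
    ∑ k ∈ Finset.range (2 ^ M - 1), d (Nat.log 2 (k + 1)) = ∑ i ∈ Finset.range M, 2 ^ i * d i := by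
  induction M with
  | zero => simp
  | succ M ih =>
    have h1 : 2 ^ (M + 1) - 1 = (2 ^ M - 1) + 2 ^ M := by
      have := Nat.one_le_two_pow (n := M)
      rw [pow_succ]; omega
    rw [h1, Finset.sum_range_add, ih, Finset.sum_range_succ]
    congr 1
    have h2 : ∀ x ∈ Finset.range (2 ^ M), d (Nat.log 2 (2 ^ M - 1 + x + 1)) = d M := by
      intro x hx
      have hx' := Finset.mem_range.1 hx
      have h3 : 2 ^ M - 1 + x + 1 = 2 ^ M + x := by
        have := Nat.one_le_two_pow (n := M)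
        omega
      rw [h3]
      congr 1
      rw [Nat.log_eq_iff (by simp)]
      refine ⟨by omega, ?_⟩
      rw [pow_succ]; omega
    rw [Finset.sum_congr rfl h2]
    simp

/-- abstract form of the decreasing rearrangement argument -/
theorem rearrange {N : ℕ} (b : Fin N → ℝ≥0∞) (S : ℕ → ℝ≥0∞)
    (hS : ∀ m, ∀ σ : Fin m → Fin N, Function.Injective σ → ∑ l, b (σ l) ≤ S m)
    {r : ℝ} (hr : 1 ≤ r) :
    (∑ j, b j ^ r) ^ (1 / r) ≤
      ∑' i : ℕ, ENNReal.ofReal ((2 : ℝ) ^ ((i : ℝ) * (1 / r - 1))) * S (2 ^ i) := by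
  have hr0 : 0 < r := by linarith
  let σ : Equiv.Perm (Fin N) := Fin.revPerm.trans (Tuple.sort b)
  let c : Fin N → ℝ≥0∞ := fun k => b (σ k)
  have hc : Antitone c := by
    intro k l hkl
    have hm : Monotone (b ∘ Tuple.sort b) := Tuple.monotone_sort b
    exact hm (Fin.rev_le_rev.2 hkl)
  have hsum : ∑ j, b j ^ r = ∑ k, c k ^ r := (Equiv.sum_comp σ (fun j => b j ^ r)).symm
  let d : ℕ → ℝ≥0∞ := fun i => (S (2 ^ i) * ((2 : ℝ≥0∞) ^ i)⁻¹) ^ r
  have hcd : ∀ k : Fin N, c k ^ r ≤ d (Nat.log 2 ((k : ℕ) + 1)) := by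
    intro k
    set i := Nat.log 2 ((k : ℕ) + 1) with hi
    have hpow : 2 ^ i ≤ (k : ℕ) + 1 := Nat.pow_log_le_self 2 (by omega)
    have hk := k.2
    let ρ : Fin (2 ^ i) → Fin N := fun l => σ ⟨l, by have := l.2; omega⟩
    have hρ : Function.Injective ρ := by
      intro l l' h
      have := σ.injective h
      exact Fin.ext (by simpa using this)
    have h1 := hS (2 ^ i) ρ hρ
    have h2 : ∑ _l : Fin (2 ^ i), c k ≤ ∑ l, b (ρ l) := by
      refine Finset.sum_le_sum fun l _ => ?_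
      exact hc (by
        rw [Fin.le_def]
        have := l.2
        show (l : ℕ) ≤ k
        omega)
    have h3 : c k * 2 ^ i ≤ S (2 ^ i) := by
      have h4 : ∑ _l : Fin (2 ^ i), c k = c k * 2 ^ i := by
        simp [mul_comm]
      rw [← h4]
      exact h2.trans h1
    refine ENNReal.rpow_le_rpow ?_ hr0.le
    have h5 : c k ≤ S (2 ^ i) / 2 ^ i := by
      rw [ENNReal.le_div_iff_mul_le (Or.inl (by simp)) (Or.inl (by simp))]
      exact h3
    rwa [div_eq_mul_inv] at h5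
  obtain ⟨M, hM⟩ : ∃ M : ℕ, N ≤ 2 ^ M - 1 := ⟨N, by
    have : N < 2 ^ N := Nat.lt_two_pow_self
    omega⟩
  have h6 : ∑ k : Fin N, c k ^ r ≤ ∑ i ∈ Finset.range M, 2 ^ i * d i := by
    calc ∑ k : Fin N, c k ^ r ≤ ∑ k : Fin N, d (Nat.log 2 ((k : ℕ) + 1)) :=
          Finset.sum_le_sum fun k _ => hcd k
      _ = ∑ k ∈ Finset.range N, d (Nat.log 2 (k + 1)) :=
          Fin.sum_univ_eq_sum_range (fun k => d (Nat.log 2 (k + 1))) N
      _ ≤ ∑ k ∈ Finset.range (2 ^ M - 1), d (Nat.log 2 (k + 1)) :=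
          Finset.sum_le_sum_of_subset (Finset.range_mono hM)
      _ = _ := sum_range_log_le d M
  let e : ℕ → ℝ≥0∞ := fun i =>
    ENNReal.ofReal ((2 : ℝ) ^ ((i : ℝ) * (1 / r - 1))) * S (2 ^ i)
  have h7 : ∀ i, 2 ^ i * d i = e i ^ r := by
    intro i
    simp only [d, e]
    rw [ENNReal.mul_rpow_of_nonneg _ _ hr0.le, ENNReal.mul_rpow_of_nonneg _ _ hr0.le,
      mul_comm (S (2 ^ i) ^ r), ← mul_assoc]
    congr 1
    rw [ENNReal.ofReal_rpow_of_pos (by positivity), ← Real.rpow_mul (by norm_num)]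
    have e1 : ((2 : ℝ≥0∞) ^ i)⁻¹ ^ r = ENNReal.ofReal ((2 : ℝ) ^ (-(i : ℝ) * r)) := by
      have : ((2 : ℝ≥0∞) ^ i)⁻¹ = ENNReal.ofReal ((2 : ℝ) ^ (-(i : ℝ))) := by
        rw [Real.rpow_neg (by norm_num), Real.rpow_natCast, ENNReal.ofReal_inv_of_pos (by positivity),
          ENNReal.ofReal_pow (by norm_num)]
        simp
      rw [this, ENNReal.ofReal_rpow_of_pos (by positivity), ← Real.rpow_mul (by norm_num)]
    have e2 : (2 : ℝ≥0∞) ^ i = ENNReal.ofReal ((2 : ℝ) ^ (i : ℝ)) := by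
      rw [Real.rpow_natCast, ENNReal.ofReal_pow (by norm_num)]
      simp
    rw [e1, e2, ← ENNReal.ofReal_mul (by positivity), ← Real.rpow_add (by norm_num)]
    congr 2
    field_simp
    ring
  calc (∑ j, b j ^ r) ^ (1 / r) = (∑ k, c k ^ r) ^ (1 / r) := by rw [hsum]
    _ ≤ (∑ i ∈ Finset.range M, e i ^ r) ^ (1 / r) := by
        refine ENNReal.rpow_le_rpow ?_ (by positivity)
        rw [← Finset.sum_congr rfl fun i _ => h7 i]
        exact h6
    _ ≤ ∑ i ∈ Finset.range M, e i := rpow_sum_le_sum _ _ hr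
    _ ≤ ∑' i, e i := ENNReal.sum_le_tsum _

/-- pointwise: `V_r ≤ ∑_i 2^{i(1/r-1)} S_{2^i}` -/
theorem annularVariation_le_tsum (r : ℝ) (hr : 2 < r) (F G : ℝ × ℝ → ℂ) (z : ℝ × ℝ) :
    annularVariation r F G z ≤
      ∑' i : ℕ, ENNReal.ofReal ((2 : ℝ) ^ ((i : ℝ) * (1 / r - 1))) * annulusCount (2 ^ i) F G z := by
  unfold annularVariation
  refine iSup_le fun J => iSup_le fun t => iSup_le fun ht => iSup_le fun h0 => ?_
  refine rearrange (N := J + 1)
    (fun j => ‖annularTriangularHT F G (t (Fin.castSucc j) : ℝ) (t (Fin.succ j) : ℝ) z‖ₑ)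
    (fun n => annulusCount n F G z) ?_ (by linarith)
  intro m σ hσ
  have hpos : ∀ k, 0 < t k := fun k => h0.trans_le (ht.monotone (Fin.zero_le k))
  unfold annulusCount
  refine le_iSup_of_le m (le_iSup_of_le le_rfl (le_iSup_of_le (fun l => t (Fin.castSucc (σ l)))
    (le_iSup_of_le (fun l => t (Fin.succ (σ l))) (le_iSup_of_le ?_ (le_iSup_of_le ?_ le_rfl)))))
  · intro j
    exact ⟨hpos _, ht (Fin.castSucc_lt_succ)⟩
  · intro i j hij
    have hne : σ i ≠ σ j := fun h => hij (hσ h)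
    rcases lt_or_gt_of_ne hne with h | h
    · left
      refine ht.monotone ?_
      rw [Fin.le_def]
      have : (σ i : ℕ) < σ j := h
      simp only [Fin.val_succ, Fin.val_castSucc]
      omega
    · right
      refine ht.monotone ?_
      rw [Fin.le_def]
      have : (σ j : ℕ) < σ i := h
      simp only [Fin.val_succ, Fin.val_castSucc]
      omega

/-! ### Measurability -/

theorem qmp_first : Measure.QuasiMeasurePreserving
    (fun p : (ℝ × ℝ) × ℝ => (p.1.1 + p.2, p.1.2)) (volume.prod volume) volume := by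
  refine ⟨by fun_prop, ?_⟩
  refine Measure.AbsolutelyContinuous.mk fun s hs h0 => ?_
  have hm : MeasurableSet ((fun p : (ℝ × ℝ) × ℝ => (p.1.1 + p.2, p.1.2)) ⁻¹' s) :=
    (by fun_prop : Measurable (fun p : (ℝ × ℝ) × ℝ => (p.1.1 + p.2, p.1.2))) hs
  rw [Measure.map_apply (by fun_prop) hs]
  rw [Measure.prod_apply_symm hm]
  simp only [lintegral_eq_zero_iff' (measurable_measure_prodMk_right hm).aemeasurable]
  refine Eventually.of_forall fun t => ?_
  have : (fun x : ℝ × ℝ => (x, t)) ⁻¹' ((fun p : (ℝ × ℝ) × ℝ => (p.1.1 + p.2, p.1.2)) ⁻¹' s) =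
      (fun x : ℝ × ℝ => x + (t, 0)) ⁻¹' s := by
    ext x
    simp [Prod.add_def]
  show volume _ = 0
  rw [this, measure_preimage_add_right, h0]

theorem qmp_second : Measure.QuasiMeasurePreserving
    (fun p : (ℝ × ℝ) × ℝ => (p.1.1, p.1.2 + p.2)) (volume.prod volume) volume := by
  refine ⟨by fun_prop, ?_⟩
  refine Measure.AbsolutelyContinuous.mk fun s hs h0 => ?_
  have hm : MeasurableSet ((fun p : (ℝ × ℝ) × ℝ => (p.1.1, p.1.2 + p.2)) ⁻¹' s) :=
    (by fun_prop : Measurable (fun p : (ℝ × ℝ) × ℝ => (p.1.1, p.1.2 + p.2))) hs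
  rw [Measure.map_apply (by fun_prop) hs]
  rw [Measure.prod_apply_symm hm]
  simp only [lintegral_eq_zero_iff' (measurable_measure_prodMk_right hm).aemeasurable]
  refine Eventually.of_forall fun t => ?_
  have : (fun x : ℝ × ℝ => (x, t)) ⁻¹' ((fun p : (ℝ × ℝ) × ℝ => (p.1.1, p.1.2 + p.2)) ⁻¹' s) =
      (fun x : ℝ × ℝ => x + (0, t)) ⁻¹' s := by
    ext x
    simp [Prod.add_def]
  show volume _ = 0
  rw [this, measure_preimage_add_right, h0]

theorem aestronglyMeasurable_ht {F G : ℝ × ℝ → ℂ} (hF : AEStronglyMeasurable F volume)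
    (hG : AEStronglyMeasurable G volume) (ε R : ℝ) :
    AEStronglyMeasurable (fun z => annularTriangularHT F G ε R z) volume := by
  unfold annularTriangularHT
  have h1 : AEStronglyMeasurable
      (fun p : (ℝ × ℝ) × ℝ => F (p.1.1 + p.2, p.1.2)) (volume.prod volume) :=
    hF.comp_quasiMeasurePreserving qmp_first
  have h2 : AEStronglyMeasurable
      (fun p : (ℝ × ℝ) × ℝ => G (p.1.1, p.1.2 + p.2)) (volume.prod volume) :=
    hG.comp_quasiMeasurePreserving qmp_second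
  have h3 : AEStronglyMeasurable
      (fun p : (ℝ × ℝ) × ℝ => F (p.1.1 + p.2, p.1.2) * G (p.1.1, p.1.2 + p.2) / (p.2 : ℂ))
      (volume.prod (volume.restrict {t : ℝ | ε < |t| ∧ |t| < R})) := by
    have h4 : AEStronglyMeasurable
      (fun p : (ℝ × ℝ) × ℝ => F (p.1.1 + p.2, p.1.2) * G (p.1.1, p.1.2 + p.2) / (p.2 : ℂ))
      ((volume : Measure (ℝ × ℝ)).prod volume) := by
      simp only [div_eq_mul_inv]
      refine (h1.mul h2).mul ?_
      have : Measurable (fun p : (ℝ × ℝ) × ℝ => ((p.2 : ℂ))⁻¹) := by fun_prop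
      exact this.aestronglyMeasurable
    refine h4.mono_ac ?_
    exact Measure.AbsolutelyContinuous.prod Measure.AbsolutelyContinuous.rfl
      Measure.restrict_le_self.absolutelyContinuous
  exact h3.integral_prod_right'

theorem aemeasurable_count {F G : ℝ × ℝ → ℂ} (hF : AEStronglyMeasurable F volume)
    (hG : AEStronglyMeasurable G volume) (n : ℕ) :
    AEMeasurable (fun z => annulusCount n F G z) volume := by
  unfold annulusCount
  refine AEMeasurable.iSup fun m => AEMeasurable.iSup fun _ => AEMeasurable.iSup fun ε =>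
    AEMeasurable.iSup fun R => AEMeasurable.iSup fun _ => AEMeasurable.iSup fun _ => ?_
  exact Finset.aemeasurable_fun_sum _ fun j _ => (aestronglyMeasurable_ht hF hG _ _).enorm

/-! ### Minkowski -/

theorem minkowski_finset {α : Type*} [MeasurableSpace α] {μ : Measure α} {f : ℕ → α → ℝ≥0∞}
    (hf : ∀ i, AEMeasurable (f i) μ) (N : ℕ) :
    (∫⁻ z, (∑ i ∈ Finset.range N, f i z) ^ (3 / 2 : ℝ) ∂μ) ^ (2 / 3 : ℝ) ≤
      ∑ i ∈ Finset.range N, (∫⁻ z, f i z ^ (3 / 2 : ℝ) ∂μ) ^ (2 / 3 : ℝ) := by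
  induction N with
  | zero => simp
  | succ N ih =>
    simp only [Finset.sum_range_succ]
    have h := ENNReal.lintegral_Lp_add_le (p := 3 / 2) (μ := μ)
      (f := fun z => ∑ i ∈ Finset.range N, f i z) (g := f N)
      (Finset.aemeasurable_fun_sum _ fun i _ => hf i) (hf N) (by norm_num)
    have e : (1 : ℝ) / (3 / 2) = 2 / 3 := by norm_num
    rw [e] at h
    exact h.trans (add_le_add ih le_rfl)

theorem minkowski_tsum {α : Type*} [MeasurableSpace α] {μ : Measure α} {f : ℕ → α → ℝ≥0∞}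
    (hf : ∀ i, AEMeasurable (f i) μ) :
    (∫⁻ z, (∑' i, f i z) ^ (3 / 2 : ℝ) ∂μ) ^ (2 / 3 : ℝ) ≤
      ∑' i, (∫⁻ z, f i z ^ (3 / 2 : ℝ) ∂μ) ^ (2 / 3 : ℝ) := by
  have h1 : Tendsto (fun N => ∫⁻ z, (∑ i ∈ Finset.range N, f i z) ^ (3 / 2 : ℝ) ∂μ) atTop
      (𝓝 (∫⁻ z, (∑' i, f i z) ^ (3 / 2 : ℝ) ∂μ)) := by
    refine lintegral_tendsto_of_tendsto_of_monotone ?_ ?_ ?_
    · intro N
      exact (Finset.aemeasurable_fun_sum _ fun i _ => hf i).pow_const _
    · refine Eventually.of_forall fun z N N' hNN => ?_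
      exact ENNReal.rpow_le_rpow (Finset.sum_le_sum_of_subset (Finset.range_mono hNN)) (by norm_num)
    · refine Eventually.of_forall fun z => ?_
      exact (ENNReal.continuous_rpow_const.tendsto _).comp
        (ENNReal.tendsto_nat_tsum fun i => f i z)
  have h2 := (ENNReal.continuous_rpow_const (y := (2 / 3 : ℝ))).tendsto _ |>.comp h1
  refine le_of_tendsto' h2 fun N => ?_
  exact (minkowski_finset hf N).trans (ENNReal.sum_le_tsum _)

/-! ### Summability -/

theorem summable_weights (r : ℝ) (hr : 2 < r) :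
    Summable fun i : ℕ => (2 : ℝ) ^ ((i : ℝ) * (1 / r - 1)) *
      (Real.sqrt ((2 ^ i : ℕ) : ℝ) * Real.log (2 + ((2 ^ i : ℕ) : ℝ))) := by
  have hr0 : 0 < r := by linarith
  set q : ℝ := (2 : ℝ) ^ (1 / r - 1 / 2) with hq
  have hq0 : 0 < q := by positivity
  have hq1 : q < 1 := by
    rw [hq]
    refine Real.rpow_lt_one_of_one_lt_of_neg (by norm_num) ?_
    have : 1 / r < 1 / 2 := one_div_lt_one_div_of_lt (by norm_num) hr
    linarith
  have h1 : Summable fun i : ℕ => ((i : ℝ) * q ^ i + 2 * q ^ i) := by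
    refine Summable.add ?_ ((summable_geometric_of_lt_one hq0.le hq1).mul_left 2)
    have := summable_pow_mul_geometric_of_norm_lt_one (R := ℝ) 1
      (r := q) (by rwa [Real.norm_of_nonneg hq0.le])
    simpa using this
  refine Summable.of_nonneg_of_le (fun i => ?_) (fun i => ?_) h1
  · have : 0 ≤ Real.log (2 + ((2 ^ i : ℕ) : ℝ)) := Real.log_nonneg (by
      have : (0 : ℝ) ≤ ((2 ^ i : ℕ) : ℝ) := Nat.cast_nonneg _
      linarith)
    positivity
  · have hs : (2 : ℝ) ^ ((i : ℝ) * (1 / r - 1)) * Real.sqrt ((2 ^ i : ℕ) : ℝ) = q ^ i := by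
      have e1 : Real.sqrt ((2 ^ i : ℕ) : ℝ) = (2 : ℝ) ^ ((i : ℝ) * (1 / 2)) := by
        rw [Real.sqrt_eq_rpow, Nat.cast_pow, Nat.cast_ofNat, ← Real.rpow_natCast,
          ← Real.rpow_mul (by norm_num)]
      rw [e1, ← Real.rpow_add (by norm_num), hq, ← Real.rpow_natCast, ← Real.rpow_mul (by norm_num)]
      congr 1
      ring
    have hl : Real.log (2 + ((2 ^ i : ℕ) : ℝ)) ≤ (i : ℝ) + 2 := by
      have e1 : (2 : ℝ) + ((2 ^ i : ℕ) : ℝ) ≤ 2 ^ (i + 2) := by
        have : (1 : ℝ) ≤ 2 ^ i := one_le_pow₀ (by norm_num)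
        push_cast
        rw [pow_add]
        nlinarith
      have e2 : Real.log (2 + ((2 ^ i : ℕ) : ℝ)) ≤ Real.log ((2 : ℝ) ^ (i + 2)) :=
        Real.log_le_log (by positivity) e1
      rw [Real.log_pow] at e2
      have e3 : Real.log 2 ≤ 1 := by
        have := Real.log_two_lt_d9
        linarith
      have e4 : ((i + 2 : ℕ) : ℝ) * Real.log 2 ≤ ((i + 2 : ℕ) : ℝ) * 1 := by
        gcongr
      have e5 : ((i + 2 : ℕ) : ℝ) = (i : ℝ) + 2 := by push_cast; ring
      rw [mul_one, e5] at e4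
      rw [e5] at e2
      linarith
    calc _ = q ^ i * Real.log (2 + ((2 ^ i : ℕ) : ℝ)) := by rw [← hs]; ring
      _ ≤ q ^ i * ((i : ℝ) + 2) := by gcongr
      _ = _ := by ring

/-- **S0095 from S0096** (the bound of S0096 is a hypothesis). -/
theorem variation_of_count (C : ℝ) (hC : ∀ n : ℕ, 1 ≤ n → ∀ F G : ℝ × ℝ → ℂ,
      MemLp F 3 volume → MemLp G 3 volume →
        (∫⁻ z, annulusCount n F G z ^ (3 / 2 : ℝ)) ^ (2 / 3 : ℝ) ≤
          ENNReal.ofReal (C * Real.sqrt n * Real.log (2 + n)) * eLpNorm F 3 volume *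
            eLpNorm G 3 volume) (r : ℝ) (hr : 2 < r) :
    ∃ C' : ℝ, ∀ F G : ℝ × ℝ → ℂ, MemLp F 3 volume → MemLp G 3 volume →
      (∫⁻ z, annularVariation r F G z ^ (3 / 2 : ℝ)) ^ (2 / 3 : ℝ) ≤
        ENNReal.ofReal C' * eLpNorm F 3 volume * eLpNorm G 3 volume := by
  let w : ℕ → ℝ := fun i => (2 : ℝ) ^ ((i : ℝ) * (1 / r - 1))
  let l : ℕ → ℝ := fun i => Real.sqrt ((2 ^ i : ℕ) : ℝ) * Real.log (2 + ((2 ^ i : ℕ) : ℝ))
  have hw : ∀ i, 0 ≤ w i := fun i => by positivity
  have hl : ∀ i, 0 ≤ l i := fun i => by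
    have : 0 ≤ Real.log (2 + ((2 ^ i : ℕ) : ℝ)) := Real.log_nonneg (by
      have : (0 : ℝ) ≤ ((2 ^ i : ℕ) : ℝ) := Nat.cast_nonneg _
      linarith)
    positivity
  have hsum : Summable fun i => w i * l i := summable_weights r hr
  have hsum' : Summable fun i => |C| * (w i * l i) := hsum.mul_left _
  refine ⟨∑' i, |C| * (w i * l i), fun F G hF hG => ?_⟩
  have hf : ∀ i, AEMeasurable (fun z => ENNReal.ofReal (w i) * annulusCount (2 ^ i) F G z)
      volume := fun i =>
    (aemeasurable_count hF.aestronglyMeasurable hG.aestronglyMeasurable _).const_mul _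
  calc (∫⁻ z, annularVariation r F G z ^ (3 / 2 : ℝ)) ^ (2 / 3 : ℝ)
      ≤ (∫⁻ z, (∑' i : ℕ, ENNReal.ofReal (w i) * annulusCount (2 ^ i) F G z) ^ (3 / 2 : ℝ)) ^
          (2 / 3 : ℝ) := by
        refine ENNReal.rpow_le_rpow (lintegral_mono fun z => ?_) (by norm_num)
        exact ENNReal.rpow_le_rpow (annularVariation_le_tsum r hr F G z) (by norm_num)
    _ ≤ ∑' i, (∫⁻ z, (ENNReal.ofReal (w i) * annulusCount (2 ^ i) F G z) ^ (3 / 2 : ℝ)) ^
          (2 / 3 : ℝ) := minkowski_tsum hf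
    _ ≤ ∑' i, ENNReal.ofReal (|C| * (w i * l i)) * (eLpNorm F 3 volume * eLpNorm G 3 volume) := by
        refine ENNReal.tsum_le_tsum fun i => ?_
        have e1 : (∫⁻ z, (ENNReal.ofReal (w i) * annulusCount (2 ^ i) F G z) ^ (3 / 2 : ℝ)) ^
            (2 / 3 : ℝ) = ENNReal.ofReal (w i) *
              (∫⁻ z, annulusCount (2 ^ i) F G z ^ (3 / 2 : ℝ)) ^ (2 / 3 : ℝ) := by
          have e2 : ∀ z, (ENNReal.ofReal (w i) * annulusCount (2 ^ i) F G z) ^ (3 / 2 : ℝ) =
              ENNReal.ofReal (w i) ^ (3 / 2 : ℝ) * annulusCount (2 ^ i) F G z ^ (3 / 2 : ℝ) :=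
            fun z => ENNReal.mul_rpow_of_nonneg _ _ (by norm_num)
          simp only [e2]
          rw [lintegral_const_mul' _ _ (ENNReal.rpow_ne_top_of_nonneg (by norm_num)
            ENNReal.ofReal_ne_top), ENNReal.mul_rpow_of_nonneg _ _ (by norm_num),
            ← ENNReal.rpow_mul]
          norm_num
        rw [e1]
        have h1 := hC (2 ^ i) Nat.one_le_two_pow F G hF hG
        have h2 : ENNReal.ofReal (C * Real.sqrt ((2 ^ i : ℕ) : ℝ) *
            Real.log (2 + ((2 ^ i : ℕ) : ℝ))) ≤ ENNReal.ofReal (|C| * l i) := by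
          refine ENNReal.ofReal_le_ofReal ?_
          rw [mul_assoc]
          exact mul_le_mul_of_nonneg_right (le_abs_self C) (hl i)
        calc ENNReal.ofReal (w i) *
              (∫⁻ z, annulusCount (2 ^ i) F G z ^ (3 / 2 : ℝ)) ^ (2 / 3 : ℝ)
            ≤ ENNReal.ofReal (w i) * (ENNReal.ofReal (|C| * l i) * eLpNorm F 3 volume *
                eLpNorm G 3 volume) := by
              gcongr
              exact h1.trans (by gcongr)
          _ = ENNReal.ofReal (|C| * (w i * l i)) * (eLpNorm F 3 volume * eLpNorm G 3 volume) := by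
              rw [show |C| * (w i * l i) = w i * (|C| * l i) by ring, ENNReal.ofReal_mul (hw i)]
              ring
    _ = ENNReal.ofReal (∑' i, |C| * (w i * l i)) * eLpNorm F 3 volume * eLpNorm G 3 volume := by
        rw [ENNReal.tsum_mul_right, ENNReal.ofReal_tsum_of_nonneg
          (fun i => mul_nonneg (abs_nonneg _) (mul_nonneg (hw i) (hl i))) hsum', mul_assoc]

end Crest.Agent.R072.Variation
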