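import Crest.Prelude.Def_TriangularHilbert

/-! R072: pointwise bound `V_r ≤ ∑_i 2^{i(1/r-1)} S_{2^i}` (helper1). -/

set_option autoImplicit false

namespace Crest.Agent.R072.Variation

open MeasureTheory Crest.AnalysisR
open scoped ENNReal

theorem rpow_sum_le_sum_rpow' {ι : Type*} (s : Finset ι) (f : ι → ℝ≥0∞) (p : ℝ) (hp0 : 0 < p)
    (hp : p ≤ 1) : (∑ i ∈ s, f i) ^ p ≤ ∑ i ∈ s, f i ^ p := by
  classical
  induction s using Finset.induction_on with
  | empty => simp [ENNReal.zero_rpow_of_pos hp0]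
  | insert a s ha ih =>
    rw [Finset.sum_insert ha, Finset.sum_insert ha]
    exact (ENNReal.rpow_add_le_add_rpow _ _ hp0.le hp).trans (by gcongr)

/-- the count controls sums over an injective family of links of a chain -/
theorem sum_le_annulusCount {J : ℕ} (t : Fin (J + 2) → ℚ) (ht : StrictMono t) (h0 : 0 < t 0)
    (F G : ℝ × ℝ → ℂ) (z : ℝ × ℝ) {m n : ℕ} (hmn : m ≤ n) (τ : Fin m → Fin (J + 1))
    (hτ : Function.Injective τ) :
    ∑ j : Fin m, ‖annularTriangularHT F G (t (Fin.castSucc (τ j)) : ℝ) (t (Fin.succ (τ j)) : ℝ) z‖ₑ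
      ≤ annulusCount n F G z := by
  unfold annulusCount
  refine le_iSup_of_le m (le_iSup_of_le hmn ?_)
  refine le_iSup_of_le (fun j => t (Fin.castSucc (τ j))) ?_
  refine le_iSup_of_le (fun j => t (Fin.succ (τ j))) ?_
  have hpos : ∀ j, 0 < t (Fin.castSucc (τ j)) ∧ t (Fin.castSucc (τ j)) < t (Fin.succ (τ j)) := by
    intro j
    refine ⟨lt_of_lt_of_le h0 (ht.monotone (Fin.zero_le _)), ht (Fin.castSucc_lt_succ)⟩
  refine le_iSup_of_le hpos ?_
  have hdis : ∀ i j, i ≠ j → t (Fin.succ (τ i)) ≤ t (Fin.castSucc (τ j)) ∨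
      t (Fin.succ (τ j)) ≤ t (Fin.castSucc (τ i)) := by
    intro i j hij
    have hne : τ i ≠ τ j := fun h => hij (hτ h)
    rcases lt_or_gt_of_ne hne with h | h
    · left
      exact ht.monotone (Fin.succ_le_castSucc_iff.mpr h)
    · right
      exact ht.monotone (Fin.succ_le_castSucc_iff.mpr h)
  exact le_iSup_of_le hdis le_rfl

/-- pointwise: `V_r ≤ ∑_i 2^{i(1/r-1)} S_{2^i}` -/
theorem annularVariation_le_tsum (r : ℝ) (hr : 2 < r) (F G : ℝ × ℝ → ℂ) (z : ℝ × ℝ) :
    annularVariation r F G z ≤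
      ∑' i : ℕ, ENNReal.ofReal ((2 : ℝ) ^ ((i : ℝ) * (1 / r - 1))) * annulusCount (2 ^ i) F G z := by
  classical
  have hr0 : 0 < r := by linarith
  have hr1 : 1 / r ≤ 1 := by
    rw [div_le_one hr0]; linarith
  unfold annularVariation
  refine iSup_le fun J => iSup_le fun t => iSup_le fun ht => iSup_le fun h0 => ?_
  set b : Fin (J + 1) → ℝ≥0∞ := fun j =>
    ‖annularTriangularHT F G (t (Fin.castSucc j) : ℝ) (t (Fin.succ j) : ℝ) z‖ₑ with hb
  -- decreasing rearrangement
  set σ : Equiv.Perm (Fin (J + 1)) := Tuple.sort b with hσ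
  have hmono : Monotone (b ∘ σ) := Tuple.monotone_sort b
  set τ : Equiv.Perm (Fin (J + 1)) := Fin.revPerm.trans σ with hτ
  have hanti : Antitone (b ∘ τ) := by
    intro i j hij
    simp only [hτ, Function.comp_apply, Equiv.trans_apply, Fin.revPerm_apply]
    exact hmono (Fin.rev_le_rev.mpr hij)
  -- extension to ℕ, shifted by one
  set g : ℕ → ℝ≥0∞ := fun k => if h : k - 1 < J + 1 then b (τ ⟨k - 1, h⟩) else 0 with hg
  have hganti : ∀ ⦃m n : ℕ⦄, 0 < m → m ≤ n → g n ^ r ≤ g m ^ r := by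
    intro m n _ hmn
    refine ENNReal.rpow_le_rpow ?_ hr0.le
    simp only [hg]
    by_cases hn : n - 1 < J + 1
    · have hm : m - 1 < J + 1 := by omega
      rw [dif_pos hn, dif_pos hm]
      refine hanti ?_
      rw [Fin.mk_le_mk]; omega
    · rw [dif_neg hn]; exact zero_le
  have hganti' : ∀ ⦃m n : ℕ⦄, m ≤ n → g n ≤ g m := by
    intro m n hmn
    simp only [hg]
    by_cases hn : n - 1 < J + 1
    · have hm : m - 1 < J + 1 := by omega
      rw [dif_pos hn, dif_pos hm]
      refine hanti ?_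
      rw [Fin.mk_le_mk]; omega
    · rw [dif_neg hn]; exact zero_le
  have hgF : ∀ k : Fin (J + 1), g (k + 1) = b (τ k) := by
    intro k
    simp only [hg, Nat.add_sub_cancel]
    rw [dif_pos k.2]
  -- the sum of the first `2^i` values
  have hS : ∀ i : ℕ, ∑ k ∈ Finset.Ico 1 (2 ^ i + 1), g k ≤ annulusCount (2 ^ i) F G z := by
    intro i
    set m := min (2 ^ i) (J + 1) with hm
    have h1 : ∑ k ∈ Finset.Ico 1 (2 ^ i + 1), g k = ∑ k ∈ Finset.range (2 ^ i), g (k + 1) := by
      rw [Finset.sum_Ico_eq_sum_range]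
      simp [add_comm]
    have h2 : ∑ k ∈ Finset.range (2 ^ i), g (k + 1) = ∑ k ∈ Finset.range m, g (k + 1) := by
      symm
      refine Finset.sum_subset ?_ ?_
      · intro k hk
        simp only [Finset.mem_range] at hk ⊢
        exact lt_of_lt_of_le hk (min_le_left _ _)
      · intro k hk hk'
        simp only [Finset.mem_range, not_lt] at hk hk'
        simp only [hg, Nat.add_sub_cancel]
        rw [dif_neg]
        intro hlt
        have : k < m := lt_min hk hlt
        omega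
    have h3 : ∑ k ∈ Finset.range m, g (k + 1) =
        ∑ k : Fin m, b (τ (Fin.castLE (min_le_right _ _) k)) := by
      rw [← Fin.sum_univ_eq_sum_range (fun k => g (k + 1)) m]
      refine Finset.sum_congr rfl fun k _ => ?_
      have := hgF (Fin.castLE (min_le_right (2 ^ i) (J + 1)) k)
      simpa using this
    rw [h1, h2, h3]
    exact sum_le_annulusCount t ht h0 F G z (min_le_left _ _)
      (fun k => τ (Fin.castLE (min_le_right _ _) k))
      (τ.injective.comp (Fin.castLE_injective _))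
  -- bound the value at `2^i`
  have hval : ∀ i : ℕ, (2 : ℝ≥0∞) ^ i * g (2 ^ i) ≤ annulusCount (2 ^ i) F G z := by
    intro i
    refine le_trans ?_ (hS i)
    have : ∑ _k ∈ Finset.Ico 1 (2 ^ i + 1), g (2 ^ i) ≤ ∑ k ∈ Finset.Ico 1 (2 ^ i + 1), g k := by
      refine Finset.sum_le_sum fun k hk => ?_
      rw [Finset.mem_Ico] at hk
      exact hganti' (by omega)
    refine le_trans (le_of_eq ?_) this
    rw [Finset.sum_const, Nat.card_Ico, nsmul_eq_mul]
    simp
  -- choose n with J + 1 < 2^n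
  have hsum : ∑ j : Fin (J + 1), b j ^ r ≤ ∑ i ∈ Finset.range (J + 2), (2 : ℝ≥0∞) ^ i * g (2 ^ i) ^ r := by
    have e1 : ∑ j : Fin (J + 1), b j ^ r = ∑ j : Fin (J + 1), b (τ j) ^ r :=
      (Equiv.sum_comp τ (fun j => b j ^ r)).symm
    have e2 : ∑ j : Fin (J + 1), b (τ j) ^ r = ∑ k ∈ Finset.range (J + 1), g (k + 1) ^ r := by
      rw [← Fin.sum_univ_eq_sum_range (fun k => g (k + 1) ^ r) (J + 1)]
      refine Finset.sum_congr rfl fun k _ => ?_
      rw [hgF k]
    have e3 : ∑ k ∈ Finset.range (J + 1), g (k + 1) ^ r = ∑ k ∈ Finset.Ico 1 (J + 2), g k ^ r := by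
      rw [Finset.sum_Ico_eq_sum_range]
      simp [add_comm]
    have hlt : J + 2 ≤ 2 ^ (J + 2) := (Nat.lt_two_pow_self).le
    have e4 : ∑ k ∈ Finset.Ico 1 (J + 2), g k ^ r ≤ ∑ k ∈ Finset.Ico 1 (2 ^ (J + 2)), g k ^ r :=
      Finset.sum_le_sum_of_subset (Finset.Ico_subset_Ico_right hlt)
    have e5 := Finset.le_sum_condensed' (f := fun k => g k ^ r) hganti (J + 2)
    rw [e1, e2, e3]
    refine e4.trans (e5.trans (le_of_eq ?_))
    refine Finset.sum_congr rfl fun i _ => ?_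
    rw [nsmul_eq_mul]
    simp
  calc (∑ j : Fin (J + 1), b j ^ r) ^ (1 / r)
      ≤ (∑ i ∈ Finset.range (J + 2), (2 : ℝ≥0∞) ^ i * g (2 ^ i) ^ r) ^ (1 / r) :=
        ENNReal.rpow_le_rpow hsum (by positivity)
    _ ≤ ∑ i ∈ Finset.range (J + 2), ((2 : ℝ≥0∞) ^ i * g (2 ^ i) ^ r) ^ (1 / r) :=
        rpow_sum_le_sum_rpow' _ _ _ (by positivity) hr1
    _ ≤ ∑ i ∈ Finset.range (J + 2),
          ENNReal.ofReal ((2 : ℝ) ^ ((i : ℝ) * (1 / r - 1))) * annulusCount (2 ^ i) F G z := by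
        refine Finset.sum_le_sum fun i _ => ?_
        have h2 : ((2 : ℝ≥0∞) ^ i) = ENNReal.ofReal ((2 : ℝ) ^ (i : ℝ)) := by
          rw [Real.rpow_natCast, ENNReal.ofReal_pow (by norm_num)]
          simp
        rw [ENNReal.mul_rpow_of_nonneg _ _ (by positivity : (0 : ℝ) ≤ 1 / r), ← ENNReal.rpow_mul,
          mul_one_div_cancel hr0.ne', ENNReal.rpow_one]
        have h3 : ((2 : ℝ≥0∞) ^ i) ^ (1 / r) =
            ENNReal.ofReal ((2 : ℝ) ^ ((i : ℝ) * (1 / r - 1))) * (2 : ℝ≥0∞) ^ i := by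
          rw [h2, ENNReal.ofReal_rpow_of_pos (by positivity), ← ENNReal.ofReal_mul (by positivity),
            ← Real.rpow_mul (by norm_num), ← Real.rpow_add (by norm_num)]
          congr 2
          ring
        rw [h3, mul_assoc]
        gcongr
        exact hval i
    _ ≤ _ := ENNReal.sum_le_tsum _

end Crest.Agent.R072.Variation
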